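import Crest.Agent.R258.Defs

/-! Row 258: ampleness from generating sections. -/

set_option autoImplicit false

noncomputable section

namespace Crest.Agent.R258

open Crest.AlgGeometry.QuadricBundle MeasureTheory
open scoped ComplexConjugate ComplexOrder ENNReal

namespace Amp

open MvPolynomial

/-- polynomials in the two frame symbols -/
abbrev P2 : Type := MvPolynomial (Fin 2) ℂ

/-- forms of degree `n` -/
abbrev Hm (n : ℕ) : Submodule ℂ P2 := homogeneousSubmodule (Fin 2) ℂ n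

lemma Hm_add (m n : ℕ) : Hm (m + n) = Hm m * Hm n := by
  simp only [Hm]
  have h : ∀ k, homogeneousSubmodule (Fin 2) ℂ k = homogeneousSubmodule (Fin 2) ℂ 1 ^ k :=
    fun k => (homogeneousSubmodule_one_pow _ k).symm
  rw [h (m + n), h m, h n, pow_add]

lemma Hm_one_mem {R : P2} (h : R ∈ Hm 1) : ∃ a b : ℂ, R = a • X 0 + b • X 1 := by
  rw [Hm, homogeneousSubmodule_one_eq_span_X, Submodule.mem_span_range_iff_exists_fun] at h
  obtain ⟨c, rfl⟩ := h
  exact ⟨c 0, c 1, by simp [Fin.sum_univ_two]⟩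

lemma Hm_two_mem {R : P2} (h : R ∈ Hm 2) :
    ∃ a b c : ℂ, R = a • X 0 ^ 2 + b • (X 0 * X 1) + c • X 1 ^ 2 := by
  replace h : R ∈ Hm 1 * Hm 1 := by rw [← Hm_add]; exact h
  refine Submodule.mul_induction_on h ?_ ?_
  · intro x hx y hy
    obtain ⟨a, b, rfl⟩ := Hm_one_mem hx
    obtain ⟨a', b', rfl⟩ := Hm_one_mem hy
    refine ⟨a * a', a * b' + b * a', b * b', ?_⟩
    simp only [smul_eq_C_mul, map_add, map_mul]
    ring
  · rintro x y ⟨a, b, c, rfl⟩ ⟨a', b', c', rfl⟩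
    refine ⟨a + a', b + b', c + c', ?_⟩
    simp only [smul_eq_C_mul, map_add]
    ring

lemma Hm_three_mem {R : P2} (h : R ∈ Hm 3) :
    ∃ a b c d : ℂ, R = a • X 0 ^ 3 + b • (X 0 ^ 2 * X 1) + c • (X 0 * X 1 ^ 2) + d • X 1 ^ 3 := by
  replace h : R ∈ Hm 1 * Hm 2 := by rw [← Hm_add]; exact h
  refine Submodule.mul_induction_on h ?_ ?_
  · intro x hx y hy
    obtain ⟨a, b, rfl⟩ := Hm_one_mem hx
    obtain ⟨a', b', c', rfl⟩ := Hm_two_mem hy
    refine ⟨a * a', a * b' + b * a', a * c' + b * b', b * c', ?_⟩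
    simp only [smul_eq_C_mul, map_add, map_mul]
    ring
  · rintro x y ⟨a, b, c, d, rfl⟩ ⟨a', b', c', d', rfl⟩
    refine ⟨a + a', b + b', c + c', d + d', ?_⟩
    simp only [smul_eq_C_mul, map_add]
    ring

/-- A point of the conic `x₀ x₂ = x₁²` on the pencil spanned by two shifted triples. -/
lemma exists_conic_point (l0 l1 l2 l3 : ℂ) (h : ¬ (l0 = 0 ∧ l1 = 0 ∧ l2 = 0 ∧ l3 = 0)) :
    ∃ s t : ℂ, (s * l0 + t * l1) * (s * l2 + t * l3) = (s * l1 + t * l2) ^ 2 ∧
      ¬ (s * l0 + t * l1 = 0 ∧ s * l1 + t * l2 = 0 ∧ s * l2 + t * l3 = 0) := by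
  by_cases hA : l0 * l2 - l1 ^ 2 = 0
  · by_cases h0 : l0 = 0 ∧ l1 = 0 ∧ l2 = 0
    · obtain ⟨rfl, rfl, rfl⟩ := h0
      refine ⟨0, 1, by simp, ?_⟩
      simpa using h
    · refine ⟨1, 0, by linear_combination hA, ?_⟩
      simpa using h0
  · obtain ⟨s, hs⟩ := exists_quadratic_eq_zero (a := l0 * l2 - l1 ^ 2) (b := l0 * l3 - l1 * l2)
      (c := l1 * l3 - l2 ^ 2) hA (IsAlgClosed.exists_eq_mul_self _)
    refine ⟨s, 1, by linear_combination hs, ?_⟩
    rintro ⟨h1, h2, -⟩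
    apply hA
    linear_combination l0 * h2 - l1 * h1

lemma cubic_le (q : Fin 3 → P2) (hq : ∀ i, q i ∈ Hm 2)
    (hnz : ∀ v : C2, v ≠ 0 → ∃ i, eval v (q i) ≠ 0) :
    Hm 3 ≤ Hm 1 * Submodule.span ℂ (Set.range q) := by
  intro R hR
  by_contra hnot
  obtain ⟨f, hfR, hf⟩ := Submodule.exists_le_ker_of_notMem hnot
  obtain ⟨a, b, c, d, rfl⟩ := Hm_three_mem hR
  set l0 := f (X 0 ^ 3)
  set l1 := f (X 0 ^ 2 * X 1)
  set l2 := f (X 0 * X 1 ^ 2)
  set l3 := f (X 1 ^ 3)
  have hl : ¬ (l0 = 0 ∧ l1 = 0 ∧ l2 = 0 ∧ l3 = 0) := by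
    rintro ⟨h0, h1, h2, h3⟩
    apply hfR
    simp only [map_add, map_smul, smul_eq_mul]
    change a * l0 + b * l1 + c * l2 + d * l3 = 0
    rw [h0, h1, h2, h3]
    ring
  obtain ⟨s, t, hst, hne⟩ := exists_conic_point l0 l1 l2 l3 hl
  have key : ∀ i, ∃ a b c : ℂ, (∀ v : C2, eval v (q i) = a * v 0 ^ 2 + b * (v 0 * v 1) + c * v 1 ^ 2)
      ∧ a * (s * l0 + t * l1) + b * (s * l1 + t * l2) + c * (s * l2 + t * l3) = 0 := by
    intro i
    obtain ⟨a, b, c, hi⟩ := Hm_two_mem (hq i)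
    have hX : ∀ j : Fin 2, f (X j * q i) = 0 := fun j =>
      hf (Submodule.mul_mem_mul (isHomogeneous_X ℂ j) (Submodule.subset_span ⟨i, rfl⟩))
    have e0 : X 0 * q i = a • X 0 ^ 3 + b • (X 0 ^ 2 * X 1) + c • (X 0 * X 1 ^ 2) := by
      rw [hi]; simp only [smul_eq_C_mul]; ring
    have e1 : X 1 * q i = a • (X 0 ^ 2 * X 1) + b • (X 0 * X 1 ^ 2) + c • X 1 ^ 3 := by
      rw [hi]; simp only [smul_eq_C_mul]; ring
    have h0 := hX 0
    have h1 := hX 1
    rw [e0] at h0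
    rw [e1] at h1
    simp only [map_add, map_smul, smul_eq_mul] at h0 h1
    change a * l0 + b * l1 + c * l2 = 0 at h0
    change a * l1 + b * l2 + c * l3 = 0 at h1
    refine ⟨a, b, c, fun v => ?_, by linear_combination s * h0 + t * h1⟩
    rw [hi]
    simp [smul_eq_C_mul]
  generalize s * l0 + t * l1 = x0 at hst hne key
  generalize s * l1 + t * l2 = x1 at hst hne key
  generalize s * l2 + t * l3 = x2 at hst hne key
  by_cases hx0 : x0 = 0
  · have hx1 : x1 = 0 := by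
      rw [hx0, zero_mul] at hst
      exact pow_eq_zero_iff (two_ne_zero) |>.1 hst.symm
    have hx2 : x2 ≠ 0 := fun h => hne ⟨hx0, hx1, h⟩
    obtain ⟨i, hi⟩ := hnz ![0, 1] (by
      intro h
      have := congrFun h 1
      simp at this)
    obtain ⟨a, b, c, hv, h0⟩ := key i
    apply hi
    rw [hv]
    rw [hx0, hx1] at h0
    have hc : c = 0 := by
      have : c * x2 = 0 := by linear_combination h0
      exact (mul_eq_zero.1 this).resolve_right hx2
    simp [hc]
  · obtain ⟨i, hi⟩ := hnz ![x0, x1] (by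
      intro h
      have := congrFun h 0
      exact hx0 (by simpa using this))
    obtain ⟨a, b, c, hv, h0⟩ := key i
    apply hi
    rw [hv]
    simp only [Matrix.cons_val_zero, Matrix.cons_val_one]
    linear_combination x0 * h0 - c * hst

variable {g : Transition 2}

lemma sec_zero (n : ℕ) (r t : ℤ) : IsSec g n r t 0 := by
  refine ⟨fun α p => isHomogeneous_zero _ _ _, fun α m => ?_, fun α β p _ => ?_⟩
  · simp
  · simp [frameSubst]

lemma sec_add {n : ℕ} {r t : ℤ} {Q Q' : Chart → C2 → P2} (h : IsSec g n r t Q)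
    (h' : IsSec g n r t Q') : IsSec g n r t (Q + Q') := by
  refine ⟨fun α p => (h.1 α p).add (h'.1 α p), fun α m => ?_, fun α β p hp => ?_⟩
  · simp only [Pi.add_apply, coeff_add]
    exact (h.2.1 α m).add (h'.2.1 α m)
  · simp only [Pi.add_apply]
    rw [h.2.2 α β p hp, h'.2.2 α β p hp]
    simp only [frameSubst, map_add, smul_add]

lemma sec_smul {n : ℕ} {r t : ℤ} {Q : Chart → C2 → P2} (c : ℂ) (h : IsSec g n r t Q) :
    IsSec g n r t (c • Q) := by
  refine ⟨fun α p => (Hm n).smul_mem c (h.1 α p), fun α m => ?_, fun α β p hp => ?_⟩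
  · simp only [Pi.smul_apply, coeff_smul, smul_eq_mul]
    exact (h.2.1 α m).const_mul c
  · simp only [Pi.smul_apply]
    rw [h.2.2 α β p hp]
    simp only [frameSubst, map_smul]
    rw [smul_comm]

lemma lineTrans_add (r r' t t' : ℤ) (α β : Chart) {p : C2} (hp : p ∈ overlap α β) :
    lineTrans (r + r') (t + t') α β p = lineTrans r t α β p * lineTrans r' t' α β p := by
  obtain ⟨h1, h2⟩ := hp
  unfold lineTrans
  by_cases e1 : α.1 = β.1 <;> by_cases e2 : α.2 = β.2
  · simp [e1, e2]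
  · simp only [e1, e2, if_true, if_false, one_mul]
    exact zpow_add₀ (h2 e2) _ _
  · simp only [e1, e2, if_true, if_false, mul_one]
    exact zpow_add₀ (h1 e1) _ _
  · simp only [e1, e2, if_false]
    rw [zpow_add₀ (h1 e1), zpow_add₀ (h2 e2)]
    ring

lemma sec_mul {n n' : ℕ} {r r' t t' : ℤ} {Q Q' : Chart → C2 → P2} (h : IsSec g n r t Q)
    (h' : IsSec g n' r' t' Q') : IsSec g (n + n') (r + r') (t + t') (Q * Q') := by
  classical
  refine ⟨fun α p => (h.1 α p).mul (h'.1 α p), fun α m => ?_, fun α β p hp => ?_⟩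
  · simp only [Pi.mul_apply, coeff_mul]
    exact Differentiable.fun_sum fun x _ => (h.2.1 α x.1).mul (h'.2.1 α x.2)
  · simp only [Pi.mul_apply]
    rw [h.2.2 α β p hp, h'.2.2 α β p hp, lineTrans_add _ _ _ _ _ _ hp]
    simp only [frameSubst, map_mul]
    rw [smul_mul_smul_comm]

lemma sec_one : IsSec g 0 0 0 (fun _ _ => 1) := by
  refine ⟨fun α p => isHomogeneous_one _ _, fun α m => ?_, fun α β p _ => ?_⟩
  · exact differentiable_const _
  · simp [frameSubst, lineTrans]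

/-- the section of `O(1,1)` equal to `1` on the chart `α` -/
def bump (α β : Chart) (p : C2) : ℂ :=
  (if β.1 = α.1 then 1 else p 0) * (if β.2 = α.2 then 1 else p 1)

lemma bump_factor (a b c : Fin 2) (x : ℂ) (hx : b ≠ c → x ≠ 0) :
    (if b = a then 1 else x) =
      (if b = c then 1 else x ^ (1 : ℤ)) * (if c = a then 1 else if b = c then x else x⁻¹) := by
  fin_cases a <;> fin_cases b <;> fin_cases c <;> simp_all

lemma sec_bump (α : Chart) : IsSec g 0 1 1 (fun β p => C (bump α β p)) := by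
  classical
  refine ⟨fun β p => isHomogeneous_C _ _, fun β m => ?_, fun β γ p hp => ?_⟩
  · have hd : Differentiable ℂ (fun p : C2 => bump α β p) := by
      unfold bump
      refine Differentiable.mul ?_ ?_
      · split_ifs
        · exact differentiable_const _
        · exact differentiable_apply _
      · split_ifs
        · exact differentiable_const _
        · exact differentiable_apply _
    simp only [coeff_C]
    split_ifs
    · exact hd
    · exact differentiable_const _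
  · simp only [frameSubst, bind₁_C_right, smul_eq_C_mul, ← map_mul]
    congr 1
    unfold bump lineTrans tau
    rw [bump_factor α.1 β.1 γ.1 (p 0) hp.1, bump_factor α.2 β.2 γ.2 (p 1) hp.2]
    simp only [Matrix.cons_val_zero, Matrix.cons_val_one]
    ring

/-- values at the point `p` of the chart `α` of the global sections of `Symⁿ E ⊗ O(r, r)` -/
def Val (g : Transition 2) (α : Chart) (p : C2) (n : ℕ) (r : ℤ) : Submodule ℂ P2 where
  carrier := {R | ∃ Q, IsSec g n r r Q ∧ Q α p = R}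
  add_mem' := by
    rintro _ _ ⟨Q, hQ, rfl⟩ ⟨Q', hQ', rfl⟩
    exact ⟨Q + Q', sec_add hQ hQ', rfl⟩
  zero_mem' := ⟨0, sec_zero _ _ _, rfl⟩
  smul_mem' := by
    rintro c _ ⟨Q, hQ, rfl⟩
    exact ⟨c • Q, sec_smul c hQ, rfl⟩

lemma Val_mul (α : Chart) (p : C2) (n n' : ℕ) (r r' : ℤ) :
    Val g α p n r * Val g α p n' r' ≤ Val g α p (n + n') (r + r') := by
  rw [Submodule.mul_le]
  rintro _ ⟨Q, hQ, rfl⟩ _ ⟨Q', hQ', rfl⟩
  exact ⟨Q * Q', sec_mul hQ hQ', rfl⟩

lemma Val_succ (α : Chart) (p : C2) (n : ℕ) (r : ℤ) : Val g α p n r ≤ Val g α p n (r + 1) := by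
  intro R hR
  have h1 : (1 : P2) ∈ Val g α p 0 1 := ⟨_, sec_bump α, by simp [bump]⟩
  simpa using Val_mul α p n 0 r 1 (Submodule.mul_mem_mul hR h1)

lemma Val_mono (α : Chart) (p : C2) (n : ℕ) {r r' : ℤ} (h : r ≤ r') :
    Val g α p n r ≤ Val g α p n r' := by
  induction r', h using Int.leInduction with
  | base => exact le_rfl
  | succ k _ ih => exact ih.trans (Val_succ α p n k)

end Amp

open Amp in
theorem isAmple_of_sections (g : Transition 2) (c : ℕ)
    (hlin : ∀ (α : Chart) (p : C2) (i : Fin 2), ∃ Q, IsSec g 1 c c Q ∧ Q α p = MvPolynomial.X i)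
    (q : Fin 3 → Chart → C2 → MvPolynomial (Fin 2) ℂ) (hq : ∀ i, IsSec g 2 (-2) (-2) (q i))
    (hnz : ∀ (α : Chart) (p v : C2), v ≠ 0 → ∃ i, MvPolynomial.eval v (q i α p) ≠ 0) :
    IsAmple g := by
  intro k
  refine ⟨2 * c + 2 + k, fun n hn α p R hR => ?_⟩
  have h1 : Hm 1 ≤ Val g α p 1 c := by
    rw [Hm, MvPolynomial.homogeneousSubmodule_one_eq_span_X, Submodule.span_le]
    rintro _ ⟨i, rfl⟩
    exact hlin α p i
  have hqv : Submodule.span ℂ (Set.range fun i => q i α p) ≤ Val g α p 2 (-2) := by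
    rw [Submodule.span_le]
    rintro _ ⟨i, rfl⟩
    exact ⟨q i, hq i, rfl⟩
  have h3 := cubic_le (fun i => q i α p) (fun i => (hq i).1 α p) (hnz α p)
  have step : ∀ (m : ℕ) (r : ℤ), Hm (m + 1) ≤ Val g α p (m + 1) r →
      Hm (m + 3) ≤ Val g α p (m + 3) (r - 2) := by
    intro m r h
    calc Hm (m + 3) = Hm m * Hm 3 := Hm_add m 3
      _ ≤ Hm m * (Hm 1 * Submodule.span ℂ (Set.range fun i => q i α p)) :=
          mul_le_mul' le_rfl h3
      _ = Hm (m + 1) * Submodule.span ℂ (Set.range fun i => q i α p) := by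
          rw [Hm_add m 1, mul_assoc]
      _ ≤ Val g α p (m + 1) r * Val g α p 2 (-2) := mul_le_mul' h hqv
      _ ≤ Val g α p (m + 3) (r - 2) := Val_mul α p (m + 1) 2 r (-2)
  have all : ∀ m : ℕ, Hm (m + 1) ≤ Val g α p (m + 1) (2 * c + 1 - m) ∧
      Hm (m + 2) ≤ Val g α p (m + 2) (2 * c - m) := by
    intro m
    induction m with
    | zero =>
      refine ⟨h1.trans (Val_mono α p 1 (by push_cast; omega)), ?_⟩
      calc Hm (0 + 2) = Hm 1 * Hm 1 := Hm_add 1 1
        _ ≤ Val g α p 1 c * Val g α p 1 c := mul_le_mul' h1 h1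
        _ ≤ Val g α p (1 + 1) (c + c) := Val_mul α p 1 1 c c
        _ ≤ _ := Val_mono α p 2 (by push_cast; omega)
    | succ m ih =>
      refine ⟨ih.2.trans (Val_mono α p _ (by push_cast; omega)), ?_⟩
      exact (step m _ ih.1).trans (Val_mono α p _ (by push_cast; omega))
  obtain ⟨m, rfl⟩ : ∃ m, n = m + 1 := ⟨n - 1, by omega⟩
  have hfin : Hm (m + 1) ≤ Val g α p (m + 1) (-(k : ℤ)) :=
    (all m).1.trans (Val_mono α p _ (by omega))
  obtain ⟨Q, hQ, hQR⟩ := hfin hR
  exact ⟨Q, hQ, hQR⟩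

end Crest.Agent.R258

end
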