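import Crest.Agent.R258.Data
import Crest.Agent.R258.Ample

/-!
The transition matrices `gM` form a holomorphic cocycle and define an ample bundle.
-/

set_option autoImplicit false

noncomputable section

namespace Crest.Agent.R258

open Crest.AlgGeometry.QuadricBundle MeasureTheory Matrix
open scoped ComplexConjugate ComplexOrder ENNReal

theorem isHoloCocycle_gM (M : ℕ) : IsHoloCocycle (gM M) where
  refl α p := by simp [gM, lineTrans_self, Nm_self]
  holo α β i j := by
    simp only [gM, Matrix.smul_apply, Matrix.transpose_apply, smul_eq_mul]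
    refine (differentiableOn_lineTrans _ _ α β).mul ?_
    exact (differentiableOn_Nm α β j i).comp
      ((contDiff_up M).differentiable (by simp)).differentiableOn (fun p hp => up_mem M α β p hp)
  cocycle α β γ p hp := by
    simp only [gM]
    rw [Matrix.smul_mul, Matrix.mul_smul, smul_smul, lineTrans_cocycle _ _ α β γ p hp.1,
      ← Matrix.transpose_mul, up_tau, Nm_mul α β γ _ (up_mem M α β p hp.1)]

theorem bun_eval_frameSubst (A : Matrix (Fin 2) (Fin 2) ℂ) (Q : MvPolynomial (Fin 2) ℂ) (v : C2) :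
    MvPolynomial.eval v (frameSubst A Q) = MvPolynomial.eval (Aᵀ *ᵥ v) Q := by
  unfold frameSubst
  rw [MvPolynomial.eval, MvPolynomial.eval₂Hom_bind₁]
  congr 2
  funext j
  simp [Matrix.mulVec, dotProduct]

theorem bun_gM_mulVec (M : ℕ) (α β : Chart) (p v : C2) :
    (gM M α β p)ᵀ *ᵥ v =
      lineTrans (1 - (M : ℤ)) ((M : ℤ) + 1) α β p • (Nm α β (up M p) *ᵥ v) := by
  simp [gM, Matrix.smul_mulVec]

theorem bun_diff_coeff (f : C2 → ℂ) (hf : Differentiable ℂ f) (R : MvPolynomial (Fin 2) ℂ)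
    (m : Fin 2 →₀ ℕ) :
    Differentiable ℂ (fun p => MvPolynomial.coeff m (MvPolynomial.C (f p) * R)) := by
  simp only [MvPolynomial.coeff_C_mul]
  exact hf.mul_const _

/-- the three quadric sections -/
def bunQ (M : ℕ) (i : Fin 3) (α : Chart) (p : C2) : MvPolynomial (Fin 2) ℂ :=
  MvPolynomial.C (qq α (up M p, ![1, 0]) i) * MvPolynomial.X 0 ^ 2 +
    MvPolynomial.C (qq α (up M p, ![1, 1]) i - qq α (up M p, ![1, 0]) i - qq α (up M p, ![0, 1]) i) *
      (MvPolynomial.X 0 * MvPolynomial.X 1) +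
    MvPolynomial.C (qq α (up M p, ![0, 1]) i) * MvPolynomial.X 1 ^ 2

theorem bun_eval_bunQ (M : ℕ) (i : Fin 3) (α : Chart) (p v : C2) :
    MvPolynomial.eval v (bunQ M i α p) = qq α (up M p, v) i := by
  rw [qq_quad α (up M p) v]
  simp only [bunQ, map_add, map_mul, map_pow, MvPolynomial.eval_C, MvPolynomial.eval_X,
    Pi.add_apply, Pi.smul_apply, Pi.sub_apply, smul_eq_mul]
  ring

theorem bun_diff_qq (M : ℕ) (i : Fin 3) (α : Chart) (w : C2) :
    Differentiable ℂ (fun p : C2 => qq α (up M p, w) i) := by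
  have h1 : Differentiable ℂ (fun p : C2 => ((up M p, w) : S)) :=
    ((contDiff_up M).differentiable (by simp)).prodMk (differentiable_const _)
  exact differentiable_pi.1 (((contDiff_qq α).differentiable (by simp)).comp h1) i

theorem bun_sec_bunQ (M : ℕ) (i : Fin 3) : IsSec (gM M) 2 (-2) (-2) (bunQ M i) := by
  refine ⟨fun α p => ?_, fun α m => ?_, fun α β p hp => ?_⟩
  · refine MvPolynomial.IsHomogeneous.add (MvPolynomial.IsHomogeneous.add ?_ ?_) ?_
    · exact (MvPolynomial.isHomogeneous_X_pow 0 2).C_mul _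
    · exact ((MvPolynomial.isHomogeneous_X ℂ 0).mul (MvPolynomial.isHomogeneous_X ℂ 1)).C_mul _
    · exact (MvPolynomial.isHomogeneous_X_pow 1 2).C_mul _
  · simp only [bunQ, MvPolynomial.coeff_add]
    refine Differentiable.add (Differentiable.add ?_ ?_) ?_
    · exact bun_diff_coeff _ (bun_diff_qq M i α _) _ m
    · exact bun_diff_coeff _ (((bun_diff_qq M i α _).sub (bun_diff_qq M i α _)).sub
        (bun_diff_qq M i α _)) _ m
    · exact bun_diff_coeff _ (bun_diff_qq M i α _) _ m
  · apply MvPolynomial.funext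
    intro v
    rw [MvPolynomial.smul_eval, bun_eval_frameSubst, bun_eval_bunQ, bun_eval_bunQ, bun_gM_mulVec,
      qq_smul, up_tau, qq_tau α β _ (up_mem M α β p hp) v, lineTrans_up]
    simp only [Pi.smul_apply, smul_eq_mul]
    rw [← mul_assoc, sq, lineTrans_mul _ _ _ _ α β p hp, lineTrans_mul _ _ _ _ α β p hp]
    congr 2 <;> ring

/-- the twisting factor of the linear sections -/
def bunK (M : ℕ) (α β : Chart) (p : C2) : ℂ := if β.2 = α.2 then 1 else p 1 ^ (2 * M)

theorem bun_K_tau (M : ℕ) (α β γ : Chart) (p : C2) (hp : p ∈ overlap β γ) :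
    bunK M α β p = lineTrans 0 (2 * M) β γ p * bunK M α γ (tau β γ p) := by
  obtain ⟨-, h1⟩ := hp
  have hz : ∀ x : ℂ, x ^ (2 * (M : ℤ)) = x ^ (2 * M) := by
    intro x
    rw [← zpow_natCast]
    push_cast
    rfl
  rcases α with ⟨a, a'⟩
  rcases β with ⟨b, b'⟩
  rcases γ with ⟨c, c'⟩
  fin_cases a' <;> fin_cases b' <;> fin_cases c' <;> simp at h1 <;>
    simp [bunK, lineTrans, tau, hz, h1]

/-- the linear sections -/
def bunL (M : ℕ) (α : Chart) (l : Fin 3 → ℂ) (β : Chart) (p : C2) : MvPolynomial (Fin 2) ℂ :=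
  MvPolynomial.C (bunK M α β p * ∑ j, l j * Um β (up M p) j 0) * MvPolynomial.X 0 +
    MvPolynomial.C (bunK M α β p * ∑ j, l j * Um β (up M p) j 1) * MvPolynomial.X 1

theorem bun_eval_bunL (M : ℕ) (α : Chart) (l : Fin 3 → ℂ) (β : Chart) (p v : C2) :
    MvPolynomial.eval v (bunL M α l β p) = bunK M α β p * (l ⬝ᵥ (Um β (up M p) *ᵥ v)) := by
  simp only [bunL, map_add, map_mul, MvPolynomial.eval_C, MvPolynomial.eval_X, Matrix.mulVec,
    dotProduct, Fin.sum_univ_two, Fin.sum_univ_three]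
  ring

theorem bun_sec_bunL (M : ℕ) (hM : 1 ≤ M) (α : Chart) (l : Fin 3 → ℂ) :
    IsSec (gM M) 1 ((M - 1 : ℕ) : ℤ) ((M - 1 : ℕ) : ℤ) (bunL M α l) := by
  refine ⟨fun β p => ?_, fun β m => ?_, fun β γ p hp => ?_⟩
  · exact ((MvPolynomial.isHomogeneous_X ℂ 0).C_mul _).add
      ((MvPolynomial.isHomogeneous_X ℂ 1).C_mul _)
  · have hK : Differentiable ℂ (bunK M α β) := by
      unfold bunK
      split_ifs <;> fun_prop
    have hU : ∀ k, Differentiable ℂ (fun p => ∑ j, l j * Um β (up M p) j k) := by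
      intro k
      refine Differentiable.fun_sum fun j _ => Differentiable.const_mul ?_ _
      exact ((contDiff_Um β j k).differentiable (by simp)).comp
        ((contDiff_up M).differentiable (by simp))
    simp only [bunL, MvPolynomial.coeff_add]
    exact (bun_diff_coeff _ (hK.mul (hU 0)) _ m).add (bun_diff_coeff _ (hK.mul (hU 1)) _ m)
  · apply MvPolynomial.funext
    intro v
    rw [MvPolynomial.smul_eval, bun_eval_frameSubst, bun_eval_bunL, bun_eval_bunL, bun_gM_mulVec,
      Matrix.mulVec_smul, up_tau, U_Nm β γ _ (up_mem M β γ p hp) v, bun_K_tau M α β γ p hp,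
      dotProduct_smul, smul_eq_mul]
    have h := lineTrans_mul ((M - 1 : ℕ) : ℤ) ((M - 1 : ℕ) : ℤ) (1 - (M : ℤ)) ((M : ℤ) + 1) β γ p hp
    rw [show ((M - 1 : ℕ) : ℤ) + (1 - (M : ℤ)) = 0 by omega,
      show ((M - 1 : ℕ) : ℤ) + ((M : ℤ) + 1) = 2 * M by omega] at h
    rw [← h]
    ring

theorem isAmple_gM (M : ℕ) (hM : 1 ≤ M) : IsAmple (gM M) := by
  refine isAmple_of_sections (gM M) (M - 1) (fun α p i => ?_) (bunQ M) (bun_sec_bunQ M)
    (fun α p v hv => ?_)
  · refine ⟨bunL M α (fun j => Lm α (up M p) i j), bun_sec_bunL M hM α _, ?_⟩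
    apply MvPolynomial.funext
    intro v
    rw [bun_eval_bunL, MvPolynomial.eval_X]
    have h := congrFun (LU_vec α (up M p) v) i
    simp only [bunK, if_true, one_mul]
    exact h
  · by_contra hc
    push Not at hc
    apply qq_ne_zero α (up M p) v hv
    funext i
    rw [← bun_eval_bunQ, hc i]
    rfl

end Crest.Agent.R258

end
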