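import Crest.Agent.R258.Defs

/-! Row 258: Griffiths positivity of a metric makes the dual metric log-plurisubharmonic. -/

set_option autoImplicit false

noncomputable section

namespace Crest.Agent.R258

open Crest.AlgGeometry.QuadricBundle MeasureTheory
open scoped ComplexConjugate ComplexOrder ENNReal
open Filter Topology Matrix

namespace DualAux

/-- `f` has first derivative `a` and second derivative `b` at `0`. -/
def D2 (f : ℝ → ℝ) (a b : ℝ) : Prop :=
  ∃ f' : ℝ → ℝ, (∀ᶠ t in 𝓝 (0 : ℝ), HasDerivAt f (f' t) t) ∧ f' 0 = a ∧ HasDerivAt f' b 0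

lemma D2.deriv2 {f : ℝ → ℝ} {a b : ℝ} (h : D2 f a b) : deriv (deriv f) 0 = b := by
  obtain ⟨f', h1, -, h3⟩ := h
  have : deriv f =ᶠ[𝓝 0] f' := h1.mono fun t ht => ht.deriv
  rw [this.deriv_eq, h3.deriv]

lemma D2.hasDerivAt {f : ℝ → ℝ} {a b : ℝ} (h : D2 f a b) : HasDerivAt f a 0 := by
  obtain ⟨f', h1, h2, -⟩ := h
  rw [← h2]
  exact h1.self_of_nhds

lemma D2_of_contDiffAt {f : ℝ → ℝ} (h : ContDiffAt ℝ 2 f 0) :
    D2 f (deriv f 0) (deriv (deriv f) 0) := by
  refine ⟨deriv f, ?_, rfl, ?_⟩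
  · have h1 : ∀ᶠ t in 𝓝 (0 : ℝ), ContDiffAt ℝ 2 f t := h.eventually (by simp)
    exact h1.mono fun t ht => (ht.differentiableAt (by simp)).hasDerivAt
  · have h1 : ContDiffAt ℝ 1 (fderiv ℝ f) 0 := h.fderiv_right (m := 1) (by norm_num)
    have h2 : ContDiffAt ℝ 1 (fun t => fderiv ℝ f t 1) 0 := h1.clm_apply contDiffAt_const
    exact (h2.differentiableAt (by simp)).hasDerivAt

lemma D2.sub {f g : ℝ → ℝ} {a b a' b' : ℝ} (h : D2 f a b) (h' : D2 g a' b') :
    D2 (fun t => f t - g t) (a - a') (b - b') := by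
  obtain ⟨f', h1, h2, h3⟩ := h
  obtain ⟨g', k1, k2, k3⟩ := h'
  refine ⟨fun t => f' t - g' t, ?_, by simp only [h2, k2], h3.sub k3⟩
  filter_upwards [h1, k1] with t ht kt using ht.sub kt

lemma D2.mul {f g : ℝ → ℝ} {a b a' b' : ℝ} (h : D2 f a b) (h' : D2 g a' b') :
    D2 (fun t => f t * g t) (a * g 0 + f 0 * a') (b * g 0 + 2 * a * a' + f 0 * b') := by
  have hf := h.hasDerivAt
  have hg := h'.hasDerivAt
  obtain ⟨f', h1, h2, h3⟩ := h
  obtain ⟨g', k1, k2, k3⟩ := h'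
  refine ⟨fun t => f' t * g t + f t * g' t, ?_, by simp only [h2, k2], ?_⟩
  · filter_upwards [h1, k1] with t ht kt using ht.mul kt
  · have := (h3.mul hg).add (hf.mul k3)
    rw [h2, k2] at this
    exact this.congr_deriv (by ring)

lemma D2.nonneg_of_isLocalMin {f : ℝ → ℝ} {a b : ℝ} (h : D2 f a b) (hm : IsLocalMin f 0) :
    0 ≤ b := by
  by_contra hb
  push Not at hb
  have h1 : deriv f 0 = 0 := hm.deriv_eq_zero
  have h2 : IsLocalMax f 0 :=
    isLocalMax_of_deriv_deriv_neg (by rw [h.deriv2]; exact hb) h1 h.hasDerivAt.continuousAt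
  have h3 : f =ᶠ[𝓝 0] fun _ => f 0 := by
    filter_upwards [hm, h2] with t h1 h2 using le_antisymm h2 h1
  have h4 : deriv f =ᶠ[𝓝 0] fun _ => 0 := by
    have := h3.deriv
    simpa using this
  have h5 : deriv (deriv f) 0 = 0 := by rw [h4.deriv_eq]; simp
  rw [h.deriv2] at h5
  exact absurd h5 hb.ne

lemma D2_line {G : S → ℝ} (hG : ContDiff ℝ 2 G) (P ζ : S) :
    D2 (fun t : ℝ => G (P + t • ζ)) (fderiv ℝ G P ζ) (fderiv ℝ (fderiv ℝ G) P ζ ζ) := by
  have hl : ∀ t : ℝ, HasDerivAt (fun t : ℝ => P + t • ζ) ζ t := by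
    intro t
    simpa using ((hasDerivAt_id t).smul_const ζ).const_add P
  refine ⟨fun t => fderiv ℝ G (P + t • ζ) ζ, Eventually.of_forall fun t => ?_, by simp, ?_⟩
  · exact ((hG.differentiable (by simp)) _).hasFDerivAt.comp_hasDerivAt t (hl t)
  · have h1 : ContDiff ℝ 1 (fderiv ℝ G) := hG.fderiv_right (m := 1) (by norm_num)
    have h2 : HasFDerivAt (fderiv ℝ G) (fderiv ℝ (fderiv ℝ G) P) (P + (0 : ℝ) • ζ) := by
      simpa using ((h1.differentiable (by simp)) P).hasFDerivAt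
    have h3 := h2.comp_hasDerivAt (0 : ℝ) (hl 0)
    have h4 := h3.clm_apply (hasDerivAt_const (0 : ℝ) ζ)
    simpa using h4

lemma D2_weight (a : ℂ) :
    D2 (fun t : ℝ => Complex.normSq (1 + a * t)) (2 * a.re) (2 * Complex.normSq a) := by
  have e : (fun t : ℝ => Complex.normSq (1 + a * t)) =
      fun t : ℝ => 1 + 2 * a.re * t + Complex.normSq a * t ^ 2 := by
    funext t
    simp [Complex.normSq_apply]
    ring
  rw [e]
  refine ⟨fun t => 2 * a.re + 2 * Complex.normSq a * t, Eventually.of_forall fun t => ?_,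
    by simp, ?_⟩
  · have := (((hasDerivAt_id t).const_mul (2 * a.re)).const_add 1).add
      ((hasDerivAt_pow 2 t).const_mul (Complex.normSq a))
    exact this.congr_deriv (by simp; ring)
  · simpa using ((hasDerivAt_id (0 : ℝ)).const_mul (2 * Complex.normSq a)).const_add (2 * a.re)

lemma D2_holo {κ : ℂ → ℂ} (hκ : AnalyticAt ℂ κ 0) (η : ℂ) :
    D2 (fun t : ℝ => 2 * (κ (t * η)).re) (2 * (deriv κ 0 * η).re)
      (2 * (deriv (deriv κ) 0 * η * η).re) := by
  have hl : ∀ t : ℝ, HasDerivAt (fun t : ℝ => (t : ℂ) * η) η t := by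
    intro t
    simpa using (Complex.ofRealCLM.hasDerivAt (x := t)).mul_const η
  have hc : Tendsto (fun t : ℝ => (t : ℂ) * η) (𝓝 0) (𝓝 0) := by
    simpa using (hl 0).continuousAt.tendsto
  refine ⟨fun t => 2 * (deriv κ (t * η) * η).re, ?_, by simp, ?_⟩
  · filter_upwards [hc.eventually hκ.eventually_analyticAt] with t ht
    have h1 : HasDerivAt κ (deriv κ (t * η)) (t * η) := ht.differentiableAt.hasDerivAt
    have h2 := (h1.hasFDerivAt.restrictScalars ℝ).comp_hasDerivAt t (hl t)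
    have h3 := (Complex.reCLM.hasFDerivAt.comp_hasDerivAt t h2).const_mul 2
    simpa [mul_comm] using h3
  · have h1 : HasDerivAt (deriv κ) (deriv (deriv κ) 0) (((0 : ℝ) : ℂ) * η) := by
      simpa using hκ.deriv.differentiableAt.hasDerivAt
    have h2 := ((h1.hasFDerivAt.restrictScalars ℝ).comp_hasDerivAt (0 : ℝ) (hl 0)).mul_const η
    have h3 := (Complex.reCLM.hasFDerivAt.comp_hasDerivAt (0 : ℝ) h2).const_mul 2
    simpa [mul_comm] using h3

lemma hNormSq_eq (h : MetricData 2) (α : Chart) (p v : C2) :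
    hNormSq h α p v = (v ⬝ᵥ (h α p *ᵥ star v)).re := by
  unfold hNormSq
  congr 1
  simp only [dotProduct, mulVec, Pi.star_apply, Finset.mul_sum]
  refine Finset.sum_congr rfl fun i _ => Finset.sum_congr rfl fun j _ => ?_
  simp only [RCLike.star_def]
  ring

lemma hNormSq_eq' (h : MetricData 2) (α : Chart) (p v : C2) :
    hNormSq h α p v = (star v ⬝ᵥ ((h α p)ᵀ *ᵥ v)).re := by
  rw [hNormSq_eq, mulVec_transpose, dotProduct_comm (star v), ← dotProduct_mulVec]

lemma hNormSq_smul (h : MetricData 2) (α : Chart) (p v : C2) (a : ℂ) :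
    hNormSq h α p (a • v) = Complex.normSq a * hNormSq h α p v := by
  rw [hNormSq_eq, hNormSq_eq, star_smul, mulVec_smul, smul_dotProduct, dotProduct_smul,
    smul_smul, smul_eq_mul, RCLike.star_def, Complex.mul_conj, Complex.re_ofReal_mul]

lemma legendre {K : Matrix (Fin 2) (Fin 2) ℂ} (hK : K.PosDef) (v s : C2) :
    2 * (v ⬝ᵥ s).re - (star s ⬝ᵥ (K *ᵥ s)).re ≤ (v ⬝ᵥ (K⁻¹ *ᵥ star v)).re := by
  set s0 : C2 := K⁻¹ *ᵥ star v with hs0
  have hu : IsUnit K.det := (Matrix.isUnit_iff_isUnit_det K).1 hK.isUnit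
  have hKs : K *ᵥ s0 = star v := by
    rw [hs0, mulVec_mulVec, Matrix.mul_nonsing_inv K hu, one_mulVec]
  have h0 := hK.posSemidef.re_dotProduct_nonneg (s - s0)
  have h1 : star s0 ⬝ᵥ (K *ᵥ s) = v ⬝ᵥ s := by
    rw [dotProduct_mulVec]
    have : star s0 ᵥ* K = v := by
      have h2 := congrArg star hKs
      rw [star_mulVec, hK.1.eq, star_star] at h2
      exact h2
    rw [this]
  have h2 : star s ⬝ᵥ star v = star (v ⬝ᵥ s) := by
    rw [star_dotProduct_star]
  have h3 : star s0 ⬝ᵥ star v = star (v ⬝ᵥ s0) := by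
    rw [star_dotProduct_star]
  rw [star_sub, mulVec_sub, sub_dotProduct, dotProduct_sub, dotProduct_sub, hKs, h1, h2, h3] at h0
  simp only [RCLike.re_to_complex, Complex.sub_re, RCLike.star_def, Complex.conj_re] at h0
  linarith

lemma legendre_eq {K : Matrix (Fin 2) (Fin 2) ℂ} (hK : K.PosDef) (v : C2) :
    2 * (v ⬝ᵥ (K⁻¹ *ᵥ star v)).re -
      (star (K⁻¹ *ᵥ star v) ⬝ᵥ (K *ᵥ (K⁻¹ *ᵥ star v))).re = (v ⬝ᵥ (K⁻¹ *ᵥ star v)).re := by
  have hu : IsUnit K.det := (Matrix.isUnit_iff_isUnit_det K).1 hK.isUnit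
  have hKs : K *ᵥ (K⁻¹ *ᵥ star v) = star v := by
    rw [mulVec_mulVec, Matrix.mul_nonsing_inv K hu, one_mulVec]
  rw [hKs, star_dotProduct_star]
  simp only [RCLike.star_def, Complex.conj_re]
  ring

end DualAux

open DualAux

theorem contDiff_sqn (h : MetricData 2) (α : Chart)
    (hs : ∀ i j : Fin 2, ContDiff ℝ (⊤ : ℕ∞) (fun p => h α p i j)) :
    ContDiff ℝ (⊤ : ℕ∞) (sqn h α) := by
  have h1 : ContDiff ℝ (⊤ : ℕ∞)
      (fun P : S => ∑ i, ∑ j, h α P.1 i j * P.2 i * conj (P.2 j)) := by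
    refine ContDiff.sum fun i _ => ContDiff.sum fun j _ => ?_
    refine ContDiff.mul (ContDiff.mul ((hs i j).comp contDiff_fst) ?_) ?_
    · exact (contDiff_apply ℝ ℂ i).comp contDiff_snd
    · exact Complex.conjCLE.contDiff.comp ((contDiff_apply ℝ ℂ j).comp contDiff_snd)
  exact Complex.reCLM.contDiff.comp h1

namespace DualAux

lemma smooth_dualM (g : Transition 2) (H : MetricData 2) (hH : IsHermitianMetric g H)
    (α : Chart) (i j : Fin 2) : ContDiff ℝ (⊤ : ℕ∞) (fun p => dualM H α p i j) := by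
  have hdet : ContDiff ℝ (⊤ : ℕ∞) (fun p => ((H α p)ᵀ).det) := by
    simp only [Matrix.det_fin_two, transpose_apply]
    exact ((hH.smooth α 0 0).mul (hH.smooth α 1 1)).sub ((hH.smooth α 1 0).mul (hH.smooth α 0 1))
  have hne : ∀ p, ((H α p)ᵀ).det ≠ 0 := fun p => (hH.posDef α p).transpose.det_pos.ne'
  have hinv : ContDiff ℝ (⊤ : ℕ∞) (fun p => (((H α p)ᵀ).det)⁻¹) := hdet.inv hne
  have hadj : ContDiff ℝ (⊤ : ℕ∞) (fun p => ((H α p)ᵀ).adjugate i j) := by
    simp only [Matrix.adjugate_fin_two, transpose_apply]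
    fin_cases i <;> fin_cases j <;> simp
    · exact hH.smooth α 1 1
    · exact (hH.smooth α 1 0).neg
    · exact (hH.smooth α 0 1).neg
    · exact hH.smooth α 0 0
  have := hinv.mul hadj
  have e : (fun p => dualM H α p i j) =
      fun p => (((H α p)ᵀ).det)⁻¹ * ((H α p)ᵀ).adjugate i j := by
    funext p
    simp only [dualM, Matrix.inv_def, Ring.inverse_eq_inv', Matrix.smul_apply, smul_eq_mul]
  rw [e]
  exact this

lemma two_le_top : (2 : WithTop ℕ∞) ≤ ((⊤ : ℕ∞) : WithTop ℕ∞) := by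
  have : ((2 : ℕ∞) : WithTop ℕ∞) ≤ ((⊤ : ℕ∞) : WithTop ℕ∞) := WithTop.coe_le_coe.2 le_top
  exact this

/-- one real direction of the comparison -/
lemma one_dir (g : Transition 2) (H : MetricData 2) (hH : IsHermitianMetric g H) (α : Chart)
    (P ζ : S) (c η : ℂ) (σ : ℂ → C2) (hσ : AnalyticAt ℂ σ 0)
    (hσ0 : σ 0 = ((H α P.1)ᵀ)⁻¹ *ᵥ star P.2) :
    2 * (deriv (deriv fun τ : ℂ => (1 + c * τ) * ((P.2 + τ • ζ.2) ⬝ᵥ σ τ)) 0 * η * η).re -
        deriv (deriv fun t : ℝ => hNormSq H α (P.1 + (t : ℂ) • (η • ζ.1)) (σ (t * η))) 0 ≤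
      fderiv ℝ (fderiv ℝ (sqn (dualM H) α)) P (η • ζ) (η • ζ) +
        4 * (c * η).re * fderiv ℝ (sqn (dualM H) α) P (η • ζ) +
        2 * Complex.normSq (c * η) * sqn (dualM H) α P := by
  have hG : ContDiff ℝ 2 (sqn (dualM H) α) :=
    (contDiff_sqn (dualM H) α (smooth_dualM g H hH α)).of_le two_le_top
  have d1 := (D2_line hG P (η • ζ)).mul (D2_weight (c * η))
  have hκ : AnalyticAt ℂ (fun τ : ℂ => (1 + c * τ) * ((P.2 + τ • ζ.2) ⬝ᵥ σ τ)) 0 := by
    refine AnalyticAt.mul (by fun_prop) ?_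
    simp only [dotProduct]
    refine Finset.analyticAt_fun_sum _ fun i _ => AnalyticAt.mul ?_ ?_
    · simp only [Pi.add_apply, Pi.smul_apply, smul_eq_mul]
      fun_prop
    · exact (ContinuousLinearMap.proj (R := ℂ) (φ := fun _ : Fin 2 => ℂ) i).analyticAt _ |>.comp hσ
  have d2 := D2_holo hκ η
  have hline : ContDiff ℝ 2 (fun t : ℝ => (t : ℂ) * η) :=
    Complex.ofRealCLM.contDiff.mul contDiff_const
  have hσR : ContDiffAt ℝ 2 (fun t : ℝ => σ (t * η)) 0 := by
    have h1 : ContDiffAt ℝ 2 σ (((0 : ℝ) : ℂ) * η) := by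
      simpa using (hσ.contDiffAt (n := 2)).restrict_scalars ℝ
    exact h1.comp (0 : ℝ) hline.contDiffAt
  have hN : ContDiffAt ℝ 2
      (fun t : ℝ => hNormSq H α (P.1 + (t : ℂ) • (η • ζ.1)) (σ (t * η))) 0 := by
    have h1 : ContDiff ℝ 2 (sqn H α) :=
      (contDiff_sqn H α (hH.smooth α)).of_le two_le_top
    have h2 : ContDiff ℝ 2 (fun t : ℝ => P.1 + (t : ℂ) • (η • ζ.1)) :=
      contDiff_const.add (Complex.ofRealCLM.contDiff.smul contDiff_const)
    have h3 : ContDiffAt ℝ 2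
        (fun t : ℝ => ((P.1 + (t : ℂ) • (η • ζ.1), σ (t * η)) : S)) 0 := h2.contDiffAt.prodMk hσR
    have h4 := ContDiffAt.comp (g := sqn H α) (0 : ℝ) h1.contDiffAt h3
    exact h4
  have d3 := D2_of_contDiffAt hN
  have d4 := d1.sub (d2.sub d3)
  have hmin : IsLocalMin (fun t : ℝ =>
      sqn (dualM H) α (P + t • (η • ζ)) * Complex.normSq (1 + c * η * t) -
        (2 * ((fun τ : ℂ => (1 + c * τ) * ((P.2 + τ • ζ.2) ⬝ᵥ σ τ)) (t * η)).re -
          hNormSq H α (P.1 + (t : ℂ) • (η • ζ.1)) (σ (t * η)))) 0 := by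
    refine Eventually.of_forall fun t => ?_
    have hK0 := (hH.posDef α P.1).transpose
    have hKt := (hH.posDef α (P.1 + (t : ℂ) • (η • ζ.1))).transpose
    have e0 := legendre_eq hK0 P.2
    have et := legendre hKt ((1 + c * η * t) • (P.2 + ((t : ℂ) * η) • ζ.2)) (σ (t * η))
    have f0 : sqn (dualM H) α P = (P.2 ⬝ᵥ (((H α P.1)ᵀ)⁻¹ *ᵥ star P.2)).re := by
      unfold sqn; rw [hNormSq_eq]; rfl
    have ft : sqn (dualM H) α (P + t • (η • ζ)) * Complex.normSq (1 + c * η * t) =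
        (((1 + c * η * t) • (P.2 + ((t : ℂ) * η) • ζ.2)) ⬝ᵥ
          (((H α (P.1 + (t : ℂ) • (η • ζ.1)))ᵀ)⁻¹ *ᵥ
            star ((1 + c * η * t) • (P.2 + ((t : ℂ) * η) • ζ.2)))).re := by
      have a1 : (P + t • (η • ζ)).1 = P.1 + (t : ℂ) • (η • ζ.1) := by
        simp [Complex.coe_smul]
      have a2 : (P + t • (η • ζ)).2 = P.2 + ((t : ℂ) * η) • ζ.2 := by
        simp [Complex.coe_smul, mul_smul]
      unfold sqn
      rw [a1, a2, mul_comm, ← hNormSq_smul, hNormSq_eq]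
      rfl
    simp only [Complex.ofReal_zero, zero_smul, add_zero, zero_mul, mul_zero, map_one, mul_one,
      one_mul]
    rw [ft, f0, hσ0, hNormSq_eq', hNormSq_eq', e0, sub_self]
    rw [smul_dotProduct, smul_eq_mul] at et
    have a3 : (1 + c * ((t : ℂ) * η)) = 1 + c * η * t := by ring
    rw [a3]
    linarith
  have := d4.nonneg_of_isLocalMin hmin
  simp only [zero_smul, add_zero, Complex.ofReal_zero, mul_zero, map_one, mul_one] at this
  linarith

lemma levi_ne (g : Transition 2) (H : MetricData 2) (hH : IsHermitianMetric g H)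
    (hpos : IsGriffithsPositive H) (α : Chart) (P ζ : S) (c : ℂ) (hP : P.2 ≠ 0) (hζ : ζ.1 ≠ 0) :
    0 ≤ lev (sqn (dualM H) α) P ζ
      + 4 * (c.re * fderiv ℝ (sqn (dualM H) α) P ζ -
        c.im * fderiv ℝ (sqn (dualM H) α) P (Complex.I • ζ))
      + 4 * Complex.normSq c * sqn (dualM H) α P := by
  have hK0 := (hH.posDef α P.1).transpose
  have hu : IsUnit ((H α P.1)ᵀ).det := (Matrix.isUnit_iff_isUnit_det _).1 hK0.isUnit
  have hs0 : ((H α P.1)ᵀ)⁻¹ *ᵥ star P.2 ≠ 0 := by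
    intro h
    have h2 : (H α P.1)ᵀ *ᵥ (((H α P.1)ᵀ)⁻¹ *ᵥ star P.2) = star P.2 := by
      rw [mulVec_mulVec, Matrix.mul_nonsing_inv _ hu, one_mulVec]
    rw [h, mulVec_zero] at h2
    exact hP (star_eq_zero.1 h2.symm)
  obtain ⟨U, s, hU, hpU, hs, hsp, hlev⟩ := hpos α P.1 ζ.1 _ hζ hs0
  have hl : Differentiable ℂ (fun τ : ℂ => P.1 + τ • ζ.1) := by fun_prop
  have hσ : AnalyticAt ℂ (fun τ : ℂ => s (P.1 + τ • ζ.1)) 0 := by
    have hV : (fun τ : ℂ => P.1 + τ • ζ.1) ⁻¹' U ∈ 𝓝 (0 : ℂ) :=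
      (hU.preimage hl.continuous).mem_nhds (by simpa using hpU)
    refine DifferentiableOn.analyticAt ?_ hV
    exact hs.comp hl.differentiableOn fun τ hτ => hτ
  have h1 := one_dir g H hH α P ζ c 1 _ hσ (by simpa using hsp)
  have h2 := one_dir g H hH α P ζ c Complex.I _ hσ (by simpa using hsp)
  unfold leviAlong secondDerivAlong at hlev
  simp only [mul_one, one_smul] at h1
  have e1 : ∀ t : ℝ, P.1 + ((t : ℂ) * Complex.I) • ζ.1 = P.1 + (t : ℂ) • (Complex.I • ζ.1) := by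
    intro t; rw [mul_smul]
  simp only [e1] at h2
  have e2 : ∀ z : ℂ, (z * Complex.I * Complex.I).re = -z.re := by
    intro z; simp
  rw [e2] at h2
  have e3 : (c * Complex.I).re = -c.im := by simp
  have e4 : Complex.normSq (c * Complex.I) = Complex.normSq c := by simp
  rw [e3, e4] at h2
  unfold lev
  linarith

end DualAux

theorem isNeg_dualM (g : Transition 2) (H : MetricData 2) (hH : IsHermitianMetric g H)
    (hpos : IsGriffithsPositive H) : IsNeg (dualM H) := by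
  refine ⟨smooth_dualM g H hH, fun α p => (hH.posDef α p).transpose.inv, ?_⟩
  intro α P ζ c hP
  by_cases hζ : ζ.1 = 0
  · set F : S → ℝ := fun ζ => lev (sqn (dualM H) α) P ζ
      + 4 * (c.re * fderiv ℝ (sqn (dualM H) α) P ζ -
        c.im * fderiv ℝ (sqn (dualM H) α) P (Complex.I • ζ))
      + 4 * Complex.normSq c * sqn (dualM H) α P with hF
    have hFc : Continuous F := by
      rw [hF]
      unfold lev
      fun_prop
    have hl : Tendsto (fun n : ℕ => ζ + ((1 / ((n : ℝ) + 1) : ℝ)) • ex) atTop (𝓝 ζ) := by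
      have := (tendsto_one_div_add_atTop_nhds_zero_nat (𝕜 := ℝ)).smul_const ex
      simpa using this.const_add ζ
    refine ge_of_tendsto' ((hFc.tendsto ζ).comp hl) fun n => ?_
    refine levi_ne g H hH hpos α P _ c hP ?_
    intro h
    have h0 := congrFun h 0
    simp [hζ, ex] at h0
    have : (0 : ℝ) < (n : ℝ) + 1 := by positivity
    have h2 : ((n : ℝ) + 1 : ℝ) = 0 := by exact_mod_cast h0
    linarith
  · exact levi_ne g H hH hpos α P ζ c hP hζ

theorem dualM_compat (g : Transition 2) (hg : IsHoloCocycle g) (H : MetricData 2)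
    (hH : IsHermitianMetric g H) (α β : Chart) (p : C2) (hp : p ∈ overlap α β) (v : C2) :
    sqn (dualM H) β (tau α β p, (g α β p).transpose.mulVec v) = sqn (dualM H) α (p, v) := by
  have hαα : p ∈ overlap α α := ⟨fun h => absurd rfl h, fun h => absurd rfl h⟩
  have hinv := hg.cocycle α β α p ⟨hp, hαα⟩
  rw [hg.refl] at hinv
  have hu : IsUnit (g α β p).det := Matrix.isUnit_det_of_right_inverse hinv
  have huH : IsUnit ((g α β p)ᴴ).det := by
    rw [Matrix.det_conjTranspose]; exact hu.star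
  unfold sqn
  rw [hNormSq_eq, hNormSq_eq]
  congr 1
  have e1 : (H β (tau α β p))ᵀ = (g α β p)ᴴ * (H α p)ᵀ * g α β p := by
    rw [hH.compat α β p hp, transpose_mul, transpose_mul, transpose_transpose, Matrix.mul_assoc]
    rfl
  have e2 : star ((g α β p)ᵀ *ᵥ v) = (g α β p)ᴴ *ᵥ star v := by
    rw [star_mulVec, ← mulVec_transpose]
    rfl
  simp only [dualM]
  rw [e1, e2, Matrix.mul_inv_rev, Matrix.mul_inv_rev, mulVec_mulVec, Matrix.mul_assoc,
    Matrix.mul_assoc, Matrix.nonsing_inv_mul _ huH, Matrix.mul_one, mulVec_transpose,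
    ← dotProduct_mulVec, mulVec_mulVec, ← Matrix.mul_assoc, Matrix.mul_nonsing_inv _ hu,
    Matrix.one_mul]

end Crest.Agent.R258

end
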