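import Crest.Agent.R258.Data
import Crest.Agent.R258.Dual

/-!
Elementary facts: Hermitian forms, the trace function, cut-off functions, compactness bounds.
-/

set_option autoImplicit false

noncomputable section

namespace Crest.Agent.R258

open Crest.AlgGeometry.QuadricBundle MeasureTheory Matrix
open scoped ComplexConjugate ComplexOrder ENNReal

theorem two_le_inf : (2 : WithTop ℕ∞) ≤ ((⊤ : ℕ∞) : WithTop ℕ∞) := by
  have : (2 : WithTop ℕ∞) = ((2 : ℕ∞) : WithTop ℕ∞) := rfl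
  rw [this]
  exact WithTop.coe_le_coe.2 le_top

theorem one_le_inf : (1 : WithTop ℕ∞) ≤ ((⊤ : ℕ∞) : WithTop ℕ∞) := by
  exact_mod_cast le_top

theorem sqn_eq (h : MetricData 2) (α : Chart) (p v : C2) :
    sqn h α (p, v) = (h α p 0 0 * v 0 * conj (v 0) + h α p 0 1 * v 0 * conj (v 1)
      + (h α p 1 0 * v 1 * conj (v 0) + h α p 1 1 * v 1 * conj (v 1))).re := by
  simp only [sqn, hNormSq, Fin.sum_univ_two]

theorem sqn_smul (h : MetricData 2) (α : Chart) (p v : C2) (c : ℂ) :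
    sqn h α (p, c • v) = Complex.normSq c * sqn h α (p, v) := by
  rw [sqn_eq, sqn_eq, ← Complex.re_ofReal_mul, Complex.normSq_eq_conj_mul_self]
  congr 1
  simp only [Pi.smul_apply, smul_eq_mul, map_mul]
  ring

theorem sqn_pos (h : MetricData 2) (α : Chart) (p v : C2) (hp : (h α p).PosDef) (hv : v ≠ 0) :
    0 < sqn h α (p, v) := by
  have hv' : star v ≠ 0 := by simpa using hv
  have := hp.re_dotProduct_pos hv'
  rw [sqn_eq]
  convert this using 2
  simp [dotProduct, Matrix.mulVec, Fin.sum_univ_two]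
  ring

theorem sqn_nonneg (h : MetricData 2) (α : Chart) (p v : C2) (hp : (h α p).PosDef) :
    0 ≤ sqn h α (p, v) := by
  by_cases hv : v = 0
  · subst hv; simp [sqn_eq]
  · exact (sqn_pos h α p v hp hv).le

/-- the trace of the form in the frame of the chart -/
def uu (h : MetricData 2) (α : Chart) (p : C2) : ℝ :=
  sqn h α (p, Pi.single 0 1) + sqn h α (p, Pi.single 1 1)

theorem single_ne (i : Fin 2) : (Pi.single i 1 : C2) ≠ 0 := by
  intro h
  have := congrFun h i
  simp at this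

theorem uu_pos (h : MetricData 2) (α : Chart) (p : C2) (hp : (h α p).PosDef) : 0 < uu h α p :=
  add_pos (sqn_pos h α p _ hp (single_ne 0)) (sqn_pos h α p _ hp (single_ne 1))

theorem sqn_le (h : MetricData 2) (α : Chart) (p v : C2) (hp : (h α p).PosDef) :
    sqn h α (p, v) ≤ 2 * ‖v‖ ^ 2 * uu h α p := by
  have h1 := sqn_nonneg h α p ![v 0, -v 1] hp
  have h2 : sqn h α (p, v) + sqn h α (p, ![v 0, -v 1]) =
      2 * (Complex.normSq (v 0) * sqn h α (p, Pi.single 0 1)
        + Complex.normSq (v 1) * sqn h α (p, Pi.single 1 1)) := by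
    rw [← sqn_smul, ← sqn_smul]
    simp only [sqn_eq, ← Complex.add_re]
    simp
    ring
  have h3 := sqn_nonneg h α p (Pi.single 0 1) hp
  have h4 := sqn_nonneg h α p (Pi.single 1 1) hp
  have h5 : ∀ i, Complex.normSq (v i) ≤ ‖v‖ ^ 2 := fun i => by
    rw [Complex.normSq_eq_norm_sq]
    exact pow_le_pow_left₀ (norm_nonneg _) (norm_le_pi_norm v i) 2
  unfold uu
  nlinarith [mul_le_mul_of_nonneg_right (h5 0) h3, mul_le_mul_of_nonneg_right (h5 1) h4]

theorem uu_le (h : MetricData 2) (α : Chart) (p : C2) (c : ℂ) :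
    ‖c‖ * uu h α p ≤ ‖fun j k => c * (2 * h α p j k)‖ := by
  set H : Fin 2 → Fin 2 → ℂ := fun j k => c * (2 * h α p j k)
  have hb : ∀ j, ‖c‖ * (2 * (h α p j j).re) ≤ ‖H‖ := fun j => by
    refine le_trans ?_ ((norm_le_pi_norm (H j) j).trans (norm_le_pi_norm H j))
    simp only [H, norm_mul, Complex.norm_ofNat]
    gcongr
    exact Complex.re_le_norm _
  have : uu h α p = (h α p 0 0).re + (h α p 1 1).re := by
    simp [uu, sqn_eq]
  rw [this]
  linarith [hb 0, hb 1]

theorem contDiff_slice (G : S → ℝ) (hG : ContDiff ℝ 2 G) (e : C2) :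
    ContDiff ℝ 2 (fun p : C2 => G (p, e)) :=
  hG.comp (contDiff_id.prodMk contDiff_const)

theorem fderiv2_slice (G : S → ℝ) (hG : ContDiff ℝ 2 G) (e p ξ : C2) :
    fderiv ℝ (fderiv ℝ (fun p : C2 => G (p, e))) p ξ ξ =
      fderiv ℝ (fderiv ℝ G) (p, e) (ξ, 0) (ξ, 0) := by
  have hd : Differentiable ℝ G := hG.differentiable (by norm_num)
  have hd2 : Differentiable ℝ (fderiv ℝ G) :=
    (hG.fderiv_right (m := 1) (by norm_num)).differentiable (by norm_num)
  have hA : ∀ p : C2, HasFDerivAt (fun p : C2 => (p, e)) (ContinuousLinearMap.inl ℝ C2 C2) p :=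
    fun p => hasFDerivAt_prodMk_left p e
  have h1 : fderiv ℝ (fun p : C2 => G (p, e)) =
      fun p => (fderiv ℝ G (p, e)).comp (ContinuousLinearMap.inl ℝ C2 C2) := by
    funext p
    exact ((hd (p, e)).hasFDerivAt.comp p (hA p)).fderiv
  have h2 : HasFDerivAt (fun p : C2 => fderiv ℝ G (p, e))
      ((fderiv ℝ (fderiv ℝ G) (p, e)).comp (ContinuousLinearMap.inl ℝ C2 C2)) p :=
    (hd2 (p, e)).hasFDerivAt.comp p (hA p)
  have h3 := h2.clm_comp (hasFDerivAt_const (ContinuousLinearMap.inl ℝ C2 C2) p)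
  rw [h1, h3.fderiv]
  simp

theorem lev_slice (G : S → ℝ) (hG : ContDiff ℝ 2 G) (e p ξ : C2) :
    lev (fun p : C2 => G (p, e)) p ξ = lev G (p, e) (ξ, 0) := by
  unfold lev
  rw [fderiv2_slice G hG, fderiv2_slice G hG]
  simp

theorem lev_add (f g : C2 → ℝ) (hf : ContDiff ℝ 2 f) (hg : ContDiff ℝ 2 g) (p ξ : C2) :
    lev (fun p => f p + g p) p ξ = lev f p ξ + lev g p ξ := by
  have h1 : fderiv ℝ (fun p => f p + g p) = fun p => fderiv ℝ f p + fderiv ℝ g p := by
    funext p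
    exact fderiv_fun_add (hf.differentiable (by norm_num) p) (hg.differentiable (by norm_num) p)
  have h2 : fderiv ℝ (fun p => fderiv ℝ f p + fderiv ℝ g p) p =
      fderiv ℝ (fderiv ℝ f) p + fderiv ℝ (fderiv ℝ g) p :=
    fderiv_fun_add ((hf.fderiv_right (m := 1) (by norm_num)).differentiable (by norm_num) p)
      ((hg.fderiv_right (m := 1) (by norm_num)).differentiable (by norm_num) p)
  unfold lev
  rw [h1, h2]
  simp only [_root_.add_apply]
  ring

theorem IsNeg.contDiff_sqn {h : MetricData 2} (hn : IsNeg h) (α : Chart) :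
    ContDiff ℝ 2 (sqn h α) :=
  (Crest.Agent.R258.contDiff_sqn h α (hn.smooth α)).of_le two_le_inf

theorem IsNeg.contDiff_uu {h : MetricData 2} (hn : IsNeg h) (α : Chart) :
    ContDiff ℝ 2 (uu h α) :=
  (contDiff_slice _ (hn.contDiff_sqn α) _).add (contDiff_slice _ (hn.contDiff_sqn α) _)

theorem IsNeg.lev_uu {h : MetricData 2} (hn : IsNeg h) (α : Chart) (p ξ : C2) :
    0 ≤ lev (uu h α) p ξ := by
  have hG := hn.contDiff_sqn α
  have := lev_add _ _ (contDiff_slice _ hG (Pi.single 0 1)) (contDiff_slice _ hG (Pi.single 1 1)) p ξ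
  unfold uu
  rw [this, lev_slice _ hG, lev_slice _ hG]
  have h0 := hn.levi α (p, Pi.single 0 1) (ξ, 0) 0 (single_ne 0)
  have h1 := hn.levi α (p, Pi.single 1 1) (ξ, 0) 0 (single_ne 1)
  simp at h0 h1
  linarith

/-- indicator of the annulus `2 ≤ r ≤ 3` -/
def annI (r : ℝ) : ℝ := if 2 ≤ r ∧ r ≤ 3 then 1 else 0

theorem exists_chi : ∃ (χ : ℂ → ℝ) (K : ℝ), 0 ≤ K ∧ ContDiff ℝ 1 χ ∧ (∀ x, |χ x| ≤ 1) ∧
    (∀ x, ‖x‖ ≤ 2 → χ x = 1) ∧ (∀ x, χ x ≠ 0 → ‖x‖ ≤ 3) ∧
    ∀ x η, |fderiv ℝ χ x η| ≤ K * annI ‖x‖ * ‖η‖ := by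
  let b : ContDiffBump (0 : ℂ) := ⟨2, 3, by norm_num, by norm_num⟩
  have hc : ContDiff ℝ 1 b := b.contDiff
  obtain ⟨K, hK⟩ := (b.hasCompactSupport.fderiv ℝ).exists_bound_of_continuous
    (hc.continuous_fderiv (by norm_num))
  have hK0 : 0 ≤ K := (norm_nonneg _).trans (hK 0)
  refine ⟨b, K, hK0, hc, fun x => ?_, fun x hx => ?_, fun x hx => ?_, fun x η => ?_⟩
  · rw [abs_of_nonneg b.nonneg]; exact b.le_one
  · exact b.one_of_mem_closedBall (by simpa [b] using hx)
  · have : x ∈ Function.support b := hx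
    rw [b.support_eq] at this
    simpa [b] using (mem_ball_zero_iff.1 this).le
  · unfold annI
    split_ifs with hx
    · rw [mul_one, ← Real.norm_eq_abs]
      exact ((fderiv ℝ b x).le_opNorm η).trans (by gcongr; exact hK x)
    · have : fderiv ℝ b x = 0 := by
        rcases not_and_or.1 hx with hx | hx
        · have : (b : ℂ → ℝ) =ᶠ[nhds x] fun _ => 1 := by
            have hm : Metric.ball (0 : ℂ) 2 ∈ nhds x :=
              Metric.isOpen_ball.mem_nhds (by simpa using hx)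
            filter_upwards [hm] with y hy
            exact b.one_of_mem_closedBall (Metric.ball_subset_closedBall hy)
          rw [this.fderiv_eq]; simp
        · have : (b : ℂ → ℝ) =ᶠ[nhds x] fun _ => 0 := by
            have hm : (Metric.closedBall (0 : ℂ) 3)ᶜ ∈ nhds x :=
              Metric.isClosed_closedBall.isOpen_compl.mem_nhds (by simpa using hx)
            filter_upwards [hm] with y hy
            apply b.zero_of_le_dist
            simp only [Set.mem_compl_iff, Metric.mem_closedBall, not_le] at hy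
            exact hy.le
          rw [this.fderiv_eq]; simp
      simp [this]

theorem exists_omega (w1 w2 : ℝ) (h1 : 0 < w1) (h12 : w1 ≤ w2) :
    ∃ ω : ℝ → ℝ, ContDiff ℝ 1 ω ∧ (∀ t, |ω t| ≤ 1) ∧ (∀ t, w1 ≤ t → t ≤ w2 → ω t = 1) ∧
      ∀ t, ω t ≠ 0 → 0 < t ∧ t ≤ 2 * w2 := by
  let b : ContDiffBump ((w1 + w2) / 2) :=
    ⟨(w2 - w1) / 2 + w1 / 4, (w2 - w1) / 2 + w1 / 2, by linarith, by linarith⟩
  refine ⟨b, b.contDiff, fun t => ?_, fun t ht ht' => ?_, fun t ht => ?_⟩
  · rw [abs_of_nonneg b.nonneg]; exact b.le_one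
  · apply b.one_of_mem_closedBall
    rw [Metric.mem_closedBall, Real.dist_eq, abs_le]
    constructor <;> simp only [b] <;> linarith
  · have : t ∈ Function.support b := ht
    rw [b.support_eq, Metric.mem_ball, Real.dist_eq, abs_lt] at this
    simp only [b] at this
    constructor <;> linarith [this.1, this.2]

/-- Euclidean squared norm on `ℂ³` -/
def nsq (w : C3) : ℝ := Complex.normSq (w 0) + Complex.normSq (w 1) + Complex.normSq (w 2)

theorem contDiff_nsq : ContDiff ℝ 1 nsq := by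
  unfold nsq
  simp only [Complex.normSq_apply]
  have hre : ∀ i : Fin 3, ContDiff ℝ 1 (fun w : C3 => (w i).re) := fun i =>
    Complex.reCLM.contDiff.comp (contDiff_apply ℝ ℂ i)
  have him : ∀ i : Fin 3, ContDiff ℝ 1 (fun w : C3 => (w i).im) := fun i =>
    Complex.imCLM.contDiff.comp (contDiff_apply ℝ ℂ i)
  exact ((((hre 0).mul (hre 0)).add ((him 0).mul (him 0))).add
    (((hre 1).mul (hre 1)).add ((him 1).mul (him 1)))).add
    (((hre 2).mul (hre 2)).add ((him 2).mul (him 2)))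

theorem norm_sq_le_nsq (w : C3) : ‖w‖ ^ 2 ≤ nsq w := by
  have h0 := Complex.normSq_nonneg (w 0)
  have h1 := Complex.normSq_nonneg (w 1)
  have h2 := Complex.normSq_nonneg (w 2)
  have hn : 0 ≤ nsq w := by unfold nsq; linarith
  have : ‖w‖ ≤ Real.sqrt (nsq w) := by
    refine (pi_norm_le_iff_of_nonneg (Real.sqrt_nonneg _)).2 fun i => ?_
    apply Real.le_sqrt_of_sq_le
    rw [← Complex.normSq_eq_norm_sq]
    unfold nsq
    fin_cases i <;> simp <;> linarith
  calc ‖w‖ ^ 2 ≤ Real.sqrt (nsq w) ^ 2 := by gcongr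
    _ = nsq w := Real.sq_sqrt hn

theorem nsq_le (w : C3) : nsq w ≤ 3 * ‖w‖ ^ 2 := by
  have h5 : ∀ i, Complex.normSq (w i) ≤ ‖w‖ ^ 2 := fun i => by
    rw [Complex.normSq_eq_norm_sq]
    exact pow_le_pow_left₀ (norm_nonneg _) (norm_le_pi_norm w i) 2
  unfold nsq
  linarith [h5 0, h5 1, h5 2]

theorem continuous_qq (α : Chart) : Continuous (qq α) := (contDiff_qq α).continuous

theorem qq_lower (ρ : ℝ) : ∃ c : ℝ, 0 < c ∧ ∀ (α : Chart) (P v : C2), ‖P‖ ≤ ρ →
    c * ‖v‖ ^ 2 ≤ ‖qq α (P, v)‖ := by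
  have key : ∀ α : Chart, ∃ c : ℝ, 0 < c ∧ ∀ (P v : C2), ‖P‖ ≤ ρ →
      c * ‖v‖ ^ 2 ≤ ‖qq α (P, v)‖ := by
    intro α
    have hK : IsCompact (Metric.closedBall (0 : C2) ρ ×ˢ Metric.sphere (0 : C2) 1) :=
      (isCompact_closedBall _ _).prod (isCompact_sphere _ _)
    obtain ⟨c, hc, hle⟩ := hK.exists_forall_le' (f := fun P => ‖qq α P‖) (a := 0)
      (continuous_qq α).norm.continuousOn (by
        rintro ⟨P, v⟩ ⟨-, hv⟩
        refine norm_pos_iff.2 (qq_ne_zero α P v ?_)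
        rintro rfl
        simp at hv)
    refine ⟨c, hc, fun P v hP => ?_⟩
    by_cases hv : v = 0
    · subst hv; simp
    have hv' : 0 < ‖v‖ := norm_pos_iff.2 hv
    have h1 := hle (P, ((‖v‖⁻¹ : ℝ) : ℂ) • v) ⟨by simpa using hP, by
      simp [norm_smul, hv'.ne']⟩
    rw [qq_smul, norm_smul] at h1
    simp only [norm_pow, Complex.norm_real, norm_inv, norm_norm] at h1
    calc c * ‖v‖ ^ 2 ≤ (‖v‖⁻¹ ^ 2 * ‖qq α (P, v)‖) * ‖v‖ ^ 2 := by gcongr
      _ = ‖qq α (P, v)‖ := by field_simp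
  choose c hc hle using key
  refine ⟨Finset.univ.inf' Finset.univ_nonempty c, ?_, fun α P v hP => ?_⟩
  · simpa [Finset.lt_inf'_iff] using fun a b => hc (a, b)
  · refine le_trans ?_ (hle α P v hP)
    gcongr
    exact Finset.inf'_le _ (Finset.mem_univ α)

theorem bound_on_balls {F : Type} [NormedAddCommGroup F] (f : Chart → S → F)
    (hf : ∀ α, Continuous (f α)) (ρ ρ' : ℝ) :
    ∃ C : ℝ, 0 < C ∧ ∀ (α : Chart) (P v : C2), ‖P‖ ≤ ρ → ‖v‖ ≤ ρ' → ‖f α (P, v)‖ ≤ C := by
  have hK : IsCompact (Metric.closedBall (0 : C2) ρ ×ˢ Metric.closedBall (0 : C2) ρ') :=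
    (isCompact_closedBall _ _).prod (isCompact_closedBall _ _)
  have hc : Continuous (fun P : S => fun α => f α P) := continuous_pi hf
  obtain ⟨C, hC⟩ := hK.exists_bound_of_continuousOn hc.continuousOn
  refine ⟨max C 1, lt_max_of_lt_right one_pos, fun α P v hP hv => ?_⟩
  have := hC (P, v) ⟨by simpa using hP, by simpa using hv⟩
  exact ((norm_le_pi_norm (fun α => f α (P, v)) α).trans this).trans (le_max_left _ _)

end Crest.Agent.R258
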