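import Crest.Agent.R258.Core1

/-!
Change of chart for the Jacobian field and the fibre estimate.
-/

set_option autoImplicit false

noncomputable section

namespace Crest.Agent.R258

open Crest.AlgGeometry.QuadricBundle MeasureTheory Matrix
open scoped ComplexConjugate ComplexOrder ENNReal

theorem lintegral_le_of_lin (T : Matrix (Fin 2) (Fin 2) ℂ) (hT : T.det ≠ 0) (f : C2 → ℝ≥0∞)
    (ρ : ℝ) (c : ℝ≥0∞) (h1 : ∀ v, f (T *ᵥ v) ≤ c) (h2 : ∀ v, f (T *ᵥ v) ≠ 0 → ‖v‖ ≤ ρ) :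
    ∫⁻ v, f v ≤ c * (ENNReal.ofReal (‖T.det‖ ^ 2) * volume (Metric.closedBall (0 : C2) ρ)) := by
  let L : C2 →ₗ[ℝ] C2 := (Matrix.toLin' T).restrictScalars ℝ
  have hdet : LinearMap.det L = ‖T.det‖ ^ 2 := by
    rw [LinearMap.det_restrictScalars, LinearMap.det_toLin', Algebra.norm_complex_apply,
      Complex.normSq_eq_norm_sq]
  have hμ : volume (L '' Metric.closedBall (0 : C2) ρ) =
      ENNReal.ofReal (‖T.det‖ ^ 2) * volume (Metric.closedBall (0 : C2) ρ) := by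
    rw [Measure.addHaar_image_linearMap, hdet, abs_of_nonneg (by positivity)]
  rw [← hμ]
  refine le_trans (lintegral_mono fun v => ?_) (lintegral_indicator_const_le _ c)
  have hv : T *ᵥ (T⁻¹ *ᵥ v) = v := by
    rw [Matrix.mulVec_mulVec, Matrix.mul_nonsing_inv _ (Ne.isUnit hT), Matrix.one_mulVec]
  by_cases h0 : f v = 0
  · simp [h0]
  · have hmem : v ∈ L '' Metric.closedBall (0 : C2) ρ := by
      refine ⟨T⁻¹ *ᵥ v, ?_, hv⟩
      exact mem_closedBall_zero_iff.2 (h2 (T⁻¹ *ᵥ v) (by rwa [hv]))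
    rw [Set.indicator_of_mem hmem, ← hv]
    exact h1 _

/-- the open torus -/
def tor (p : C2) : Prop := p 0 ≠ 0 ∧ p 1 ≠ 0

theorem tor.mem {p : C2} (h : tor p) (α β : Chart) : p ∈ overlap α β :=
  ⟨fun _ => h.1, fun _ => h.2⟩

theorem tor.tau {p : C2} (h : tor p) (α β : Chart) : tor (tau α β p) := by
  constructor
  · by_cases ha : α.1 = β.1 <;> simp [AlgGeometry.QuadricBundle.tau, ha, h.1]
  · by_cases ha : α.2 = β.2 <;> simp [AlgGeometry.QuadricBundle.tau, ha, h.2]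

theorem tor.up {p : C2} (h : tor p) (M : ℕ) : tor (up M p) :=
  ⟨pow_ne_zero _ h.1, pow_ne_zero _ h.2⟩

theorem isOpen_tor : IsOpen {p : C2 | tor p} :=
  (isOpen_ne_fun (continuous_apply 0) continuous_const).inter
    (isOpen_ne_fun (continuous_apply 1) continuous_const)

theorem tor.nhds {p : C2} (h : tor p) : ∀ᶠ p' in nhds p, tor p' := isOpen_tor.mem_nhds h

theorem tor.overlap_nhds {p : C2} (h : tor p) (α β : Chart) : overlap α β ∈ _root_.nhds p :=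
  h.nhds.mono fun _ h' => h'.mem α β

theorem lineTrans_ne {p : C2} (h : tor p) (r t : ℤ) (α β : Chart) : lineTrans r t α β p ≠ 0 := by
  have := lineTrans_mul r t (-r) (-t) α β p (h.mem α β)
  rw [add_neg_cancel, add_neg_cancel, lineTrans_zero] at this
  exact left_ne_zero_of_mul_eq_one this

/-- the quadrics pulled back by `up M`, chart `(0,0)` -/
def QM (M : ℕ) (P : S) : C3 := qq (0, 0) (up M P.1, P.2)

theorem contDiff_QM (M : ℕ) : ContDiff ℂ (⊤ : ℕ∞) (QM M) := by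
  have h : ContDiff ℂ (⊤ : ℕ∞) (fun P : S => (up M P.1, P.2)) :=
    ((contDiff_up M).comp contDiff_fst).prodMk contDiff_snd
  have h2 := (contDiff_qq (0, 0)).comp h
  unfold QM
  simpa only [Function.comp_def] using h2

def Tm (M : ℕ) (α : Chart) (p : C2) : Matrix (Fin 2) (Fin 2) ℂ :=
  lineTrans M (-M) (0, 0) α p • Nm α (0, 0) (tau (0, 0) α (up M p))

theorem Nm_inv (α β : Chart) {P : C2} (h : tor P) : Nm α β P * Nm β α (tau α β P) = 1 := by
  have := Nm_mul β α β (tau α β P) ((h.tau α β).mem _ _)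
  rwa [tau_tau, tau_self, Nm_self] at this

theorem det_Tm (M : ℕ) (α : Chart) {p : C2} (h : tor p) : (Tm M α p).det ≠ 0 := by
  rw [Tm, Matrix.det_smul]
  refine mul_ne_zero (pow_ne_zero _ (lineTrans_ne h _ _ _ _)) ?_
  have := congrArg Matrix.det (Nm_inv (0, 0) α (h.up M))
  rw [Matrix.det_mul, Matrix.det_one] at this
  exact right_ne_zero_of_mul_eq_one this

theorem QM_Tm (M : ℕ) (α : Chart) {p : C2} (h : tor p) (v : C2) :
    QM M (p, Tm M α p *ᵥ v) = qq α (up M (tau (0, 0) α p), v) := by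
  have hP := h.up M
  simp only [QM, Tm, Matrix.smul_mulVec]
  rw [qq_smul, qq_tau (0, 0) α _ (hP.mem _ _), Matrix.mulVec_mulVec, Nm_inv _ _ hP,
    Matrix.one_mulVec, smul_smul, lineTrans_up, sq, lineTrans_mul _ _ _ _ _ _ _ (h.mem _ _),
    lineTrans_mul _ _ _ _ _ _ _ (h.mem _ _), up_tau]
  have e1 : (M : ℤ) + M + M * (-2) = 0 := by ring
  have e2 : -(M : ℤ) + -M + 2 * M * 1 = 0 := by ring
  rw [e1, e2, lineTrans_zero, one_smul]

/-- compatibility of a dual metric with the transition matrices -/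
def Compat (M : ℕ) (h : MetricData 2) : Prop :=
  ∀ (α β : Chart) (p : C2), p ∈ overlap α β → ∀ v : C2,
    sqn h β (tau α β p, (gM M α β p).transpose *ᵥ v) = sqn h α (p, v)

theorem Compat.base {M : ℕ} {h : MetricData 2} (hc : Compat M h) (α : Chart) {p : C2} (hp : tor p)
    (v : C2) :
    sqn h α (tau (0, 0) α p, v) = sqn h (0, 0) (p, lineTrans (M - 1) (-M - 1) (0, 0) α p •
      (Nm α (0, 0) (tau (0, 0) α (up M p)) *ᵥ v)) := by
  rw [← hc α (0, 0) _ ((hp.tau _ _).mem _ _) v, tau_tau, tau_self, gM, Matrix.transpose_smul,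
    Matrix.transpose_transpose, Matrix.smul_mulVec, lineTrans_tau, up_tau]
  congr 4 <;> ring

theorem Compat.Tm {M : ℕ} {h : MetricData 2} (hc : Compat M h) (α : Chart) {p : C2} (hp : tor p)
    (v : C2) :
    sqn h (0, 0) (p, Tm M α p *ᵥ v) =
      Complex.normSq (lineTrans 1 1 (0, 0) α p) * sqn h α (tau (0, 0) α p, v) := by
  rw [hc.base α hp, ← sqn_smul, smul_smul, lineTrans_mul _ _ _ _ _ _ _ (hp.mem _ _), R258.Tm,
    Matrix.smul_mulVec]
  congr 4 <;> ring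

def phi (n : ℕ) (a : Fin 2) (x : ℂ) : ℂ := (if (0 : Fin 2) = a then x else x⁻¹) ^ n
def dd (n : ℕ) (a : Fin 2) (x : ℂ) : ℂ :=
  if (0 : Fin 2) = a then n * x ^ (n - 1) else -(n * x⁻¹ ^ (n + 1))

theorem hasDerivAt_phi (n : ℕ) (a : Fin 2) (x : ℂ) (hx : x ≠ 0) :
    HasDerivAt (phi n a) (dd n a x) x := by
  unfold phi dd
  by_cases ha : (0 : Fin 2) = a
  · simp only [ha, if_true]
    exact hasDerivAt_pow n x
  · simp only [ha, if_false]
    refine HasDerivAt.congr_deriv ((hasDerivAt_inv hx).pow n) ?_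
    rcases n with _ | n
    · simp
    · simp only [Nat.add_sub_cancel, pow_succ x⁻¹, sq, mul_inv]
      ring

theorem up_tau_phi (M : ℕ) (α : Chart) (p : C2) :
    up M (tau (0, 0) α p) = ![phi M α.1 (p 0), phi (2 * M) α.2 (p 1)] := by
  ext i
  fin_cases i <;> rfl

theorem differentiableAt_Tm (M : ℕ) (α : Chart) {p : C2} (h : tor p) (i j : Fin 2) :
    DifferentiableAt ℂ (fun p' => Tm M α p' i j) p := by
  simp only [Tm, Matrix.smul_apply, smul_eq_mul]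
  refine DifferentiableAt.mul
    ((differentiableOn_lineTrans _ _ _ _).differentiableAt (h.overlap_nhds _ _)) ?_
  have h1 : DifferentiableAt ℂ (up M) p := (contDiff_up M).differentiable (by simp) p
  have h2 : DifferentiableAt ℂ (tau (0, 0) α) (up M p) :=
    (differentiableOn_tau _ _).differentiableAt ((h.up M).overlap_nhds _ _)
  have h3 : DifferentiableAt ℂ (fun P => Nm α (0, 0) P i j) (tau (0, 0) α (up M p)) :=
    (differentiableOn_Nm _ _ i j).differentiableAt (((h.up M).tau _ _).overlap_nhds _ _)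
  exact h3.comp p (h2.comp p h1)

theorem jac_Tm (M : ℕ) (α : Chart) {p : C2} (h : tor p) (v : C2) :
    (jac (QM M) (p, Tm M α p *ᵥ v)).1 0 * (Tm M α p).det =
      dd (2 * M) α.2 (p 1) * (jac (qq α) (up M (tau (0, 0) α p), v)).1 0 ∧
    (jac (QM M) (p, Tm M α p *ᵥ v)).1 1 * (Tm M α p).det =
      dd M α.1 (p 0) * (jac (qq α) (up M (tau (0, 0) α p), v)).1 1 := by
  rw [up_tau_phi]
  refine jac_change (QM M) (qq α) (Tm M α) (phi M α.1) (phi (2 * M) α.2) _ _ p v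
    (hasDerivAt_phi _ _ _ h.1) (hasDerivAt_phi _ _ _ h.2) (differentiableAt_Tm M α h)
    ((contDiff_QM M).differentiable (by simp) _) ((contDiff_qq α).differentiable (by simp) _) ?_
  filter_upwards [h.nhds] with p' hp' v'
  rw [QM_Tm M α hp', up_tau_phi]

theorem normSq_lt_le (α : Chart) (p : C2) (h0 : ‖p 0‖ ≤ 3) (h1 : ‖p 1‖ ≤ 3) :
    Complex.normSq (lineTrans 1 1 (0, 0) α p) ≤ 81 := by
  have : ‖lineTrans 1 1 (0, 0) α p‖ ≤ 9 := by
    unfold lineTrans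
    rw [norm_mul]
    have a0 : ‖(if ((0, 0) : Chart).1 = α.1 then (1 : ℂ) else p 0 ^ (1 : ℤ))‖ ≤ 3 := by
      split_ifs <;> simp [h0]
    have a1 : ‖(if ((0, 0) : Chart).2 = α.2 then (1 : ℂ) else p 1 ^ (1 : ℤ))‖ ≤ 3 := by
      split_ifs <;> simp [h1]
    calc _ ≤ (3 : ℝ) * 3 := by gcongr
      _ = 9 := by norm_num
  rw [Complex.normSq_eq_norm_sq]
  nlinarith [norm_nonneg (lineTrans 1 1 (0, 0) α p)]

/-- the fibre estimate -/
theorem fibre_est {M : ℕ} {h : MetricData 2} (hn : IsNeg h) (hc : Compat M h) (ρ ρ1 w3 CV : ℝ)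
    (hρ1 : ∀ (α : Chart) (P v : C2), ‖P‖ ≤ ρ → nsq (qq α (P, v)) ≤ w3 → ‖v‖ ≤ ρ1)
    (hCV : ∀ (α : Chart) (P v : C2), ‖P‖ ≤ ρ → ‖v‖ ≤ ρ1 → ‖jac (qq α) (P, v)‖ ≤ CV)
    (α : Chart) {p : C2} (hp : tor p) (h0 : ‖p 0‖ ≤ 3) (h1 : ‖p 1‖ ≤ 3)
    (hρ : ‖up M (tau (0, 0) α p)‖ ≤ ρ) (i : Fin 2) (d : ℂ)
    (hd : ∀ v, (jac (QM M) (p, Tm M α p *ᵥ v)).1 i * (Tm M α p).det =
      d * (jac (qq α) (up M (tau (0, 0) α p), v)).1 i) :
    ∫⁻ v, ENNReal.ofReal ((if nsq (QM M (p, v)) ≤ w3 then 1 else 0) *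
        ‖(jac (QM M) (p, v)).1 i‖ ^ 2 * sqn h (0, 0) (p, v)) ≤
      ENNReal.ofReal (162 * CV ^ 2 * ρ1 ^ 2 * (volume (Metric.closedBall (0 : C2) ρ1)).toReal
        * (‖d‖ ^ 2 * uu h α (tau (0, 0) α p))) := by
  have hdet := det_Tm M α hp
  have hdet' : 0 < ‖(Tm M α p).det‖ := norm_pos_iff.2 hdet
  have hu := (uu_pos h α (tau (0, 0) α p) (hn.posDef _ _)).le
  have key : ∀ v, ENNReal.ofReal ((if nsq (QM M (p, Tm M α p *ᵥ v)) ≤ w3 then 1 else 0) *
        ‖(jac (QM M) (p, Tm M α p *ᵥ v)).1 i‖ ^ 2 * sqn h (0, 0) (p, Tm M α p *ᵥ v)) ≠ 0 →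
      ‖v‖ ≤ ρ1 := by
    intro v hv
    apply hρ1 α _ v hρ
    rw [← QM_Tm M α hp]
    by_contra hne
    rw [if_neg hne, zero_mul, zero_mul, ENNReal.ofReal_zero] at hv
    exact hv rfl
  refine (lintegral_le_of_lin (Tm M α p) hdet _ ρ1
    (ENNReal.ofReal (162 * CV ^ 2 * ρ1 ^ 2 * (‖d‖ ^ 2 * uu h α (tau (0, 0) α p))
      / ‖(Tm M α p).det‖ ^ 2)) (fun v => ?_) key).trans (le_of_eq ?_)
  · by_cases hv : ENNReal.ofReal ((if nsq (QM M (p, Tm M α p *ᵥ v)) ≤ w3 then 1 else 0) *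
        ‖(jac (QM M) (p, Tm M α p *ᵥ v)).1 i‖ ^ 2 * sqn h (0, 0) (p, Tm M α p *ᵥ v)) = 0
    · rw [hv]; exact zero_le
    have hv1 := key v hv
    apply ENNReal.ofReal_le_ofReal
    have e1 : ‖(jac (QM M) (p, Tm M α p *ᵥ v)).1 i‖ * ‖(Tm M α p).det‖ ≤ ‖d‖ * CV := by
      rw [← norm_mul, hd, norm_mul]
      gcongr
      exact ((norm_le_pi_norm _ i).trans (norm_fst_le _)).trans (hCV α _ v hρ hv1)
    have e2 : sqn h (0, 0) (p, Tm M α p *ᵥ v) ≤ 81 * (2 * ρ1 ^ 2 * uu h α (tau (0, 0) α p)) := by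
      rw [hc.Tm α hp]
      have a1 := sqn_le h α (tau (0, 0) α p) v (hn.posDef _ _)
      have a2 := sqn_nonneg h α (tau (0, 0) α p) v (hn.posDef _ _)
      have a3 := normSq_lt_le α p h0 h1
      calc _ ≤ 81 * (2 * ‖v‖ ^ 2 * uu h α (tau (0, 0) α p)) := by gcongr
        _ ≤ _ := by gcongr
    have e3 := sqn_nonneg h (0, 0) p (Tm M α p *ᵥ v) (hn.posDef _ _)
    rw [le_div_iff₀ (by positivity)]
    have e4 : (if nsq (QM M (p, Tm M α p *ᵥ v)) ≤ w3 then (1 : ℝ) else 0) ≤ 1 := by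
      split_ifs <;> norm_num
    calc _ ≤ 1 * ‖(jac (QM M) (p, Tm M α p *ᵥ v)).1 i‖ ^ 2 * sqn h (0, 0) (p, Tm M α p *ᵥ v)
          * ‖(Tm M α p).det‖ ^ 2 := by gcongr
      _ = (‖(jac (QM M) (p, Tm M α p *ᵥ v)).1 i‖ * ‖(Tm M α p).det‖) ^ 2
          * sqn h (0, 0) (p, Tm M α p *ᵥ v) := by ring
      _ ≤ (‖d‖ * CV) ^ 2 * (81 * (2 * ρ1 ^ 2 * uu h α (tau (0, 0) α p))) := by gcongr
      _ = _ := by ring
  · have hfin : volume (Metric.closedBall (0 : C2) ρ1) ≠ ⊤ := measure_closedBall_lt_top.ne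
    conv_lhs => rw [← ENNReal.ofReal_toReal hfin]
    rw [← ENNReal.ofReal_mul (by positivity), ← ENNReal.ofReal_mul (by positivity)]
    congr 1
    field_simp

end Crest.Agent.R258
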