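import Crest.Agent.R258.Defs
set_option autoImplicit false
noncomputable section
namespace Crest.Agent.R258
open Crest.AlgGeometry.QuadricBundle MeasureTheory
open scoped ComplexConjugate ComplexOrder ENNReal

namespace TorusMean

/-- Differentiation under the integral sign for a jointly continuous derivative. -/
theorem hasDerivAt_param (F F' : ℝ → ℝ → ℝ) (hF : ∀ x, Continuous (F x))
    (hF' : Continuous (Function.uncurry F'))
    (hd : ∀ x t, HasDerivAt (fun x => F x t) (F' x t) x) (a b x₀ : ℝ) :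
    HasDerivAt (fun x => ∫ t in a..b, F x t) (∫ t in a..b, F' x₀ t) x₀ := by
  obtain ⟨C, hC⟩ := ((isCompact_closedBall x₀ 1).prod (isCompact_uIcc (a := a) (b := b))).exists_bound_of_continuousOn
    hF'.continuousOn
  refine (intervalIntegral.hasDerivAt_integral_of_dominated_loc_of_deriv_le
    (s := Metric.ball x₀ 1) (bound := fun _ => C) (Metric.ball_mem_nhds x₀ one_pos)
    (Filter.Eventually.of_forall fun x => (hF x).aestronglyMeasurable)
    ((hF x₀).intervalIntegrable _ _)
    ((hF'.comp (Continuous.prodMk_right x₀)).aestronglyMeasurable)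
    (Filter.Eventually.of_forall fun t ht x hx => ?_) intervalIntegrable_const
    (Filter.Eventually.of_forall fun t _ x _ => hd x t)).2
  exact hC (x, t) ⟨Metric.ball_subset_closedBall hx, Set.uIoc_subset_uIcc ht⟩

variable {E : Type} [NormedAddCommGroup E] [NormedSpace ℂ E]

theorem lev_smul (u : E → ℝ) (P v : E) (c : ℂ) :
    lev u P (c • v) = (c.re ^ 2 + c.im ^ 2) * lev u P v := by
  have h1 : c • v = c.re • v + c.im • (Complex.I • v) := by
    conv_lhs => rw [← Complex.re_add_im c]
    rw [add_smul, mul_smul]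
    rfl
  have h2 : Complex.I • c • v = c.re • (Complex.I • v) - c.im • v := by
    have : Complex.I * c = (c.re : ℂ) * Complex.I - (c.im : ℂ) := by
      apply Complex.ext <;> simp
    rw [← mul_smul, this, sub_smul, mul_smul]
    rfl
  unfold lev
  rw [h2, h1]
  simp only [map_add, map_sub, map_smul, add_apply,
    sub_apply, smul_apply, smul_eq_mul]
  ring

/-- unit vector of angle `θ` -/
def ee (θ : ℝ) : ℂ := Complex.exp (θ * Complex.I)

theorem ee_cont : Continuous ee := by
  unfold ee; fun_prop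

theorem ee_deriv (θ : ℝ) : HasDerivAt ee (Complex.I * ee θ) θ := by
  have h1 : HasDerivAt (fun θ : ℝ => (θ : ℂ) * Complex.I) Complex.I θ := by
    simpa using (Complex.ofRealCLM.hasDerivAt (x := θ)).mul_const Complex.I
  have := h1.cexp
  rw [mul_comm] at this
  exact this

theorem ee_pi : ee Real.pi = ee (-Real.pi) := by
  unfold ee
  rw [Complex.ofReal_neg, neg_mul, Complex.exp_neg, Complex.exp_pi_mul_I]
  norm_num

theorem ee_norm (θ : ℝ) : (ee θ).re ^ 2 + (ee θ).im ^ 2 = 1 := by
  unfold ee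
  rw [Complex.exp_ofReal_mul_I_re, Complex.exp_ofReal_mul_I_im, Real.cos_sq_add_sin_sq]

theorem core (u : E → ℝ) (hu : ContDiff ℝ 2 u) (b v : E)
    (h : ∀ z : ℂ, 0 ≤ lev u (b + z • v) v) :
    MonotoneOn (fun ρ : ℝ => ∫ θ in (-Real.pi)..Real.pi, u (b + circleMap 0 ρ θ • v))
      (Set.Ici 0) := by
  have hu1 : ContDiff ℝ 1 (fderiv ℝ u) := hu.fderiv_right (by norm_num)
  have hud : Differentiable ℝ u := hu.differentiable (by norm_num)
  have hDd : Differentiable ℝ (fderiv ℝ u) := hu1.differentiable (by norm_num)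
  have hDc : Continuous (fderiv ℝ u) := hu1.continuous
  have hD2c : Continuous (fderiv ℝ (fderiv ℝ u)) := hu1.continuous_fderiv (by norm_num)
  have hee := ee_cont
  let P : ℝ → ℝ → E := fun ρ θ => b + ((ρ : ℂ) * ee θ) • v
  have hPc : Continuous (Function.uncurry P) := by
    have : Function.uncurry P = fun q : ℝ × ℝ => b + ((q.1 : ℂ) * ee q.2) • v := rfl
    rw [this]; fun_prop
  have hPρ : ∀ ρ θ, HasDerivAt (fun ρ => P ρ θ) (ee θ • v) ρ := by
    intro ρ θ
    have h1 : HasDerivAt (fun ρ : ℝ => (ρ : ℂ) * ee θ) (ee θ) ρ := by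
      simpa using (Complex.ofRealCLM.hasDerivAt (x := ρ)).mul_const (ee θ)
    exact (h1.smul_const v).const_add b
  have hPθ : ∀ ρ θ, HasDerivAt (fun θ => P ρ θ) (ρ • ((Complex.I * ee θ) • v)) θ := by
    intro ρ θ
    have h1 := (((ee_deriv θ).const_mul (ρ : ℂ)).smul_const v).const_add b
    rw [mul_smul] at h1
    exact h1
  -- first derivative of the mean
  let m : ℝ → ℝ := fun ρ => ∫ θ in (-Real.pi)..Real.pi, u (P ρ θ)
  let m' : ℝ → ℝ := fun ρ => ∫ θ in (-Real.pi)..Real.pi, fderiv ℝ u (P ρ θ) (ee θ • v)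
  let m'' : ℝ → ℝ := fun ρ => ∫ θ in (-Real.pi)..Real.pi,
    fderiv ℝ (fderiv ℝ u) (P ρ θ) (ee θ • v) (ee θ • v)
  have hc1 : Continuous (Function.uncurry fun ρ θ => fderiv ℝ u (P ρ θ) (ee θ • v)) :=
    (hDc.comp hPc).clm_apply ((hee.comp continuous_snd).smul continuous_const)
  have hc2 : ∀ c : ℂ, Continuous (Function.uncurry fun ρ θ =>
      fderiv ℝ (fderiv ℝ u) (P ρ θ) ((c * ee θ) • v) ((c * ee θ) • v)) := fun c =>
    ((hD2c.comp hPc).clm_apply
      ((continuous_const.mul (hee.comp continuous_snd)).smul continuous_const)).clm_apply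
      ((continuous_const.mul (hee.comp continuous_snd)).smul continuous_const)
  have hc2' : Continuous (Function.uncurry fun ρ θ =>
      fderiv ℝ (fderiv ℝ u) (P ρ θ) (ee θ • v) (ee θ • v)) := by
    simpa using hc2 1
  have hm : ∀ ρ, HasDerivAt m (m' ρ) ρ := fun ρ =>
    hasDerivAt_param (fun ρ θ => u (P ρ θ)) (fun ρ θ => fderiv ℝ u (P ρ θ) (ee θ • v))
      (fun x => hu.continuous.comp (hPc.comp (Continuous.prodMk_right x))) hc1
      (fun x t => (hud (P x t)).hasFDerivAt.comp_hasDerivAt x (hPρ x t)) _ _ ρ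
  have hm' : ∀ ρ, HasDerivAt m' (m'' ρ) ρ := fun ρ =>
    hasDerivAt_param (fun ρ θ => fderiv ℝ u (P ρ θ) (ee θ • v))
      (fun ρ θ => fderiv ℝ (fderiv ℝ u) (P ρ θ) (ee θ • v) (ee θ • v))
      (fun x => hc1.comp (Continuous.prodMk_right x)) hc2'
      (fun x t => by
        have h1 := (hDd (P x t)).hasFDerivAt.comp_hasDerivAt x (hPρ x t)
        simpa using h1.clm_apply (hasDerivAt_const x (ee t • v))) _ _ ρ
  -- the angular identity
  have hang : ∀ ρ : ℝ, ∫ θ in (-Real.pi)..Real.pi,
      (ρ * fderiv ℝ (fderiv ℝ u) (P ρ θ) ((Complex.I * ee θ) • v) ((Complex.I * ee θ) • v)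
        - fderiv ℝ u (P ρ θ) (ee θ • v)) = 0 := by
    intro ρ
    have hd : ∀ θ, HasDerivAt (fun θ => fderiv ℝ u (P ρ θ) ((Complex.I * ee θ) • v))
        (ρ * fderiv ℝ (fderiv ℝ u) (P ρ θ) ((Complex.I * ee θ) • v) ((Complex.I * ee θ) • v)
          - fderiv ℝ u (P ρ θ) (ee θ • v)) θ := by
      intro θ
      have h1 := (hDd (P ρ θ)).hasFDerivAt.comp_hasDerivAt θ (hPθ ρ θ)
      have h2 := ((ee_deriv θ).const_mul Complex.I).smul_const v
      have h3 := h1.clm_apply h2
      have h4 : (Complex.I * (Complex.I * ee θ)) • v = -(ee θ • v) := by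
        rw [← mul_assoc, Complex.I_mul_I, neg_one_mul, neg_smul]
      rw [h4, map_neg, ContinuousLinearMap.map_smul (fderiv ℝ (fderiv ℝ u) (P ρ θ)) ρ] at h3
      exact h3
    rw [intervalIntegral.integral_eq_sub_of_hasDerivAt (fun θ _ => hd θ)]
    · simp only [P, ee_pi, sub_self]
    · apply Continuous.intervalIntegrable
      exact (continuous_const.mul ((hc2 Complex.I).comp (Continuous.prodMk_right ρ))).sub
        (hc1.comp (Continuous.prodMk_right ρ))
  have hn : ∀ ρ, HasDerivAt (fun ρ => ρ * m' ρ) (m' ρ + ρ * m'' ρ) ρ := by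
    intro ρ
    have := (hasDerivAt_id' ρ).mul (hm' ρ)
    rw [one_mul] at this
    exact this
  have hn' : ∀ ρ, 0 ≤ ρ → 0 ≤ m' ρ + ρ * m'' ρ := by
    intro ρ hρ
    have i1 : IntervalIntegrable (fun θ => fderiv ℝ u (P ρ θ) (ee θ • v)) volume
        (-Real.pi) Real.pi := (hc1.comp (Continuous.prodMk_right ρ)).intervalIntegrable _ _
    have i2 : IntervalIntegrable (fun θ => fderiv ℝ (fderiv ℝ u) (P ρ θ) (ee θ • v) (ee θ • v))
        volume (-Real.pi) Real.pi :=
      (hc2'.comp (Continuous.prodMk_right ρ)).intervalIntegrable _ _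
    have i3 : IntervalIntegrable (fun θ => fderiv ℝ (fderiv ℝ u) (P ρ θ)
        ((Complex.I * ee θ) • v) ((Complex.I * ee θ) • v)) volume (-Real.pi) Real.pi :=
      ((hc2 Complex.I).comp (Continuous.prodMk_right ρ)).intervalIntegrable _ _
    have h1 := hang ρ
    rw [intervalIntegral.integral_sub (i3.const_mul ρ) i1, intervalIntegral.integral_const_mul,
      sub_eq_zero] at h1
    have h2 : m' ρ + ρ * m'' ρ = ρ * ∫ θ in (-Real.pi)..Real.pi, lev u (P ρ θ) (ee θ • v) := by
      simp only [lev, smul_smul]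
      rw [intervalIntegral.integral_add i2 i3]
      simp only [m', m'']
      rw [← h1]
      ring
    rw [h2]
    refine mul_nonneg hρ (intervalIntegral.integral_nonneg (by linarith [Real.pi_pos]) ?_)
    intro θ _
    rw [lev_smul, ee_norm, one_mul]
    exact h _
  have hnmono : MonotoneOn (fun ρ => ρ * m' ρ) (Set.Ici 0) :=
    monotoneOn_of_deriv_nonneg (convex_Ici 0)
      (fun x _ => (hn x).continuousAt.continuousWithinAt)
      (fun x _ => (hn x).differentiableAt.differentiableWithinAt)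
      (fun x hx => by
        rw [(hn x).deriv]
        exact hn' x (interior_subset hx))
  have hmmono : MonotoneOn m (Set.Ici 0) :=
    monotoneOn_of_deriv_nonneg (convex_Ici 0)
      (fun x _ => (hm x).continuousAt.continuousWithinAt)
      (fun x _ => (hm x).differentiableAt.differentiableWithinAt)
      (fun x hx => by
        rw [(hm x).deriv]
        rw [interior_Ici] at hx
        have h1 := hnmono (Set.mem_Ici.2 le_rfl) (Set.mem_Ici.2 (le_of_lt hx)) (le_of_lt hx)
        simp only [zero_mul] at h1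
        exact (mul_nonneg_iff_of_pos_left hx).1 h1)
  simpa only [m, P, circleMap, zero_add, ee] using hmmono

/-- the torus mean in the basic chart -/
def tm0 (u : C2 → ℝ) (r s : ℝ) : ℝ :=
  ∫ θ in (-Real.pi)..Real.pi, ∫ φ in (-Real.pi)..Real.pi, u ![circleMap 0 r θ, circleMap 0 s φ]

theorem inv_circle (g : ℂ → ℝ) (a : Fin 2) (r : ℝ) :
    ∫ θ in (-Real.pi)..Real.pi, g (if 0 = a then circleMap 0 r θ else (circleMap 0 r θ)⁻¹) =
      ∫ θ in (-Real.pi)..Real.pi, g (circleMap 0 (if a = 0 then r else r⁻¹) θ) := by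
  by_cases ha : a = 0
  · subst ha; simp
  · simp only [if_neg ha, if_neg (Ne.symm ha), circleMap_zero_inv]
    rw [intervalIntegral.integral_comp_neg (fun θ => g (circleMap 0 r⁻¹ θ)), neg_neg]

theorem tm_eq (α : Chart) (u : C2 → ℝ) (r s : ℝ) :
    tm α u r s = tm0 u (if α.1 = 0 then r else r⁻¹) (if α.2 = 0 then s else s⁻¹) := by
  unfold tm tm0 tau
  simp only [Matrix.cons_val_zero, Matrix.cons_val_one]
  rw [← inv_circle (fun x => ∫ φ in (-Real.pi)..Real.pi,
    u ![x, circleMap 0 (if α.2 = 0 then s else s⁻¹) φ]) α.1 r]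
  refine intervalIntegral.integral_congr fun θ _ => ?_
  exact inv_circle (fun y => u ![if 0 = α.1 then circleMap 0 r θ else (circleMap 0 r θ)⁻¹, y])
    α.2 s

theorem cont_pt (r s : ℝ) :
    Continuous fun q : ℝ × ℝ => (![circleMap 0 r q.1, circleMap 0 s q.2] : C2) := by
  refine continuous_pi fun i => ?_
  fin_cases i
  · exact (continuous_circleMap 0 r).comp continuous_fst
  · exact (continuous_circleMap 0 s).comp continuous_snd

theorem cont_tau (α : Chart) {r s : ℝ} (hr : 0 < r) (hs : 0 < s) :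
    Continuous fun q : ℝ × ℝ => tau (0, 0) α ![circleMap 0 r q.1, circleMap 0 s q.2] := by
  refine continuous_pi fun i => ?_
  fin_cases i
  · simp only [tau, Fin.zero_eta, Matrix.cons_val_zero]
    split_ifs
    · exact (continuous_circleMap 0 r).comp continuous_fst
    · exact ((continuous_circleMap 0 r).comp continuous_fst).inv₀
        fun q => circleMap_ne_center hr.ne'
  · simp only [tau, Fin.mk_one, Matrix.cons_val_one, Matrix.cons_val_zero]
    split_ifs
    · exact (continuous_circleMap 0 s).comp continuous_snd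
    · exact ((continuous_circleMap 0 s).comp continuous_snd).inv₀
        fun q => circleMap_ne_center hs.ne'

theorem inner_cont {f : ℝ × ℝ → ℝ} (hf : Continuous f) (a b : ℝ) :
    Continuous fun θ => ∫ φ in a..b, f (θ, φ) :=
  intervalIntegral.continuous_parametric_intervalIntegral_of_continuous'
    (f := fun θ φ => f (θ, φ)) hf a b

theorem swap {f : ℝ × ℝ → ℝ} (hf : Continuous f) (a b : ℝ) :
    ∫ θ in a..b, ∫ φ in a..b, f (θ, φ) = ∫ φ in a..b, ∫ θ in a..b, f (θ, φ) := by
  refine intervalIntegral_intervalIntegral_swap (F := fun θ φ => f (θ, φ)) ?_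
  exact (hf.continuousOn.integrableOn_compact (isCompact_uIcc.prod isCompact_uIcc)).mono_set
    (Set.prod_mono Set.uIoc_subset_uIcc Set.uIoc_subset_uIcc)

theorem tm0_mono (u : C2 → ℝ) (hu : ContDiff ℝ 2 u)
    (h0 : ∀ p, 0 ≤ lev u p (Pi.single 0 1)) (h1 : ∀ p, 0 ≤ lev u p (Pi.single 1 1))
    {r r' s s' : ℝ} (hr : 0 ≤ r) (hs : 0 ≤ s) (hrr : r ≤ r') (hss : s ≤ s') :
    tm0 u r s ≤ tm0 u r' s' := by
  have hpi : -Real.pi ≤ Real.pi := by linarith [Real.pi_pos]
  have hc : ∀ r s, Continuous fun q : ℝ × ℝ => u ![circleMap 0 r q.1, circleMap 0 s q.2] :=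
    fun r s => hu.continuous.comp (cont_pt r s)
  have e1 : ∀ x y : ℂ, (![x, y] : C2) = ![x, 0] + y • Pi.single 1 1 := by
    intro x y; ext i; fin_cases i <;> simp
  have e0 : ∀ x y : ℂ, (![x, y] : C2) = ![0, y] + x • Pi.single 0 1 := by
    intro x y; ext i; fin_cases i <;> simp
  have step1 : tm0 u r s ≤ tm0 u r s' := by
    refine intervalIntegral.integral_mono_on hpi
      ((inner_cont (hc r s) _ _).intervalIntegrable _ _)
      ((inner_cont (hc r s') _ _).intervalIntegrable _ _) fun θ _ => ?_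
    have := core u hu ![circleMap 0 r θ, 0] (Pi.single 1 1) (fun z => h1 _)
      (Set.mem_Ici.2 hs) (Set.mem_Ici.2 (hs.trans hss)) hss
    simpa only [← e1] using this
  have step2 : tm0 u r s' ≤ tm0 u r' s' := by
    unfold tm0
    rw [swap (hc r s'), swap (hc r' s')]
    refine intervalIntegral.integral_mono_on hpi
      ((inner_cont ((hc r s').comp continuous_swap) _ _).intervalIntegrable _ _)
      ((inner_cont ((hc r' s').comp continuous_swap) _ _).intervalIntegrable _ _) fun φ _ => ?_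
    have := core u hu ![0, circleMap 0 s' φ] (Pi.single 0 1) (fun z => h0 _)
      (Set.mem_Ici.2 hr) (Set.mem_Ici.2 (hr.trans hrr)) hrr
    simpa only [← e0] using this
  exact step1.trans step2

end TorusMean

open TorusMean

theorem tm_mono (α : Chart) (u : C2 → ℝ) (hu : ContDiff ℝ 2 u)
    (h0 : ∀ p, 0 ≤ lev u p (Pi.single 0 1)) (h1 : ∀ p, 0 ≤ lev u p (Pi.single 1 1))
    {r r' s s' : ℝ} (hr : 0 < r) (hr' : 0 < r') (hs : 0 < s) (hs' : 0 < s')
    (hrr : if α.1 = 0 then r ≤ r' else r' ≤ r) (hss : if α.2 = 0 then s ≤ s' else s' ≤ s) :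
    tm α u r s ≤ tm α u r' s' := by
  rw [tm_eq, tm_eq]
  refine tm0_mono u hu h0 h1 ?_ ?_ ?_ ?_
  · split_ifs <;> positivity
  · split_ifs <;> positivity
  · split_ifs at hrr ⊢
    · exact hrr
    · exact inv_anti₀ hr' hrr
  · split_ifs at hss ⊢
    · exact hss
    · exact inv_anti₀ hs' hss

theorem tm_le_mul (α β : Chart) (u u' : C2 → ℝ) (hu : Continuous u) (hu' : Continuous u')
    {r s C : ℝ} (hr : 0 < r) (hs : 0 < s)
    (h : ∀ p : C2, ‖p 0‖ = r → ‖p 1‖ = s → u (tau (0, 0) α p) ≤ C * u' (tau (0, 0) β p)) :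
    tm α u r s ≤ C * tm β u' r s := by
  have hpi : -Real.pi ≤ Real.pi := by linarith [Real.pi_pos]
  have c1 := hu.comp (cont_tau α hr hs)
  have c2 := hu'.comp (cont_tau β hr hs)
  unfold tm
  rw [← intervalIntegral.integral_const_mul]
  refine intervalIntegral.integral_mono_on hpi ((inner_cont c1 _ _).intervalIntegrable _ _)
    (((inner_cont c2 _ _).intervalIntegrable _ _).const_mul C) fun θ _ => ?_
  rw [← intervalIntegral.integral_const_mul]
  refine intervalIntegral.integral_mono_on hpi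
    ((c1.comp (Continuous.prodMk_right θ)).intervalIntegrable _ _)
    (((c2.comp (Continuous.prodMk_right θ)).intervalIntegrable _ _).const_mul C) fun φ _ => ?_
  apply h
  · simp [abs_of_pos hr]
  · simp [abs_of_pos hs]

theorem tm_pos (α : Chart) (u : C2 → ℝ) (hu : Continuous u) (hpos : ∀ p, 0 < u p)
    {r s : ℝ} (hr : 0 < r) (hs : 0 < s) : 0 < tm α u r s := by
  have hpi : -Real.pi < Real.pi := by linarith [Real.pi_pos]
  have c1 := hu.comp (cont_tau α hr hs)
  refine intervalIntegral.intervalIntegral_pos_of_pos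
    ((inner_cont c1 _ _).intervalIntegrable _ _) (fun θ => ?_) hpi
  exact intervalIntegral.intervalIntegral_pos_of_pos
    ((c1.comp (Continuous.prodMk_right θ)).intervalIntegrable _ _) (fun φ => hpos _) hpi

end Crest.Agent.R258

end
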