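import Crest.Agent.R258.Defs
import Crest.Agent.R258.TorusMean
set_option autoImplicit false
noncomputable section
namespace Crest.Agent.R258
open Crest.AlgGeometry.QuadricBundle MeasureTheory
open scoped ComplexConjugate ComplexOrder ENNReal

namespace Polar

theorem cm_cont : Continuous fun q : ℝ × ℝ => circleMap 0 q.1 q.2 := by
  unfold circleMap; fun_prop

theorem polar1 (g : ℂ → ℝ≥0∞) (hg : Measurable g) :
    ∫⁻ z, g z = ∫⁻ r in Set.Ioi (0 : ℝ), ∫⁻ θ in Set.Ioo (-Real.pi) Real.pi,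
      ENNReal.ofReal r * g (circleMap 0 r θ) := by
  rw [← Complex.lintegral_comp_polarCoord_symm]
  have h1 : polarCoord.target = Set.Ioi (0 : ℝ) ×ˢ Set.Ioo (-Real.pi) Real.pi := rfl
  have h2 : ∀ p : ℝ × ℝ, Complex.polarCoord.symm p = circleMap 0 p.1 p.2 := by
    intro p
    rw [Complex.polarCoord_symm_apply, circleMap, zero_add, Complex.exp_mul_I]
    simp
  simp only [h2, smul_eq_mul]
  rw [h1, Measure.volume_eq_prod, ← Measure.prod_restrict, lintegral_prod]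
  exact (measurable_fst.ennreal_ofReal.mul (hg.comp cm_cont.measurable)).aemeasurable

theorem meas_tau (α : Chart) :
    Measurable fun q : ℂ × ℂ => tau (0, 0) α ![q.1, q.2] := by
  refine measurable_pi_lambda _ fun i => ?_
  fin_cases i
  · simp only [tau, Fin.zero_eta, Matrix.cons_val_zero]
    split_ifs
    · exact measurable_fst
    · exact measurable_fst.inv
  · simp only [tau, Fin.mk_one, Matrix.cons_val_one, Matrix.cons_val_zero]
    split_ifs
    · exact measurable_snd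
    · exact measurable_snd.inv

theorem ofReal_interval {f : ℝ → ℝ} (hf : Continuous f) (h0 : ∀ x, 0 ≤ f x) :
    ENNReal.ofReal (∫ θ in (-Real.pi)..Real.pi, f θ) =
      ∫⁻ θ in Set.Ioo (-Real.pi) Real.pi, ENNReal.ofReal (f θ) := by
  have hpi : -Real.pi ≤ Real.pi := by linarith [Real.pi_pos]
  rw [intervalIntegral.integral_of_le hpi, integral_Ioc_eq_integral_Ioo,
    ofReal_integral_eq_lintegral_ofReal _ (Filter.Eventually.of_forall h0)]
  exact (hf.integrableOn_Icc (a := -Real.pi) (b := Real.pi)).mono_set Set.Ioo_subset_Icc_self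

theorem ofReal_tm (α : Chart) (u : C2 → ℝ) (hu : Continuous u) (hu0 : ∀ p, 0 ≤ u p)
    {r s : ℝ} (hr : 0 < r) (hs : 0 < s) :
    ENNReal.ofReal (tm α u r s) =
      ∫⁻ θ in Set.Ioo (-Real.pi) Real.pi, ∫⁻ φ in Set.Ioo (-Real.pi) Real.pi,
        ENNReal.ofReal (u (tau (0, 0) α ![circleMap 0 r θ, circleMap 0 s φ])) := by
  have hpi : -Real.pi ≤ Real.pi := by linarith [Real.pi_pos]
  have c1 := hu.comp (TorusMean.cont_tau α hr hs)
  unfold tm
  refine (ofReal_interval (TorusMean.inner_cont c1 _ _)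
    (fun θ => intervalIntegral.integral_nonneg hpi fun φ _ => hu0 _)).trans ?_
  refine lintegral_congr fun θ => ?_
  exact ofReal_interval (c1.comp (Continuous.prodMk_right θ)) fun φ => hu0 _

theorem ofReal_ite {p : ℝ → Prop} [DecidablePred p] (f : ℝ → ℝ) (r : ℝ) (hr : 0 < r) :
    ENNReal.ofReal r * ENNReal.ofReal (if p r then f r else 0) =
      Set.indicator {r | p r} (fun r => ENNReal.ofReal (r * f r)) r := by
  by_cases h : p r
  · rw [if_pos h, Set.indicator_of_mem (by exact h), ENNReal.ofReal_mul hr.le]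
  · rw [if_neg h, Set.indicator_of_notMem (by exact h)]
    simp

theorem radial {p : ℝ → Prop} [DecidablePred p] (hp : MeasurableSet {r | p r}) (f : ℝ → ℝ) :
    ∫⁻ r in Set.Ioi (0 : ℝ), ENNReal.ofReal r * ENNReal.ofReal (if p r then f r else 0) =
      ∫⁻ r in {r | p r} ∩ Set.Ioi 0, ENNReal.ofReal (r * f r) := by
  rw [setLIntegral_congr_fun measurableSet_Ioi (fun r hr => ofReal_ite f r hr),
    lintegral_indicator hp, Measure.restrict_restrict hp]

theorem two_polar (U : ℂ × ℂ → ℝ≥0∞) (hU : Measurable U)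
    (a b : ℝ → ℝ≥0∞) (ha : Measurable a) (hb : Measurable b) :
    ∫⁻ q : ℂ × ℂ, a ‖q.1‖ * b ‖q.2‖ * U q =
      ∫⁻ r in Set.Ioi (0 : ℝ), ∫⁻ s in Set.Ioi (0 : ℝ),
        ENNReal.ofReal r * a r * (ENNReal.ofReal s * b s) *
          ∫⁻ θ in Set.Ioo (-Real.pi) Real.pi, ∫⁻ φ in Set.Ioo (-Real.pi) Real.pi,
            U (circleMap 0 r θ, circleMap 0 s φ) := by
  have hG : Measurable fun q : ℂ × ℂ => a ‖q.1‖ * b ‖q.2‖ * U q :=
    ((ha.comp measurable_fst.norm).mul (hb.comp measurable_snd.norm)).mul hU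
  rw [Measure.volume_eq_prod, lintegral_prod _ hG.aemeasurable,
    polar1 _ hG.lintegral_prod_right']
  refine setLIntegral_congr_fun measurableSet_Ioi fun r hr => ?_
  have hr' : (0 : ℝ) < r := hr
  have hcm : ∀ t : ℝ, Measurable (circleMap 0 t) := fun t => (continuous_circleMap 0 t).measurable
  have hW0 : Measurable fun q : (ℝ × ℝ) × ℝ =>
      ((circleMap 0 r q.1.1, circleMap 0 q.1.2 q.2) : ℂ × ℂ) := by
    apply Continuous.measurable
    unfold circleMap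
    fun_prop
  have hW : Measurable fun q : (ℝ × ℝ) × ℝ => U (circleMap 0 r q.1.1, circleMap 0 q.1.2 q.2) :=
    hU.comp hW0
  have hV : Measurable fun q : ℝ × ℝ => ∫⁻ φ in Set.Ioo (-Real.pi) Real.pi,
      U (circleMap 0 r q.1, circleMap 0 q.2 φ) := hW.lintegral_prod_right'
  have hc : Measurable fun s : ℝ => ENNReal.ofReal r * a r * (ENNReal.ofReal s * b s) :=
    (measurable_id.ennreal_ofReal.mul hb).const_mul _
  have h2 : ∀ θ : ℝ, ENNReal.ofReal r *
      ∫⁻ y, a ‖circleMap 0 r θ‖ * b ‖y‖ * U (circleMap 0 r θ, y) =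
      ∫⁻ s in Set.Ioi (0 : ℝ), ENNReal.ofReal r * a r * (ENNReal.ofReal s * b s) *
        ∫⁻ φ in Set.Ioo (-Real.pi) Real.pi, U (circleMap 0 r θ, circleMap 0 s φ) := by
    intro θ
    have m1 : Measurable fun y : ℂ => U (circleMap 0 r θ, y) := hU.comp measurable_prodMk_left
    have m2 : Measurable fun y : ℂ => a ‖circleMap 0 r θ‖ * b ‖y‖ * U (circleMap 0 r θ, y) :=
      ((hb.comp measurable_norm).const_mul _).mul m1
    rw [polar1 _ m2, ← lintegral_const_mul' _ _ ENNReal.ofReal_ne_top]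
    refine setLIntegral_congr_fun measurableSet_Ioi fun s hs => ?_
    have hs' : (0 : ℝ) < s := hs
    have m3 : Measurable fun φ : ℝ => U (circleMap 0 r θ, circleMap 0 s φ) := m1.comp (hcm s)
    rw [← lintegral_const_mul' _ _ ENNReal.ofReal_ne_top, ← lintegral_const_mul _ m3]
    refine lintegral_congr fun φ => ?_
    simp only [norm_circleMap_zero, abs_of_pos hr', abs_of_pos hs']
    ring
  simp only [h2]
  rw [lintegral_lintegral_swap ((hc.comp measurable_snd).mul hV).aemeasurable]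
  refine setLIntegral_congr_fun measurableSet_Ioi fun s _ => ?_
  have m4 : Measurable fun q : ℝ × ℝ => U (circleMap 0 r q.1, circleMap 0 s q.2) :=
    hU.comp (((hcm r).comp measurable_fst).prodMk ((hcm s).comp measurable_snd))
  have m5 : Measurable fun θ : ℝ => ∫⁻ φ in Set.Ioo (-Real.pi) Real.pi,
      U (circleMap 0 r θ, circleMap 0 s φ) := m4.lintegral_prod_right'
  rw [lintegral_const_mul _ m5]

end Polar

open Polar

theorem lintegral_polar (α : Chart) (u : C2 → ℝ) (hu : Continuous u) (hu0 : ∀ p, 0 ≤ u p)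
    (a b : ℝ → ℝ≥0∞) (ha : Measurable a) (hb : Measurable b) :
    ∫⁻ p : C2, a ‖p 0‖ * b ‖p 1‖ * ENNReal.ofReal (u (tau (0, 0) α p)) =
      ∫⁻ r in Set.Ioi (0 : ℝ), ∫⁻ s in Set.Ioi (0 : ℝ),
        ENNReal.ofReal r * a r * (ENNReal.ofReal s * b s) * ENNReal.ofReal (tm α u r s) := by
  have hU : Measurable fun q : ℂ × ℂ => ENNReal.ofReal (u (tau (0, 0) α ![q.1, q.2])) :=
    (hu.measurable.comp (meas_tau α)).ennreal_ofReal
  have hG : Measurable fun q : ℂ × ℂ =>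
      a ‖q.1‖ * b ‖q.2‖ * ENNReal.ofReal (u (tau (0, 0) α ![q.1, q.2])) :=
    ((ha.comp measurable_fst.norm).mul (hb.comp measurable_snd.norm)).mul hU
  have h1 : ∫⁻ p : C2, a ‖p 0‖ * b ‖p 1‖ * ENNReal.ofReal (u (tau (0, 0) α p)) =
      ∫⁻ q : ℂ × ℂ, a ‖q.1‖ * b ‖q.2‖ * ENNReal.ofReal (u (tau (0, 0) α ![q.1, q.2])) := by
    rw [← (volume_preserving_finTwoArrow ℂ).lintegral_comp hG]
    refine lintegral_congr fun p => ?_
    have : (![p 0, p 1] : C2) = p := by ext i; fin_cases i <;> rfl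
    simp only [MeasurableEquiv.finTwoArrow_apply, this]
  rw [h1, two_polar _ hU a b ha hb]
  refine setLIntegral_congr_fun measurableSet_Ioi fun r hr => ?_
  refine setLIntegral_congr_fun measurableSet_Ioi fun s hs => ?_
  rw [ofReal_tm α u hu hu0 hr hs]

theorem Polar.prod_eq (a b : ℝ → ℝ≥0∞) (ha : Measurable a) (hb : Measurable b) (K : ℝ) :
    ENNReal.ofReal K * (∫⁻ r in Set.Ioi (0 : ℝ), ENNReal.ofReal r * a r) *
        (∫⁻ s in Set.Ioi (0 : ℝ), ENNReal.ofReal s * b s) =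
      ∫⁻ r in Set.Ioi (0 : ℝ), ∫⁻ s in Set.Ioi (0 : ℝ),
        ENNReal.ofReal r * a r * (ENNReal.ofReal s * b s) * ENNReal.ofReal K := by
  have ha' : Measurable fun r : ℝ => ENNReal.ofReal r * a r :=
    measurable_id.ennreal_ofReal.mul ha
  have hb' : Measurable fun r : ℝ => ENNReal.ofReal r * b r :=
    measurable_id.ennreal_ofReal.mul hb
  simp only [fun r : ℝ => lintegral_mul_const (μ := volume.restrict (Set.Ioi (0 : ℝ)))
    (ENNReal.ofReal K) (hb'.const_mul (ENNReal.ofReal r * a r)),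
    fun r : ℝ => lintegral_const_mul (μ := volume.restrict (Set.Ioi (0 : ℝ)))
    (ENNReal.ofReal r * a r) hb']
  rw [lintegral_mul_const _ (ha'.mul_const _), lintegral_mul_const _ ha']
  ring

theorem lintegral_polar_le (α : Chart) (u : C2 → ℝ) (hu : Continuous u) (hu0 : ∀ p, 0 ≤ u p)
    (a b : ℝ → ℝ≥0∞) (ha : Measurable a) (hb : Measurable b) (K : ℝ)
    (hK : ∀ r s, 0 < r → 0 < s → a r ≠ 0 → b s ≠ 0 → tm α u r s ≤ K) :
    ∫⁻ p : C2, a ‖p 0‖ * b ‖p 1‖ * ENNReal.ofReal (u (tau (0, 0) α p)) ≤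
      ENNReal.ofReal K * (∫⁻ r in Set.Ioi (0 : ℝ), ENNReal.ofReal r * a r) *
        ∫⁻ s in Set.Ioi (0 : ℝ), ENNReal.ofReal s * b s := by
  rw [lintegral_polar α u hu hu0 a b ha hb, Polar.prod_eq a b ha hb]
  refine setLIntegral_mono' measurableSet_Ioi fun r hr => ?_
  refine setLIntegral_mono' measurableSet_Ioi fun s hs => ?_
  by_cases h1 : a r = 0
  · simp [h1]
  by_cases h2 : b s = 0
  · simp [h2]
  gcongr
  exact hK r s hr hs h1 h2

theorem le_lintegral_polar (α : Chart) (u : C2 → ℝ) (hu : Continuous u) (hu0 : ∀ p, 0 ≤ u p)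
    (a b : ℝ → ℝ≥0∞) (ha : Measurable a) (hb : Measurable b) (K : ℝ)
    (hK : ∀ r s, 0 < r → 0 < s → a r ≠ 0 → b s ≠ 0 → K ≤ tm α u r s) :
    ENNReal.ofReal K * (∫⁻ r in Set.Ioi (0 : ℝ), ENNReal.ofReal r * a r) *
        (∫⁻ s in Set.Ioi (0 : ℝ), ENNReal.ofReal s * b s) ≤
      ∫⁻ p : C2, a ‖p 0‖ * b ‖p 1‖ * ENNReal.ofReal (u (tau (0, 0) α p)) := by
  rw [lintegral_polar α u hu hu0 a b ha hb, Polar.prod_eq a b ha hb]
  refine setLIntegral_mono' measurableSet_Ioi fun r hr => ?_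
  refine setLIntegral_mono' measurableSet_Ioi fun s hs => ?_
  by_cases h1 : a r = 0
  · simp [h1]
  by_cases h2 : b s = 0
  · simp [h2]
  gcongr
  exact hK r s hr hs h1 h2

theorem radial_inner (n : ℕ) (hn : 1 ≤ n) (ρ : ℝ) (hρ : 0 < ρ) :
    ∫⁻ r in Set.Ioi (0 : ℝ), ENNReal.ofReal r * ENNReal.ofReal (if r ≤ ρ then (n : ℝ) ^ 2 * r ^ (2 * n - 2) else 0) ≤ ENNReal.ofReal (n * ρ ^ (2 * n)) := by
  rw [radial (p := fun r => r ≤ ρ) measurableSet_Iic]
  have hset : {r : ℝ | r ≤ ρ} ∩ Set.Ioi 0 = Set.Ioc 0 ρ := by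
    ext r; simp [and_comm]
  obtain ⟨m, rfl⟩ : ∃ m, n = m + 1 := ⟨n - 1, by omega⟩
  have h1 : 2 * (m + 1) - 2 = 2 * m := by omega
  have hc : Continuous fun r : ℝ => r * (((m + 1 : ℕ) : ℝ) ^ 2 * r ^ (2 * m)) := by fun_prop
  rw [hset, h1, ← ofReal_integral_eq_lintegral_ofReal
    ((hc.integrableOn_Icc (a := 0) (b := ρ)).mono_set Set.Ioc_subset_Icc_self)
    ((ae_restrict_iff' measurableSet_Ioc).2 (Filter.Eventually.of_forall fun r hr => by
      have := hr.1.le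
      positivity)), ← intervalIntegral.integral_of_le hρ.le]
  refine ENNReal.ofReal_le_ofReal ?_
  have h2 : ∀ r : ℝ, r * (((m + 1 : ℕ) : ℝ) ^ 2 * r ^ (2 * m)) =
      ((m + 1 : ℕ) : ℝ) ^ 2 * r ^ (2 * m + 1) := fun r => by ring
  simp only [h2]
  rw [intervalIntegral.integral_const_mul, integral_pow]
  have h3 : 2 * m + 1 + 1 = 2 * (m + 1) := by ring
  rw [h3, zero_pow (by omega), sub_zero]
  push_cast
  have h4 : 0 < ρ ^ (2 * (m + 1)) := by positivity
  have h5 : (0 : ℝ) < 2 * m + 1 + 1 := by positivity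
  rw [← mul_div_assoc, div_le_iff₀ h5]
  have h6 : (0 : ℝ) ≤ m := Nat.cast_nonneg m
  nlinarith [mul_nonneg (mul_nonneg h6 h6) h4.le, mul_nonneg h6 h4.le]

theorem radial_outer (n : ℕ) (hn : 1 ≤ n) (ρ : ℝ) (hρ : 0 < ρ) :
    ∫⁻ r in Set.Ioi (0 : ℝ), ENNReal.ofReal r * ENNReal.ofReal (if ρ < r then (n : ℝ) ^ 2 * r⁻¹ ^ (2 * n + 2) else 0) ≤ ENNReal.ofReal (n * ρ⁻¹ ^ (2 * n)) := by
  rw [radial (p := fun r => ρ < r) measurableSet_Ioi]
  have hset : {r : ℝ | ρ < r} ∩ Set.Ioi 0 = Set.Ioi ρ := by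
    ext r
    simp only [Set.mem_inter_iff, Set.mem_ofPred_eq, Set.mem_Ioi]
    exact ⟨fun h => h.1, fun h => ⟨h, hρ.trans h⟩⟩
  have hn' : (1 : ℝ) ≤ n := by exact_mod_cast hn
  have hlt : -(2 * (n : ℝ) + 1) < -1 := by linarith
  have h2 : ∀ r ∈ Set.Ioi ρ, ENNReal.ofReal (r * ((n : ℝ) ^ 2 * r⁻¹ ^ (2 * n + 2))) =
      ENNReal.ofReal ((n : ℝ) ^ 2 * r ^ (-(2 * (n : ℝ) + 1))) := by
    intro r hr
    have hr0 : 0 < r := hρ.trans hr
    congr 1
    have : (2 * (n : ℝ) + 1) = ((2 * n + 1 : ℕ) : ℝ) := by push_cast; ring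
    rw [Real.rpow_neg hr0.le, this, Real.rpow_natCast, inv_pow]
    field_simp
    ring
  rw [hset, setLIntegral_congr_fun measurableSet_Ioi h2, ← ofReal_integral_eq_lintegral_ofReal
    ((integrableOn_Ioi_rpow_of_lt hlt hρ).const_mul _)
    ((ae_restrict_iff' measurableSet_Ioi).2 (Filter.Eventually.of_forall fun r hr => by
      have := (hρ.trans hr).le
      positivity)), integral_const_mul, integral_Ioi_rpow_of_lt hlt hρ]
  refine ENNReal.ofReal_le_ofReal ?_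
  have h3 : -(2 * (n : ℝ) + 1) + 1 = -((2 * n : ℕ) : ℝ) := by push_cast; ring
  rw [h3, Real.rpow_neg hρ.le, Real.rpow_natCast, ← inv_pow, neg_div_neg_eq]
  push_cast
  have h4 : 0 < ρ⁻¹ ^ (2 * n) := by positivity
  have h5 : (0 : ℝ) < 2 * n := by positivity
  rw [← mul_div_assoc, div_le_iff₀ h5]
  nlinarith [mul_nonneg (mul_nonneg (zero_le_one.trans hn') (zero_le_one.trans hn')) h4.le]

theorem radial_ann :
    ∫⁻ r in Set.Ioi (0 : ℝ), ENNReal.ofReal r * ENNReal.ofReal (if 2 ≤ r ∧ r ≤ 3 then 1 else 0) ≤ ENNReal.ofReal 3 := by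
  rw [radial (p := fun r => 2 ≤ r ∧ r ≤ 3) measurableSet_Icc (fun _ => 1)]
  calc _ ≤ ∫⁻ r in Set.Icc (2 : ℝ) 3, ENNReal.ofReal (r * 1) :=
        lintegral_mono_set Set.inter_subset_left
    _ ≤ ∫⁻ _ in Set.Icc (2 : ℝ) 3, ENNReal.ofReal 3 :=
        setLIntegral_mono' measurableSet_Icc fun r hr =>
          ENNReal.ofReal_le_ofReal (by linarith [hr.2])
    _ = _ := by
        rw [setLIntegral_const, Real.volume_Icc]
        norm_num

theorem radial_good (n : ℕ) (hn : 1 ≤ n) (ρ δ : ℝ) (hρ : 0 < ρ) (hδ : 0 < δ) :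
    ENNReal.ofReal ((n : ℝ) ^ 2 * ρ ^ (2 * n) * δ) ≤ ∫⁻ r in Set.Ioi (0 : ℝ), ENNReal.ofReal r * ENNReal.ofReal (if ρ ≤ r ∧ r ≤ ρ * (1 + δ) then (n : ℝ) ^ 2 * r ^ (2 * n - 2) else 0) := by
  rw [radial (p := fun r => ρ ≤ r ∧ r ≤ ρ * (1 + δ)) measurableSet_Icc]
  obtain ⟨m, rfl⟩ : ∃ m, n = m + 1 := ⟨n - 1, by omega⟩
  have h1 : 2 * (m + 1) - 2 = 2 * m := by omega
  rw [h1]
  calc _ = ∫⁻ _ in Set.Icc ρ (ρ * (1 + δ)),
          ENNReal.ofReal (ρ * (((m + 1 : ℕ) : ℝ) ^ 2 * ρ ^ (2 * m))) := by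
        rw [setLIntegral_const, Real.volume_Icc, ← ENNReal.ofReal_mul (by positivity)]
        congr 1
        ring
    _ ≤ ∫⁻ r in Set.Icc ρ (ρ * (1 + δ)),
          ENNReal.ofReal (r * (((m + 1 : ℕ) : ℝ) ^ 2 * r ^ (2 * m))) :=
        setLIntegral_mono' measurableSet_Icc fun r hr => ENNReal.ofReal_le_ofReal (by
          have h2 := hr.1
          have h3 : 0 ≤ r := hρ.le.trans h2
          gcongr)
    _ ≤ _ := lintegral_mono_set fun r hr => Set.mem_inter hr (hρ.trans_le hr.1)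

end Crest.Agent.R258

end
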