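import Crest.Agent.R258.Core2
import Crest.Agent.R258.Polar

/-!
The upper bound for the cut-off term.
-/

set_option autoImplicit false

noncomputable section

namespace Crest.Agent.R258

open Crest.AlgGeometry.QuadricBundle MeasureTheory Matrix
open scoped ComplexConjugate ComplexOrder ENNReal

/-- the cut-off function on the total space -/
def kk (χ : ℂ → ℝ) (ω : ℝ → ℝ) (M : ℕ) (P : S) : ℝ :=
  χ (P.1 0) * χ (P.1 1) * ω (nsq (QM M P))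

theorem contDiff_QM_real (M : ℕ) : ContDiff ℝ 1 (QM M) :=
  ((contDiff_QM M).of_le one_le_inf).restrict_scalars ℝ

theorem contDiff_kk {χ : ℂ → ℝ} {ω : ℝ → ℝ} (hχ : ContDiff ℝ 1 χ) (hω : ContDiff ℝ 1 ω) (M : ℕ) :
    ContDiff ℝ 1 (kk χ ω M) :=
  ((hχ.comp (by fun_prop)).mul (hχ.comp (by fun_prop))).mul
    (hω.comp (contDiff_nsq.comp (contDiff_QM_real M)))

theorem fderiv_kk {χ : ℂ → ℝ} {ω : ℝ → ℝ} (hχ : ContDiff ℝ 1 χ) (hω : ContDiff ℝ 1 ω) (M : ℕ)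
    (P ζ : S) (hζ : fderiv ℂ (QM M) P ζ = 0) :
    fderiv ℝ (kk χ ω M) P ζ = (fderiv ℝ χ (P.1 0) (ζ.1 0) * χ (P.1 1)
      + χ (P.1 0) * fderiv ℝ χ (P.1 1) (ζ.1 1)) * ω (nsq (QM M P)) := by
  have hc : ∀ i : Fin 2, HasFDerivAt (fun P : S => P.1 i)
      ((ContinuousLinearMap.proj i).comp (ContinuousLinearMap.fst ℝ C2 C2)) P := fun i =>
    ((ContinuousLinearMap.proj (R := ℝ) (φ := fun _ : Fin 2 => ℂ) i).comp
      (ContinuousLinearMap.fst ℝ C2 C2)).hasFDerivAt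
  have h0 := (hχ.differentiable (by norm_num) (P.1 0)).hasFDerivAt.comp P (hc 0)
  have h1 := (hχ.differentiable (by norm_num) (P.1 1)).hasFDerivAt.comp P (hc 1)
  have hQ : HasFDerivAt (QM M) ((fderiv ℂ (QM M) P).restrictScalars ℝ) P :=
    ((contDiff_QM M).differentiable (by simp) P).hasFDerivAt.restrictScalars ℝ
  have h2 := ((hω.comp contDiff_nsq).differentiable (by norm_num) (QM M P)).hasFDerivAt.comp P hQ
  have h3 := (h0.mul h1).mul h2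
  have : fderiv ℝ (kk χ ω M) P = _ := h3.fderiv
  rw [this]
  simp [hζ]
  ring

def le3 (r : ℝ) : ℝ := if r ≤ 3 then 1 else 0

theorem annI_nonneg (r : ℝ) : 0 ≤ annI r := by unfold annI; split_ifs <;> norm_num
theorem le3_nonneg (r : ℝ) : 0 ≤ le3 r := by unfold le3; split_ifs <;> norm_num
theorem annI_sq (r : ℝ) : annI r ^ 2 = annI r := by unfold annI; split_ifs <;> norm_num
theorem le3_sq (r : ℝ) : le3 r ^ 2 = le3 r := by unfold le3; split_ifs <;> norm_num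

theorem sq_fderiv_kk_le {χ : ℂ → ℝ} {ω : ℝ → ℝ} {K w3 : ℝ} (hχ : ContDiff ℝ 1 χ)
    (hω : ContDiff ℝ 1 ω) (hχ1 : ∀ x, |χ x| ≤ 1) (hχ3 : ∀ x, χ x ≠ 0 → ‖x‖ ≤ 3)
    (hχK : ∀ x η, |fderiv ℝ χ x η| ≤ K * annI ‖x‖ * ‖η‖) (hω1 : ∀ t, |ω t| ≤ 1)
    (hω3 : ∀ t, ω t ≠ 0 → t ≤ w3) (M : ℕ) (P ζ : S) (hζ : fderiv ℂ (QM M) P ζ = 0) :
    (fderiv ℝ (kk χ ω M) P ζ) ^ 2 ≤ 2 * K ^ 2 * (if nsq (QM M P) ≤ w3 then 1 else 0) *
      (annI ‖P.1 0‖ * le3 ‖P.1 1‖ * ‖ζ.1 0‖ ^ 2 + le3 ‖P.1 0‖ * annI ‖P.1 1‖ * ‖ζ.1 1‖ ^ 2) := by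
  rw [fderiv_kk hχ hω M P ζ hζ]
  have hl : ∀ x, χ x ^ 2 ≤ le3 ‖x‖ := fun x => by
    unfold le3
    split_ifs with hx
    · exact (sq_le_one_iff_abs_le_one _).2 (hχ1 x)
    · have : χ x = 0 := by
        by_contra hne
        exact hx (hχ3 x hne)
      simp [this]
  have hw : ω (nsq (QM M P)) ^ 2 ≤ (if nsq (QM M P) ≤ w3 then 1 else 0) := by
    split_ifs with hx
    · exact (sq_le_one_iff_abs_le_one _).2 (hω1 _)
    · have : ω (nsq (QM M P)) = 0 := by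
        by_contra hne
        exact hx (hω3 _ hne)
      simp [this]
  have hd : ∀ x η, (fderiv ℝ χ x η) ^ 2 ≤ K ^ 2 * annI ‖x‖ * ‖η‖ ^ 2 := fun x η => by
    have := pow_le_pow_left₀ (abs_nonneg _) (hχK x η) 2
    rwa [sq_abs, mul_pow, mul_pow, annI_sq] at this
  have a0 := annI_nonneg ‖P.1 0‖
  have a1 := annI_nonneg ‖P.1 1‖
  have l0 := le3_nonneg ‖P.1 0‖
  have l1 := le3_nonneg ‖P.1 1‖
  set A := fderiv ℝ χ (P.1 0) (ζ.1 0) * χ (P.1 1)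
  set B := χ (P.1 0) * fderiv ℝ χ (P.1 1) (ζ.1 1)
  have hA : A ^ 2 ≤ K ^ 2 * annI ‖P.1 0‖ * ‖ζ.1 0‖ ^ 2 * le3 ‖P.1 1‖ := by
    rw [mul_pow]
    exact mul_le_mul (hd _ _) (hl _) (sq_nonneg _) (by positivity)
  have hB : B ^ 2 ≤ le3 ‖P.1 0‖ * (K ^ 2 * annI ‖P.1 1‖ * ‖ζ.1 1‖ ^ 2) := by
    rw [mul_pow]
    exact mul_le_mul (hl _) (hd _ _) (sq_nonneg _) (by positivity)
  have hAB : (A + B) ^ 2 ≤ 2 * K ^ 2 *
      (annI ‖P.1 0‖ * le3 ‖P.1 1‖ * ‖ζ.1 0‖ ^ 2 + le3 ‖P.1 0‖ * annI ‖P.1 1‖ * ‖ζ.1 1‖ ^ 2) := by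
    nlinarith [sq_nonneg (A - B)]
  rw [mul_pow]
  calc _ ≤ (2 * K ^ 2 *
      (annI ‖P.1 0‖ * le3 ‖P.1 1‖ * ‖ζ.1 0‖ ^ 2 + le3 ‖P.1 0‖ * annI ‖P.1 1‖ * ‖ζ.1 1‖ ^ 2))
        * (if nsq (QM M P) ≤ w3 then 1 else 0) :=
        mul_le_mul hAB hw (sq_nonneg _) (by positivity)
    _ = _ := by ring

/-- radial weight: squared modulus of the derivative of `x ↦ (x ^ {± 1}) ^ n` on its chart -/
def wt (n : ℕ) (ρ : ℝ) (a : Fin 2) (r : ℝ) : ℝ :=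
  if a = 0 then (if r ≤ ρ then (n : ℝ) ^ 2 * r ^ (2 * n - 2) else 0)
  else (if ρ < r then (n : ℝ) ^ 2 * r⁻¹ ^ (2 * n + 2) else 0)

theorem measurable_wt (n : ℕ) (ρ : ℝ) (a : Fin 2) : Measurable (wt n ρ a) := by
  unfold wt
  split_ifs
  · exact Measurable.ite measurableSet_Iic (by fun_prop) measurable_const
  · exact Measurable.ite measurableSet_Ioi (by fun_prop) measurable_const

theorem measurable_annI : Measurable annI :=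
  Measurable.ite measurableSet_Icc measurable_const measurable_const

/-- the chart index adapted to the radius -/
def side (ρ r : ℝ) : Fin 2 := if r ≤ ρ then 0 else 1

theorem norm_dd_sq (n : ℕ) (ρ : ℝ) (x : ℂ) :
    ‖dd n (side ρ ‖x‖) x‖ ^ 2 = wt n ρ (side ρ ‖x‖) ‖x‖ := by
  unfold dd wt side
  by_cases hx : ‖x‖ ≤ ρ
  · simp only [hx, if_true, norm_mul, norm_pow, Complex.norm_natCast, mul_pow, ← pow_mul]
    congr 2
    omega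
  · have : ρ < ‖x‖ := not_le.1 hx
    simp only [hx, this, if_true, if_false, Fin.zero_eq_one_iff, one_ne_zero, norm_neg, norm_mul,
      norm_pow, Complex.norm_natCast, mul_pow, ← pow_mul, norm_inv, OfNat.ofNat_ne_one]
    congr 2
    ring

theorem norm_phi_le (n : ℕ) (ρ R0 : ℝ) (hρ : 0 < ρ) (hR : ρ ^ n = R0) (hR1 : R0 ≤ 1) (a : Fin 2)
    (x : ℂ) (hx : if a = 0 then ‖x‖ ≤ ρ else ρ ≤ ‖x‖) : ‖phi n a x‖ ≤ R0⁻¹ := by
  have hR0 : 0 < R0 := hR ▸ pow_pos hρ n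
  unfold phi
  by_cases ha : a = 0
  · simp only [ha, if_true] at hx ⊢
    rw [norm_pow]
    calc ‖x‖ ^ n ≤ ρ ^ n := by gcongr
      _ ≤ 1 := hR ▸ hR1
      _ ≤ R0⁻¹ := (one_le_inv₀ hR0).2 hR1
  · have ha' : ¬ (0 : Fin 2) = a := fun h => ha h.symm
    simp only [ha, ha', if_false] at hx ⊢
    rw [norm_pow, norm_inv, ← hR, ← inv_pow]
    gcongr

theorem side_spec (ρ r : ℝ) : if side ρ r = 0 then r ≤ ρ else ρ ≤ r := by
  unfold side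
  by_cases h : r ≤ ρ
  · simp [h]
  · simp [h, (not_le.1 h).le]

theorem norm_up_tau_le (M : ℕ) (rx ry R0 : ℝ) (hrx : 0 < rx) (hry : 0 < ry) (hx : rx ^ M = R0)
    (hy : ry ^ (2 * M) = R0) (hR1 : R0 ≤ 1) (α : Chart) (p : C2)
    (h0 : if α.1 = 0 then ‖p 0‖ ≤ rx else rx ≤ ‖p 0‖)
    (h1 : if α.2 = 0 then ‖p 1‖ ≤ ry else ry ≤ ‖p 1‖) :
    ‖up M (tau (0, 0) α p)‖ ≤ R0⁻¹ := by
  have hR0 : 0 < R0 := hx ▸ pow_pos hrx M
  rw [up_tau_phi]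
  refine (pi_norm_le_iff_of_nonneg (by positivity)).2 fun i => ?_
  fin_cases i
  · exact norm_phi_le M rx R0 hrx hx hR1 _ _ h0
  · exact norm_phi_le _ ry R0 hry hy hR1 _ _ h1

theorem le_one_of_pow {r R0 : ℝ} {n : ℕ} (hn : 1 ≤ n) (hr : 0 < r) (h : r ^ n = R0) (hR : R0 ≤ 1) :
    r ≤ 1 := by
  rw [← h] at hR
  exact (pow_le_one_iff_of_nonneg hr.le (by omega)).1 hR

section upper

variable {M : ℕ} {h : MetricData 2} (hn : IsNeg h) (hc : Compat M h) (hM : 1 ≤ M)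
  {rx ry R0 ρ1 w3 CV : ℝ} (hrx : 0 < rx) (hry : 0 < ry) (hx : rx ^ M = R0)
  (hy : ry ^ (2 * M) = R0) (hR1 : R0 ≤ 1)
  (hρ1 : ∀ (α : Chart) (P v : C2), ‖P‖ ≤ R0⁻¹ → nsq (qq α (P, v)) ≤ w3 → ‖v‖ ≤ ρ1)
  (hCV : ∀ (α : Chart) (P v : C2), ‖P‖ ≤ R0⁻¹ → ‖v‖ ≤ ρ1 → ‖jac (qq α) (P, v)‖ ≤ CV)

include hn hc hM hrx hry hx hy hR1 hρ1 hCV

theorem fibre_x {p : C2} (hp : tor p) :
    ∫⁻ v, ENNReal.ofReal (annI ‖p 0‖ * le3 ‖p 1‖ * ((if nsq (QM M (p, v)) ≤ w3 then 1 else 0) *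
        ‖(jac (QM M) (p, v)).1 0‖ ^ 2 * sqn h (0, 0) (p, v))) ≤
      ENNReal.ofReal (162 * CV ^ 2 * ρ1 ^ 2 * (volume (Metric.closedBall (0 : C2) ρ1)).toReal) *
        ∑ b : Fin 2, ENNReal.ofReal (annI ‖p 0‖) * ENNReal.ofReal (wt (2 * M) ry b ‖p 1‖) *
          ENNReal.ofReal (uu h (1, b) (tau (0, 0) (1, b) p)) := by
  by_cases hA : 2 ≤ ‖p 0‖ ∧ ‖p 0‖ ≤ 3
  swap
  · simp [annI, hA]
  by_cases hI : ‖p 1‖ ≤ 3
  swap
  · simp [le3, hI]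
  have hrx1 := le_one_of_pow hM hrx hx hR1
  set b := side ry ‖p 1‖ with hb
  have := fibre_est hn hc R0⁻¹ ρ1 w3 CV hρ1 hCV (1, b) hp hA.2 hI
    (norm_up_tau_le M rx ry R0 hrx hry hx hy hR1 (1, b) p (by simp; linarith [hA.1])
      (side_spec ry ‖p 1‖)) 0 _ (fun v => (jac_Tm M (1, b) hp v).1)
  simp only [annI, le3, hA, hI, and_self, if_true, one_mul, ENNReal.ofReal_one]
  refine this.trans ?_
  rw [ENNReal.ofReal_mul (by positivity)]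
  gcongr
  refine le_trans (le_of_eq ?_) (Finset.single_le_sum (f := fun b : Fin 2 =>
    ENNReal.ofReal (wt (2 * M) ry b ‖p 1‖) * ENNReal.ofReal (uu h (1, b) (tau (0, 0) (1, b) p)))
    (fun _ _ => zero_le) (Finset.mem_univ b))
  rw [ENNReal.ofReal_mul (by positivity), hb, norm_dd_sq]

theorem fibre_y {p : C2} (hp : tor p) :
    ∫⁻ v, ENNReal.ofReal (le3 ‖p 0‖ * annI ‖p 1‖ * ((if nsq (QM M (p, v)) ≤ w3 then 1 else 0) *
        ‖(jac (QM M) (p, v)).1 1‖ ^ 2 * sqn h (0, 0) (p, v))) ≤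
      ENNReal.ofReal (162 * CV ^ 2 * ρ1 ^ 2 * (volume (Metric.closedBall (0 : C2) ρ1)).toReal) *
        ∑ a : Fin 2, ENNReal.ofReal (wt M rx a ‖p 0‖) * ENNReal.ofReal (annI ‖p 1‖) *
          ENNReal.ofReal (uu h (a, 1) (tau (0, 0) (a, 1) p)) := by
  by_cases hA : 2 ≤ ‖p 1‖ ∧ ‖p 1‖ ≤ 3
  swap
  · simp [annI, hA]
  by_cases hI : ‖p 0‖ ≤ 3
  swap
  · simp [le3, hI]
  have hry1 := le_one_of_pow (n := 2 * M) (by omega) hry hy hR1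
  set a := side rx ‖p 0‖ with ha
  have := fibre_est hn hc R0⁻¹ ρ1 w3 CV hρ1 hCV (a, 1) hp hI hA.2
    (norm_up_tau_le M rx ry R0 hrx hry hx hy hR1 (a, 1) p (side_spec rx ‖p 0‖)
      (by simp; linarith [hA.1])) 1 _ (fun v => (jac_Tm M (a, 1) hp v).2)
  simp only [annI, le3, hA, hI, and_self, if_true, one_mul, ENNReal.ofReal_one, mul_one]
  refine this.trans ?_
  rw [ENNReal.ofReal_mul (by positivity)]
  gcongr
  refine le_trans (le_of_eq ?_) (Finset.single_le_sum (f := fun a : Fin 2 =>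
    ENNReal.ofReal (wt M rx a ‖p 0‖) * ENNReal.ofReal (uu h (a, 1) (tau (0, 0) (a, 1) p)))
    (fun _ _ => zero_le) (Finset.mem_univ a))
  rw [ENNReal.ofReal_mul (by positivity), ha, norm_dd_sq]

end upper

end Crest.Agent.R258
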