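import Crest.Agent.R258.Core3

/-!
Integrating the cut-off term.
-/

set_option autoImplicit false

noncomputable section

namespace Crest.Agent.R258

open Crest.AlgGeometry.QuadricBundle MeasureTheory Matrix
open scoped ComplexConjugate ComplexOrder ENNReal

theorem measurable_tau (α β : Chart) : Measurable (tau α β) := by
  refine measurable_pi_lambda _ fun i => ?_
  fin_cases i
  · show Measurable (fun p : C2 => if α.1 = β.1 then p 0 else (p 0)⁻¹)
    split_ifs <;> fun_prop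
  · show Measurable (fun p : C2 => if α.2 = β.2 then p 1 else (p 1)⁻¹)
    split_ifs <;> fun_prop

theorem ae_tor : ∀ᵐ p : C2, tor p := by
  have h0 : ∀ᵐ p : C2, p 0 ≠ 0 := Measure.ae_eval_ne (fun _ : Fin 2 => (volume : Measure ℂ)) 0 0
  have h1 : ∀ᵐ p : C2, p 1 ≠ 0 := Measure.ae_eval_ne (fun _ : Fin 2 => (volume : Measure ℂ)) 1 0
  filter_upwards [h0, h1] with p a b using ⟨a, b⟩

theorem exists_CN (R0 : ℝ) (hR0 : 0 < R0) : ∃ CN : ℝ, 0 < CN ∧ ∀ (α : Chart) (P : C2) (j : Fin 2),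
    ‖P 0‖ = R0 → ‖P 1‖ = R0 → ‖Nm α (0, 0) (tau (0, 0) α P) *ᵥ Pi.single j 1‖ ≤ CN := by
  let K : Set C2 := {P | ‖P 0‖ = R0 ∧ ‖P 1‖ = R0}
  have hKc : IsCompact K := by
    refine (isCompact_closedBall (0 : C2) R0).of_isClosed_subset ?_ ?_
    · exact (isClosed_eq (by fun_prop) continuous_const).inter
        (isClosed_eq (by fun_prop) continuous_const)
    · rintro P ⟨h0, h1⟩
      refine mem_closedBall_zero_iff.2 ((pi_norm_le_iff_of_nonneg hR0.le).2 fun i => ?_)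
      fin_cases i
      · exact h0.le
      · exact h1.le
  have hKt : ∀ P ∈ K, tor P := by
    rintro P ⟨h0, h1⟩
    exact ⟨norm_pos_iff.1 (h0 ▸ hR0), norm_pos_iff.1 (h1 ▸ hR0)⟩
  have hc : ContinuousOn (fun P : C2 => fun (α : Chart) (j i : Fin 2) =>
      Nm α (0, 0) (tau (0, 0) α P) i j) K := by
    refine continuousOn_pi.2 fun α => continuousOn_pi.2 fun j => continuousOn_pi.2 fun i => ?_
    intro P hP
    have ht := hKt P hP
    have h2 : DifferentiableAt ℂ (tau (0, 0) α) P :=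
      (differentiableOn_tau _ _).differentiableAt (ht.overlap_nhds _ _)
    have h3 : DifferentiableAt ℂ (fun P => Nm α (0, 0) P i j) (tau (0, 0) α P) :=
      (differentiableOn_Nm _ _ i j).differentiableAt ((ht.tau _ _).overlap_nhds _ _)
    exact (h3.comp P h2).continuousAt.continuousWithinAt
  obtain ⟨C, hC⟩ := hKc.exists_bound_of_continuousOn hc
  refine ⟨max C 1, lt_max_of_lt_right one_pos, fun α P j h0 h1 => ?_⟩
  refine le_trans ?_ ((hC P ⟨h0, h1⟩).trans (le_max_left _ _))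
  refine le_trans (le_of_eq ?_) ((norm_le_pi_norm _ j).trans (norm_le_pi_norm
    (fun (α : Chart) (j i : Fin 2) => Nm α (0, 0) (tau (0, 0) α P) i j) α))
  congr 1
  ext i
  rw [Matrix.mulVec_single_one]
  rfl

theorem norm_lt_le {M : ℕ} (hM : 1 ≤ M) {rx ry R0 : ℝ} (hrx : 0 < rx) (hry : 0 < ry)
    (hx : rx ^ M = R0) (hy : ry ^ (2 * M) = R0) (hR1 : R0 ≤ 1) (α : Chart) (p : C2)
    (h0 : ‖p 0‖ = rx) (h1 : ‖p 1‖ = ry) :
    ‖lineTrans (M - 1) (-M - 1) (0, 0) α p‖ ≤ R0⁻¹ := by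
  have hR0 : 0 < R0 := hx ▸ pow_pos hrx M
  have hrx1 := le_one_of_pow hM hrx hx hR1
  have hry1 := le_one_of_pow (n := 2 * M) (by omega) hry hy hR1
  unfold lineTrans
  rw [norm_mul]
  have a0 : ‖(if ((0, 0) : Chart).1 = α.1 then (1 : ℂ) else p 0 ^ ((M : ℤ) - 1))‖ ≤ 1 := by
    split_ifs
    · simp
    · rw [norm_zpow, h0]
      exact zpow_le_one₀ hrx hrx1 (by omega)
  have a1 : ‖(if ((0, 0) : Chart).2 = α.2 then (1 : ℂ) else p 1 ^ (-(M : ℤ) - 1))‖ ≤ R0⁻¹ := by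
    split_ifs
    · simpa using (one_le_inv₀ hR0).2 hR1
    · rw [norm_zpow, h1, ← hy, ← zpow_natCast, ← _root_.zpow_neg]
      exact zpow_le_zpow_right_of_le_one₀ hry hry1 (by push_cast; omega)
  calc _ ≤ 1 * R0⁻¹ := by gcongr
    _ = _ := one_mul _

section upper

variable {M : ℕ} {h : MetricData 2} (hn : IsNeg h) (hc : Compat M h) (hM : 1 ≤ M)
  {rx ry R0 CN : ℝ} (hrx : 0 < rx) (hry : 0 < ry) (hx : rx ^ M = R0)
  (hy : ry ^ (2 * M) = R0) (hR1 : R0 ≤ 1)
  (hCN : ∀ (α : Chart) (P : C2) (j : Fin 2),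
    ‖P 0‖ = R0 → ‖P 1‖ = R0 → ‖Nm α (0, 0) (tau (0, 0) α P) *ᵥ Pi.single j 1‖ ≤ CN)

include hn hc hM hrx hry hx hy hR1 hCN

theorem tm_le_K (α : Chart) {r s : ℝ} (hr : 0 < r) (hs : 0 < s)
    (h0 : if α.1 = 0 then r ≤ rx else rx ≤ r) (h1 : if α.2 = 0 then s ≤ ry else ry ≤ s) :
    tm α (uu h α) r s ≤ 4 * (R0⁻¹ * CN) ^ 2 * tm (0, 0) (uu h (0, 0)) rx ry := by
  have hR0 : 0 < R0 := hx ▸ pow_pos hrx M
  refine (tm_mono α _ (hn.contDiff_uu α) (fun p => hn.lev_uu α p _) (fun p => hn.lev_uu α p _)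
    hr hrx hs hry h0 h1).trans ?_
  refine tm_le_mul α (0, 0) _ _ (hn.contDiff_uu α).continuous (hn.contDiff_uu _).continuous
    hrx hry fun p hp0 hp1 => ?_
  have hp : tor p := ⟨norm_pos_iff.1 (hp0 ▸ hrx), norm_pos_iff.1 (hp1 ▸ hry)⟩
  rw [tau_self]
  have hu := (uu_pos h (0, 0) p (hn.posDef _ _)).le
  have key : ∀ j : Fin 2, sqn h α (tau (0, 0) α p, Pi.single j 1) ≤
      2 * (R0⁻¹ * CN) ^ 2 * uu h (0, 0) p := fun j => by
    rw [hc.base α hp]
    refine (sqn_le h (0, 0) p _ (hn.posDef _ _)).trans ?_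
    gcongr
    rw [norm_smul]
    have b1 := norm_lt_le hM hrx hry hx hy hR1 α p hp0 hp1
    have b2 := hCN α (up M p) j (by simp [up, hp0, hx]) (by simp [up, hp1, hy])
    gcongr
  unfold uu at *
  linarith [key 0, key 1]

theorem int_term_x (b : Fin 2) :
    ∫⁻ p : C2, ENNReal.ofReal (annI ‖p 0‖) * ENNReal.ofReal (wt (2 * M) ry b ‖p 1‖) *
        ENNReal.ofReal (uu h (1, b) (tau (0, 0) (1, b) p)) ≤
      ENNReal.ofReal (4 * (R0⁻¹ * CN) ^ 2 * tm (0, 0) (uu h (0, 0)) rx ry) * ENNReal.ofReal 3 *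
        ENNReal.ofReal (2 * M * R0⁻¹ ^ 2) := by
  have hR0 : 0 < R0 := hx ▸ pow_pos hrx M
  have hrx1 := le_one_of_pow hM hrx hx hR1
  refine (lintegral_polar_le (1, b) (uu h (1, b)) (hn.contDiff_uu _).continuous
    (fun p => (uu_pos h _ p (hn.posDef _ _)).le) (fun r => ENNReal.ofReal (annI r))
    (fun s => ENNReal.ofReal (wt (2 * M) ry b s)) measurable_annI.ennreal_ofReal
    (measurable_wt _ _ _).ennreal_ofReal _ (fun r s hr hs ha hb =>
      tm_le_K hn hc hM hrx hry hx hy hR1 hCN (1, b) hr hs ?_ ?_)).trans ?_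
  · have : 2 ≤ r := by
      by_contra hne
      simp [annI, hne] at ha
    simp; linarith
  · by_cases hb0 : b = 0
    · simp only [hb0, if_true]
      by_contra hne
      simp [wt, hb0, hne] at hb
    · simp only [hb0, if_false]
      by_contra hne
      have : ¬ ry < s := fun h => hne h.le
      simp [wt, hb0, this] at hb
  · have hinv : 1 ≤ R0⁻¹ := (one_le_inv₀ hR0).2 hR1
    gcongr
    · exact radial_ann
    · by_cases hb0 : b = 0
      · simp only [wt, hb0, if_true]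
        refine (radial_inner (2 * M) (by omega) ry hry).trans (ENNReal.ofReal_le_ofReal ?_)
        rw [mul_comm 2 (2 * M), pow_mul, hy]
        push_cast
        gcongr
        linarith
      · simp only [wt, hb0, if_false]
        refine (radial_outer (2 * M) (by omega) ry hry).trans (ENNReal.ofReal_le_ofReal ?_)
        rw [mul_comm 2 (2 * M), pow_mul, inv_pow, hy]
        push_cast
        exact le_rfl

theorem int_term_y (a : Fin 2) :
    ∫⁻ p : C2, ENNReal.ofReal (wt M rx a ‖p 0‖) * ENNReal.ofReal (annI ‖p 1‖) *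
        ENNReal.ofReal (uu h (a, 1) (tau (0, 0) (a, 1) p)) ≤
      ENNReal.ofReal (4 * (R0⁻¹ * CN) ^ 2 * tm (0, 0) (uu h (0, 0)) rx ry) * ENNReal.ofReal 3 *
        ENNReal.ofReal (2 * M * R0⁻¹ ^ 2) := by
  have hR0 : 0 < R0 := hx ▸ pow_pos hrx M
  have hry1 := le_one_of_pow (n := 2 * M) (by omega) hry hy hR1
  refine (lintegral_polar_le (a, 1) (uu h (a, 1)) (hn.contDiff_uu _).continuous
    (fun p => (uu_pos h _ p (hn.posDef _ _)).le) (fun r => ENNReal.ofReal (wt M rx a r))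
    (fun s => ENNReal.ofReal (annI s)) (measurable_wt _ _ _).ennreal_ofReal
    measurable_annI.ennreal_ofReal _ (fun r s hr hs ha hb =>
      tm_le_K hn hc hM hrx hry hx hy hR1 hCN (a, 1) hr hs ?_ ?_)).trans ?_
  · by_cases hb0 : a = 0
    · simp only [hb0, if_true]
      by_contra hne
      simp [wt, hb0, hne] at ha
    · simp only [hb0, if_false]
      by_contra hne
      have : ¬ rx < r := fun h => hne h.le
      simp [wt, hb0, this] at ha
  · have : 2 ≤ s := by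
      by_contra hne
      simp [annI, hne] at hb
    simp; linarith
  · have hinv : 1 ≤ R0⁻¹ := (one_le_inv₀ hR0).2 hR1
    have hM0 : (0 : ℝ) ≤ M := Nat.cast_nonneg M
    rw [mul_right_comm]
    gcongr
    · exact radial_ann
    · by_cases hb0 : a = 0
      · simp only [wt, hb0, if_true]
        refine (radial_inner M hM rx hrx).trans (ENNReal.ofReal_le_ofReal ?_)
        rw [mul_comm 2 M, pow_mul, hx]
        have : R0 ^ 2 ≤ R0⁻¹ ^ 2 := by gcongr; linarith
        nlinarith [sq_nonneg R0]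
      · simp only [wt, hb0, if_false]
        refine (radial_outer M hM rx hrx).trans (ENNReal.ofReal_le_ofReal ?_)
        rw [mul_comm 2 M, pow_mul, inv_pow, hx]
        nlinarith [sq_nonneg R0⁻¹]

theorem upper_bound {ρ1 w3 CV K : ℝ} {χ : ℂ → ℝ} {ω : ℝ → ℝ}
    (hρ1 : ∀ (α : Chart) (P v : C2), ‖P‖ ≤ R0⁻¹ → nsq (qq α (P, v)) ≤ w3 → ‖v‖ ≤ ρ1)
    (hCV : ∀ (α : Chart) (P v : C2), ‖P‖ ≤ R0⁻¹ → ‖v‖ ≤ ρ1 → ‖jac (qq α) (P, v)‖ ≤ CV)
    (hχ : ContDiff ℝ 1 χ)
    (hω : ContDiff ℝ 1 ω) (hχ1 : ∀ x, |χ x| ≤ 1) (hχ3 : ∀ x, χ x ≠ 0 → ‖x‖ ≤ 3)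
    (hχK : ∀ x η, |fderiv ℝ χ x η| ≤ K * annI ‖x‖ * ‖η‖) (hω1 : ∀ t, |ω t| ≤ 1)
    (hω3 : ∀ t, ω t ≠ 0 → t ≤ w3) :
    ∫⁻ P, ENNReal.ofReal (((fderiv ℝ (kk χ ω M) P (jac (QM M) P)) ^ 2
        + (fderiv ℝ (kk χ ω M) P (Complex.I • jac (QM M) P)) ^ 2) * sqn h (0, 0) P) ≤
      ENNReal.ofReal (4 * K ^ 2) *
        (ENNReal.ofReal (162 * CV ^ 2 * ρ1 ^ 2 * (volume (Metric.closedBall (0 : C2) ρ1)).toReal) *
          (4 * (ENNReal.ofReal (4 * (R0⁻¹ * CN) ^ 2 * tm (0, 0) (uu h (0, 0)) rx ry) *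
            ENNReal.ofReal 3 * ENNReal.ofReal (2 * M * R0⁻¹ ^ 2)))) := by
  set C5 := ENNReal.ofReal
    (162 * CV ^ 2 * ρ1 ^ 2 * (volume (Metric.closedBall (0 : C2) ρ1)).toReal) with hC5
  set B := ENNReal.ofReal (4 * (R0⁻¹ * CN) ^ 2 * tm (0, 0) (uu h (0, 0)) rx ry) *
    ENNReal.ofReal 3 * ENNReal.ofReal (2 * M * R0⁻¹ ^ 2) with hB
  let fx : S → ℝ := fun P => annI ‖P.1 0‖ * le3 ‖P.1 1‖ *
    ((if nsq (QM M P) ≤ w3 then 1 else 0) * ‖(jac (QM M) P).1 0‖ ^ 2 * sqn h (0, 0) P)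
  let fy : S → ℝ := fun P => le3 ‖P.1 0‖ * annI ‖P.1 1‖ *
    ((if nsq (QM M P) ≤ w3 then 1 else 0) * ‖(jac (QM M) P).1 1‖ ^ 2 * sqn h (0, 0) P)
  let tx : Fin 2 → C2 → ℝ≥0∞ := fun b p => ENNReal.ofReal (annI ‖p 0‖) *
    ENNReal.ofReal (wt (2 * M) ry b ‖p 1‖) * ENNReal.ofReal (uu h (1, b) (tau (0, 0) (1, b) p))
  let ty : Fin 2 → C2 → ℝ≥0∞ := fun a p => ENNReal.ofReal (wt M rx a ‖p 0‖) *
    ENNReal.ofReal (annI ‖p 1‖) * ENNReal.ofReal (uu h (a, 1) (tau (0, 0) (a, 1) p))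
  have hG0 : ∀ P : S, 0 ≤ sqn h (0, 0) P := fun P => sqn_nonneg h _ P.1 P.2 (hn.posDef _ _)
  have hpt : ∀ P : S, ((fderiv ℝ (kk χ ω M) P (jac (QM M) P)) ^ 2
        + (fderiv ℝ (kk χ ω M) P (Complex.I • jac (QM M) P)) ^ 2) * sqn h (0, 0) P ≤
      4 * K ^ 2 * (fx P + fy P) := fun P => by
    have a1 := sq_fderiv_kk_le hχ hω hχ1 hχ3 hχK hω1 hω3 M P _ (fderiv_jac (QM M) P)
    have a2 := sq_fderiv_kk_le hχ hω hχ1 hχ3 hχK hω1 hω3 M P (Complex.I • jac (QM M) P)
      (by rw [map_smul, fderiv_jac, smul_zero])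
    simp only [Prod.smul_fst, Pi.smul_apply, norm_smul, Complex.norm_I, one_mul] at a2
    refine (mul_le_mul_of_nonneg_right (add_le_add a1 a2) (hG0 P)).trans (le_of_eq ?_)
    simp only [fx, fy]
    ring
  have hmeas : Measurable fun P : S => ENNReal.ofReal (fx P) := by
    have c1 : Continuous (QM M) := (contDiff_QM M).continuous
    have c2 : Continuous (jac (QM M)) :=
      (contDiff_jac _ ((contDiff_QM M).of_le two_le_inf)).continuous
    have c3 : Continuous (sqn h (0, 0)) := (hn.contDiff_sqn _).continuous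
    have m1 : Measurable fun P : S => (if nsq (QM M P) ≤ w3 then (1 : ℝ) else 0) :=
      Measurable.ite (measurableSet_le (contDiff_nsq.continuous.comp c1).measurable
        measurable_const) measurable_const measurable_const
    have m2 : Measurable le3 := Measurable.ite measurableSet_Iic measurable_const measurable_const
    have m3 : Measurable fun P : S => ‖(jac (QM M) P).1 0‖ ^ 2 := by
      exact (((continuous_apply 0).comp c2.fst).norm.pow 2).measurable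
    exact (((measurable_annI.comp (by fun_prop)).mul (m2.comp (by fun_prop))).mul
      ((m1.mul m3).mul c3.measurable)).ennreal_ofReal
  have hmu : ∀ α, Measurable fun p : C2 => ENNReal.ofReal (uu h α (tau (0, 0) α p)) := fun α =>
    ((hn.contDiff_uu α).continuous.measurable.comp (measurable_tau _ _)).ennreal_ofReal
  have hmx : ∀ b, Measurable (tx b) := fun b =>
    (((measurable_annI.comp (by fun_prop)).ennreal_ofReal).mul
      (((measurable_wt _ _ _).comp (by fun_prop)).ennreal_ofReal)).mul (hmu _)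
  have hmy : ∀ a, Measurable (ty a) := fun a =>
    ((((measurable_wt _ _ _).comp (by fun_prop)).ennreal_ofReal).mul
      ((measurable_annI.comp (by fun_prop)).ennreal_ofReal)).mul (hmu _)
  have hIx : ∫⁻ P, ENNReal.ofReal (fx P) ≤ C5 * (2 * B) := by
    refine (lintegral_prod_le _).trans ?_
    refine (lintegral_mono_ae (ae_tor.mono fun p hp =>
      fibre_x hn hc hM hrx hry hx hy hR1 hρ1 hCV hp)).trans ?_
    rw [lintegral_const_mul' _ _ ENNReal.ofReal_ne_top]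
    gcongr
    simp only [Fin.sum_univ_two]
    rw [lintegral_add_left (hmx 0), two_mul B]
    exact add_le_add (int_term_x hn hc hM hrx hry hx hy hR1 hCN 0)
      (int_term_x hn hc hM hrx hry hx hy hR1 hCN 1)
  have hIy : ∫⁻ P, ENNReal.ofReal (fy P) ≤ C5 * (2 * B) := by
    refine (lintegral_prod_le _).trans ?_
    refine (lintegral_mono_ae (ae_tor.mono fun p hp =>
      fibre_y hn hc hM hrx hry hx hy hR1 hρ1 hCV hp)).trans ?_
    rw [lintegral_const_mul' _ _ ENNReal.ofReal_ne_top]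
    gcongr
    simp only [Fin.sum_univ_two]
    rw [lintegral_add_left (hmy 0), two_mul B]
    exact add_le_add (int_term_y hn hc hM hrx hry hx hy hR1 hCN 0)
      (int_term_y hn hc hM hrx hry hx hy hR1 hCN 1)
  calc _ ≤ ∫⁻ P, ENNReal.ofReal (4 * K ^ 2) * (ENNReal.ofReal (fx P) + ENNReal.ofReal (fy P)) := by
        refine lintegral_mono fun P => (ENNReal.ofReal_le_ofReal (hpt P)).trans ?_
        rw [ENNReal.ofReal_mul (by positivity)]
        gcongr
        exact ENNReal.ofReal_add_le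
    _ = ENNReal.ofReal (4 * K ^ 2) *
          ((∫⁻ P, ENNReal.ofReal (fx P)) + ∫⁻ P, ENNReal.ofReal (fy P)) := by
        rw [lintegral_const_mul' _ _ ENNReal.ofReal_ne_top, lintegral_add_left hmeas]
    _ ≤ ENNReal.ofReal (4 * K ^ 2) * (C5 * (2 * B) + C5 * (2 * B)) := by gcongr
    _ = _ := by ring

end upper

end Crest.Agent.R258
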