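import Crest.Agent.R258.Defs

/-!
Row 258: a finite-dimensional extraction bound and the derivative of the squared norm.
-/

set_option autoImplicit false

noncomputable section

namespace Crest.Agent.R258

open Crest.AlgGeometry.QuadricBundle MeasureTheory
open scoped ComplexConjugate ComplexOrder ENNReal

namespace Extract

/-- coefficient space -/
abbrev X : Type := (Fin 2 → Fin 2 → Fin 2 → ℂ) × (Fin 2 → Fin 2 → ℂ)

theorem isOpen_shell : IsOpen shell :=
  (isOpen_lt continuous_const continuous_norm).inter (isOpen_lt continuous_norm continuous_const)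

theorem shell_subset : shell ⊆ Metric.closedBall (0 : C2) 2 := fun v hv => by
  rw [mem_closedBall_zero_iff]
  exact hv.2.le

theorem extr_smul (c : ℂ) (B : Fin 2 → Fin 2 → Fin 2 → ℂ) (h : Fin 2 → Fin 2 → ℂ) (ζ : S)
    (v : C2) : extr (c • B) (c • h) ζ v = c * extr B h ζ v := by
  simp only [extr, Fin.sum_univ_two, Pi.smul_apply, smul_eq_mul]
  ring

theorem continuous_integrand (W : S → S) (hW : Continuous W) :
    Continuous (fun q : (C2 × X) × C2 => ‖extr q.1.2.1 q.1.2.2 (W (q.1.1, q.2)) q.2‖ ^ 2) := by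
  unfold extr
  fun_prop

/-- the quadratic functional -/
def Phi (W : S → S) (q : C2 × X) : ℝ := ∫ v in shell, ‖extr q.2.1 q.2.2 (W (q.1, v)) v‖ ^ 2

theorem continuous_Phi (W : S → S) (hW : Continuous W) : Continuous (Phi W) := by
  have h1 := continuous_parametric_integral_of_continuous (μ := volume.restrict shell)
    (f := fun (q : C2 × X) (v : C2) => ‖extr q.2.1 q.2.2 (W (q.1, v)) v‖ ^ 2)
    (continuous_integrand W hW) (isCompact_closedBall (0 : C2) 2)
  rw [Measure.restrict_restrict measurableSet_closedBall,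
    Set.inter_eq_right.2 shell_subset] at h1
  exact h1

theorem cont_slice (W : S → S) (hW : Continuous W) (q : C2 × X) :
    Continuous (fun v : C2 => ‖extr q.2.1 q.2.2 (W (q.1, v)) v‖ ^ 2) := by
  unfold extr
  fun_prop

theorem integrable_slice (W : S → S) (hW : Continuous W) (q : C2 × X) :
    IntegrableOn (fun v : C2 => ‖extr q.2.1 q.2.2 (W (q.1, v)) v‖ ^ 2) shell volume :=
  ((cont_slice W hW q).continuousOn.integrableOn_compact
    (isCompact_closedBall (0 : C2) 2)).mono_set shell_subset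

theorem Phi_smul (W : S → S) (P : C2) (c : ℂ) (x : X) :
    Phi W (P, c • x) = ‖c‖ ^ 2 * Phi W (P, x) := by
  unfold Phi
  rw [← integral_const_mul]
  congr 1
  ext v
  rw [Prod.smul_fst, Prod.smul_snd, extr_smul, norm_mul, mul_pow]

end Extract

open Extract in
theorem extr_bound (W : S → S) (hW : Continuous W)
    (hinj : ∀ B h, (∀ v ∈ shell, extr B h (W (0, v)) v = 0) → B = 0 ∧ h = 0) :
    ∃ R C : ℝ, 0 < R ∧ 0 < C ∧ ∀ P : C2, ‖P‖ ≤ R → ∀ B h,
      ENNReal.ofReal (‖h‖ ^ 2) ≤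
        ENNReal.ofReal C * ∫⁻ v in shell, ENNReal.ofReal (‖extr B h (W (P, v)) v‖ ^ 2) := by
  have hc := continuous_Phi W hW
  have hpos : ∀ x ∈ Metric.sphere (0 : X) 1, 0 < Phi W (0, x) := by
    intro x hx
    have h0 : 0 ≤ Phi W (0, x) := integral_nonneg fun v => by positivity
    refine lt_of_le_of_ne h0 fun h1 => ?_
    have h2 := (integral_eq_zero_iff_of_nonneg (fun v => by positivity)
      (integrable_slice W hW (0, x))).1 h1.symm
    have h3 := Measure.eqOn_open_of_ae_eq h2 isOpen_shell (cont_slice W hW (0, x)).continuousOn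
      continuousOn_const
    obtain ⟨h4, h5⟩ := hinj x.1 x.2 fun v hv => by
      have := h3 hv
      simpa using this
    have h6 : x = 0 := Prod.ext h4 h5
    rw [h6] at hx
    simp at hx
  obtain ⟨m, hm0, hm⟩ := (isCompact_sphere (0 : X) 1).exists_forall_le'
    (f := fun x => Phi W (0, x)) (hc.comp (Continuous.prodMk_right 0)).continuousOn hpos
  have hev : ∀ᶠ P in nhds (0 : C2), ∀ x ∈ Metric.sphere (0 : X) 1, m / 2 < Phi W (P, x) := by
    refine (isCompact_sphere (0 : X) 1).eventually_forall_of_forall_eventually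
      (P := fun P x => m / 2 < Phi W (P, x)) fun x hx => ?_
    exact hc.continuousAt.eventually (lt_mem_nhds (by have := hm x hx; linarith))
  obtain ⟨R, hR, hR'⟩ := Metric.eventually_nhds_iff_ball.1 hev
  refine ⟨R / 2, 2 / m, by positivity, by positivity, fun P hP B h => ?_⟩
  have hPR : P ∈ Metric.ball (0 : C2) R := by
    rw [mem_ball_zero_iff]
    linarith
  have hint := ofReal_integral_eq_lintegral_ofReal (integrable_slice W hW (P, (B, h)))
    (Filter.Eventually.of_forall fun v => by positivity)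
  simp only at hint
  rw [← hint, ← ENNReal.ofReal_mul (by positivity)]
  refine ENNReal.ofReal_le_ofReal ?_
  show ‖h‖ ^ 2 ≤ 2 / m * Phi W (P, (B, h))
  by_cases hx : ((B, h) : X) = 0
  · have h1 : h = 0 := congrArg Prod.snd hx
    have h0 : 0 ≤ Phi W (P, (B, h)) := integral_nonneg fun v => by positivity
    rw [h1] at h0 ⊢
    simp only [norm_zero, ne_eq, OfNat.ofNat_ne_zero, not_false_eq_true, zero_pow]
    positivity
  · set x : X := (B, h) with hxdef
    have hn : 0 < ‖x‖ := norm_pos_iff.2 hx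
    have hcn : ‖((‖x‖ : ℝ) : ℂ)‖ = ‖x‖ := by simp
    have hc0 : ((‖x‖ : ℝ) : ℂ) ≠ 0 := by exact_mod_cast hn.ne'
    have h1 : ((‖x‖ : ℝ) : ℂ)⁻¹ • x ∈ Metric.sphere (0 : X) 1 := by
      rw [mem_sphere_zero_iff_norm, norm_smul, norm_inv, hcn, inv_mul_cancel₀ hn.ne']
    have h2 := hR' P hPR _ h1
    have h3 := Phi_smul W P ((‖x‖ : ℝ) : ℂ) (((‖x‖ : ℝ) : ℂ)⁻¹ • x)
    rw [smul_smul, mul_inv_cancel₀ hc0, one_smul, hcn] at h3
    have h4 : ‖h‖ ≤ ‖x‖ := norm_snd_le x
    have h5 : ‖h‖ ^ 2 ≤ ‖x‖ ^ 2 := by gcongr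
    rw [h3]
    have h6 : 1 ≤ 2 / m * Phi W (P, ((‖x‖ : ℝ) : ℂ)⁻¹ • x) := by
      rw [div_mul_eq_mul_div, le_div_iff₀ hm0]
      linarith
    nlinarith [sq_nonneg ‖x‖]

namespace Extract

theorem lin_of_real (D : C2 →L[ℝ] ℂ) (ξ : C2) :
    D ξ - Complex.I * D (Complex.I • ξ) =
      ∑ i, ξ i * (D (Pi.single i 1) - Complex.I * D (Complex.I • (Pi.single i 1 : C2))) := by
  have h1 : ξ = ∑ i, ((ξ i).re • (Pi.single i 1 : C2)
      + (ξ i).im • (Complex.I • (Pi.single i 1 : C2))) := by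
    ext j
    fin_cases j <;> simp [Fin.sum_univ_two]
  have h2 : Complex.I • ξ = ∑ i, ((ξ i).re • (Complex.I • (Pi.single i 1 : C2))
      - (ξ i).im • (Pi.single i 1 : C2)) := by
    ext j
    fin_cases j <;> simp [Fin.sum_univ_two] <;> apply Complex.ext <;> simp
  rw [h2]
  conv_lhs => rw [h1]
  simp only [map_sum, map_add, map_sub, map_smul, Finset.mul_sum, ← Finset.sum_sub_distrib]
  simp only [← h1]
  refine Finset.sum_congr rfl fun i _ => ?_
  simp only [Complex.real_smul]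
  conv_rhs => rw [← Complex.re_add_im (ξ i)]
  linear_combination (-(ξ i).im * D (Complex.I • (Pi.single i 1 : C2)) : ℂ) * Complex.I_mul_I
    * (-1)

end Extract

open Extract in
theorem fderiv_sqn (h : MetricData 2) (α : Chart)
    (hs : ∀ i j : Fin 2, ContDiff ℝ (⊤ : ℕ∞) (fun p => h α p i j))
    (hh : ∀ p, (h α p).IsHermitian) (P ζ : S) :
    ((fderiv ℝ (sqn h α) P ζ : ℝ) : ℂ) - Complex.I * (fderiv ℝ (sqn h α) P (Complex.I • ζ) : ℝ) =
      extr (fun i j k => fderiv ℝ (fun p => h α p j k) P.1 (Pi.single i 1)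
          - Complex.I * fderiv ℝ (fun p => h α p j k) P.1 (Complex.I • (Pi.single i 1 : C2)))
        (fun j k => 2 * h α P.1 j k) ζ P.2 := by
  set Γ : S → ℂ := fun Q => ∑ j, ∑ k, h α Q.1 j k * Q.2 j * conj (Q.2 k) with hΓ
  have hreal : ∀ Q, ((sqn h α Q : ℝ) : ℂ) = Γ Q := by
    intro Q
    have h1 : conj (Γ Q) = Γ Q := by
      simp only [hΓ, map_sum, map_mul, Complex.conj_conj]
      rw [Finset.sum_comm]
      refine Finset.sum_congr rfl fun j _ => Finset.sum_congr rfl fun k _ => ?_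
      have h2 : conj (h α Q.1 k j) = h α Q.1 j k := (hh Q.1).apply j k
      rw [h2]
      ring
    exact Complex.conj_eq_iff_re.1 h1
  have hd : ∀ j k, HasFDerivAt (fun Q : S => h α Q.1 j k)
      ((fderiv ℝ (fun p => h α p j k) P.1).comp (ContinuousLinearMap.fst ℝ C2 C2)) P := by
    intro j k
    exact (((hs j k).differentiable (by simp)) P.1).hasFDerivAt.comp P hasFDerivAt_fst
  have hv : ∀ j, HasFDerivAt (fun Q : S => Q.2 j)
      ((ContinuousLinearMap.proj (R := ℝ) (φ := fun _ : Fin 2 => ℂ) j).comp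
        (ContinuousLinearMap.snd ℝ C2 C2)) P := fun j =>
    ((ContinuousLinearMap.proj (R := ℝ) (φ := fun _ : Fin 2 => ℂ) j).comp
        (ContinuousLinearMap.snd ℝ C2 C2)).hasFDerivAt
  have hvc : ∀ j, HasFDerivAt (fun Q : S => conj (Q.2 j))
      ((Complex.conjCLE : ℂ →L[ℝ] ℂ).comp
        ((ContinuousLinearMap.proj (R := ℝ) (φ := fun _ : Fin 2 => ℂ) j).comp
        (ContinuousLinearMap.snd ℝ C2 C2))) P := fun j =>
    ((Complex.conjCLE : ℂ →L[ℝ] ℂ).comp
      ((ContinuousLinearMap.proj (R := ℝ) (φ := fun _ : Fin 2 => ℂ) j).comp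
        (ContinuousLinearMap.snd ℝ C2 C2))).hasFDerivAt
  have hΓd := HasFDerivAt.fun_sum (u := Finset.univ) fun j _ =>
    HasFDerivAt.fun_sum (u := Finset.univ) fun k _ => ((hd j k).fun_mul (hv j)).fun_mul (hvc k)
  have hsq : HasFDerivAt (sqn h α) _ P := Complex.reCLM.hasFDerivAt.comp P hΓd
  have h3 := Complex.ofRealCLM.hasFDerivAt.comp P hsq.differentiableAt.hasFDerivAt
  have h4 : (Complex.ofRealCLM ∘ sqn h α) = Γ := funext hreal
  rw [h4] at h3
  have h5 := h3.unique hΓd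
  have h6 : ∀ η : S, ((fderiv ℝ (sqn h α) P η : ℝ) : ℂ) =
      ∑ j, ∑ k, (h α P.1 j k * P.2 j * conj (η.2 k) + conj (P.2 k) *
        (h α P.1 j k * η.2 j + P.2 j * fderiv ℝ (fun p => h α p j k) P.1 η.1)) := by
    intro η
    have := congrArg (fun L : S →L[ℝ] ℂ => L η) h5
    simpa [mul_add] using this
  rw [h6, h6]
  have h7 : ∀ j k, fderiv ℝ (fun p => h α p j k) P.1 ζ.1 =
      Complex.I * fderiv ℝ (fun p => h α p j k) P.1 (Complex.I • ζ.1) + _ := fun j k =>
    sub_eq_iff_eq_add'.1 (lin_of_real (fderiv ℝ (fun p => h α p j k) P.1) ζ.1)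
  simp only [h7, extr, Fin.sum_univ_two, Prod.smul_fst, Prod.smul_snd, Pi.smul_apply, smul_eq_mul,
    map_mul, Complex.conj_I]
  ring_nf
  simp only [Complex.I_sq]
  ring

end Crest.Agent.R258

end
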