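import Crest.Agent.R258.Defs

/-! Row 258: `L²` integration by parts along a divergence free holomorphic vector field. -/

set_option autoImplicit false

noncomputable section

namespace Crest.Agent.R258

open Crest.AlgGeometry.QuadricBundle MeasureTheory
open scoped ComplexConjugate ComplexOrder ENNReal

namespace Ibp

instance haarS : (volume : Measure S).IsAddHaarMeasure :=
  Measure.prod.instIsAddHaarMeasure (volume : Measure C2) (volume : Measure C2)

lemma cont_fderiv_apply {U : S → ℝ} (hU : ContDiff ℝ 1 U) {W : S → S} (hW : Continuous W) :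
    Continuous fun P => fderiv ℝ U P (W P) :=
  (hU.continuous_fderiv one_ne_zero).clm_apply hW

lemma supp_fderiv_apply {U : S → ℝ} (hUc : HasCompactSupport U) (W : S → S) :
    HasCompactSupport fun P => fderiv ℝ U P (W P) := by
  refine (hUc.fderiv (𝕜 := ℝ)).mono ?_
  intro P hP
  rw [Function.mem_support] at hP ⊢
  intro h
  apply hP
  rw [h]
  rfl

lemma ibp_one {U w : S → ℝ} (hU : ContDiff ℝ 1 U) (hUc : HasCompactSupport U)
    (hw : ContDiff ℝ 1 w) (e : S) :
    Integrable (fun P => w P * fderiv ℝ U P e) ∧ Integrable (fun P => fderiv ℝ w P e * U P) ∧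
      ∫ P, w P * fderiv ℝ U P e = -∫ P, fderiv ℝ w P e * U P := by
  have h1 : Integrable (fun P => w P * fderiv ℝ U P e) :=
    (hw.continuous.mul (cont_fderiv_apply hU continuous_const)).integrable_of_hasCompactSupport
      (supp_fderiv_apply hUc fun _ => e).mul_left
  have h2 : Integrable (fun P => fderiv ℝ w P e * U P) :=
    ((cont_fderiv_apply hw continuous_const).mul hU.continuous).integrable_of_hasCompactSupport
      hUc.mul_left
  have h3 : Integrable (fun P => w P * U P) :=
    (hw.continuous.mul hU.continuous).integrable_of_hasCompactSupport hUc.mul_left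
  exact ⟨h1, h2, integral_mul_fderiv_eq_neg_fderiv_mul_of_integrable h2 h1 h3
    (fun x _ => hw.differentiable one_ne_zero x) (fun x _ => hU.differentiable one_ne_zero x)⟩

lemma hasFDerivAt_real {W : S → S} (hW : ContDiff ℂ 1 W) (P : S) :
    HasFDerivAt W ((fderiv ℂ W P).restrictScalars ℝ) P :=
  (hW.differentiable one_ne_zero P).hasFDerivAt.restrictScalars ℝ

lemma ibp_pair {U : S → ℝ} (hU : ContDiff ℝ 1 U) (hUc : HasCompactSupport U) {W : S → S}
    (hW : ContDiff ℂ 1 W) (π : S →L[ℂ] ℂ) (e : S) :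
    Integrable (fun P => (π (W P)).re * fderiv ℝ U P e +
      (π (W P)).im * fderiv ℝ U P (Complex.I • e)) ∧
    Integrable (fun P => (π (fderiv ℂ W P e)).re * U P) ∧
    ∫ P, ((π (W P)).re * fderiv ℝ U P e + (π (W P)).im * fderiv ℝ U P (Complex.I • e)) =
      -2 * ∫ P, (π (fderiv ℂ W P e)).re * U P := by
  have hWr : ContDiff ℝ 1 W := hW.restrict_scalars ℝ
  let lr : S →L[ℝ] ℝ := Complex.reCLM.comp (π.restrictScalars ℝ)
  let li : S →L[ℝ] ℝ := Complex.imCLM.comp (π.restrictScalars ℝ)
  have hr : ContDiff ℝ 1 (fun P => lr (W P)) := lr.contDiff.comp hWr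
  have hi : ContDiff ℝ 1 (fun P => li (W P)) := li.contDiff.comp hWr
  have dr : ∀ P, fderiv ℝ (fun P => lr (W P)) P e = (π (fderiv ℂ W P e)).re := by
    intro P
    have := (lr.hasFDerivAt.comp P (hasFDerivAt_real hW P)).fderiv
    rw [show (fun P => lr (W P)) = lr ∘ W from rfl, this]
    simp [lr]
  have di : ∀ P, fderiv ℝ (fun P => li (W P)) P (Complex.I • e) = (π (fderiv ℂ W P e)).re := by
    intro P
    have := (li.hasFDerivAt.comp P (hasFDerivAt_real hW P)).fderiv
    rw [show (fun P => li (W P)) = li ∘ W from rfl, this]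
    simp [li]
  obtain ⟨a1, a2, a3⟩ := ibp_one hU hUc hr e
  obtain ⟨b1, b2, b3⟩ := ibp_one hU hUc hi (Complex.I • e)
  simp only [dr] at a2 a3
  simp only [di] at b2 b3
  refine ⟨a1.add b1, a2, ?_⟩
  have := integral_add a1 b1
  rw [a3, b3] at this
  refine Eq.trans this ?_
  ring

/-- the four coordinate functionals -/
def px : S →L[ℂ] ℂ := (ContinuousLinearMap.proj 0).comp (ContinuousLinearMap.fst ℂ C2 C2)
def py : S →L[ℂ] ℂ := (ContinuousLinearMap.proj 1).comp (ContinuousLinearMap.fst ℂ C2 C2)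
def p0 : S →L[ℂ] ℂ := (ContinuousLinearMap.proj 0).comp (ContinuousLinearMap.snd ℂ C2 C2)
def p1 : S →L[ℂ] ℂ := (ContinuousLinearMap.proj 1).comp (ContinuousLinearMap.snd ℂ C2 C2)

lemma re_im_smul (c : ℂ) (e : S) : c • e = c.re • e + c.im • (Complex.I • e) := by
  conv_lhs => rw [← Complex.re_add_im c]
  rw [add_smul, mul_smul, Complex.coe_smul, Complex.coe_smul]

lemma decomp (ζ : S) : ζ = px ζ • ex + py ζ • ey + p0 ζ • e0 + p1 ζ • e1 := by
  ext i <;> fin_cases i <;> simp [px, py, p0, p1, ex, ey, e0, e1]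

lemma integral_div_free {U : S → ℝ} (hU : ContDiff ℝ 1 U) (hUc : HasCompactSupport U)
    {W : S → S} (hW : ContDiff ℂ 1 W) (hdiv : ∀ P, cdiv W P = 0) :
    ∫ P, fderiv ℝ U P (W P) = 0 := by
  obtain ⟨a1, a2, a3⟩ := ibp_pair hU hUc hW px ex
  obtain ⟨b1, b2, b3⟩ := ibp_pair hU hUc hW py ey
  obtain ⟨c1, c2, c3⟩ := ibp_pair hU hUc hW p0 e0
  obtain ⟨d1, d2, d3⟩ := ibp_pair hU hUc hW p1 e1
  have h1 : ∀ P, fderiv ℝ U P (W P) =
      ((px (W P)).re * fderiv ℝ U P ex + (px (W P)).im * fderiv ℝ U P (Complex.I • ex)) +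
      ((py (W P)).re * fderiv ℝ U P ey + (py (W P)).im * fderiv ℝ U P (Complex.I • ey)) +
      ((p0 (W P)).re * fderiv ℝ U P e0 + (p0 (W P)).im * fderiv ℝ U P (Complex.I • e0)) +
      ((p1 (W P)).re * fderiv ℝ U P e1 + (p1 (W P)).im * fderiv ℝ U P (Complex.I • e1)) := by
    intro P
    conv_lhs => rw [decomp (W P)]
    rw [re_im_smul (px (W P)), re_im_smul (py (W P)), re_im_smul (p0 (W P)),
      re_im_smul (p1 (W P))]
    simp only [map_add, map_smul, smul_eq_mul]
  have h2 : ∀ P, (px (fderiv ℂ W P ex)).re * U P + (py (fderiv ℂ W P ey)).re * U P +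
      (p0 (fderiv ℂ W P e0)).re * U P + (p1 (fderiv ℂ W P e1)).re * U P = 0 := by
    intro P
    have := congrArg Complex.re (hdiv P)
    simp only [cdiv, Complex.add_re, Complex.zero_re] at this
    have h : (px (fderiv ℂ W P ex)).re + (py (fderiv ℂ W P ey)).re +
      (p0 (fderiv ℂ W P e0)).re + (p1 (fderiv ℂ W P e1)).re = 0 := this
    linear_combination U P * h
  have h3 := integral_add ((a2.add b2).add c2) d2
  have h4 := integral_add (a2.add b2) c2
  have h5 := integral_add a2 b2
  have k3 := integral_add ((a1.add b1).add c1) d1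
  have k4 := integral_add (a1.add b1) c1
  have k5 := integral_add a1 b1
  simp only [Pi.add_apply] at h3 h4 k3 k4
  simp only [h2, integral_zero] at h3
  simp only [h1]
  rw [k3, k4, k5, a3, b3, c3, d3]
  rw [h4, h5] at h3
  linarith

end Ibp

open Ibp in
theorem ibp_main (G k : S → ℝ) (V : S → S) (hG : ContDiff ℝ 2 G) (hk : ContDiff ℝ 1 k)
    (hkc : HasCompactSupport k) (hV : ContDiff ℂ 1 V) (hdiv : ∀ P, cdiv V P = 0)
    (hG0 : ∀ P, 0 ≤ G P) (hpos : ∀ P, k P ≠ 0 → 0 < G P)
    (hlev : ∀ P, k P ≠ 0 → ∀ c : ℂ, 0 ≤ lev G P (V P)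
      + 4 * (c.re * fderiv ℝ G P (V P) - c.im * fderiv ℝ G P (Complex.I • V P))
      + 4 * Complex.normSq c * G P) :
    ∫⁻ P, ENNReal.ofReal (k P ^ 2 *
        ((fderiv ℝ G P (V P)) ^ 2 + (fderiv ℝ G P (Complex.I • V P)) ^ 2) / G P) ≤
      4 * ∫⁻ P, ENNReal.ofReal
        (((fderiv ℝ k P (V P)) ^ 2 + (fderiv ℝ k P (Complex.I • V P)) ^ 2) * G P) := by
  have hVr : ContDiff ℝ 1 V := hV.restrict_scalars ℝ
  have hV' : ContDiff ℂ 1 (fun P => Complex.I • V P) := hV.const_smul Complex.I
  have hV'r : ContDiff ℝ 1 (fun P => Complex.I • V P) := hV'.restrict_scalars ℝ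
  have hdV' : ∀ P, fderiv ℂ (fun P => Complex.I • V P) P = Complex.I • fderiv ℂ V P := fun P =>
    ((hV.differentiable one_ne_zero P).hasFDerivAt.const_smul Complex.I).fderiv
  have hdiv' : ∀ P, cdiv (fun P => Complex.I • V P) P = 0 := by
    intro P
    have := hdiv P
    simp only [cdiv] at this ⊢
    rw [hdV']
    simp only [smul_apply, Prod.smul_fst, Prod.smul_snd, Pi.smul_apply,
      smul_eq_mul]
    linear_combination Complex.I * this
  have hDG : ContDiff ℝ 1 (fderiv ℝ G) := hG.fderiv_right (m := 1) (by norm_num)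
  set a : S → ℝ := fun P => fderiv ℝ G P (V P) with ha
  set b : S → ℝ := fun P => fderiv ℝ G P (Complex.I • V P) with hb
  have hac : ContDiff ℝ 1 a := hDG.clm_apply hVr
  have hbc : ContDiff ℝ 1 b := hDG.clm_apply hV'r
  have hab : ∀ P, fderiv ℝ a P (V P) + fderiv ℝ b P (Complex.I • V P) = lev G P (V P) := by
    intro P
    have d1 := ((hDG.differentiable one_ne_zero P).hasFDerivAt.clm_apply
      (hasFDerivAt_real hV P)).fderiv
    have d2 := ((hDG.differentiable one_ne_zero P).hasFDerivAt.clm_apply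
      (hasFDerivAt_real hV' P)).fderiv
    rw [ha, hb, d1, d2, hdV']
    simp only [lev, add_apply, ContinuousLinearMap.comp_apply,
      ContinuousLinearMap.flip_apply, ContinuousLinearMap.coe_restrictScalars',
      smul_apply, map_smul, smul_smul, Complex.I_mul_I, neg_smul, one_smul,
      map_neg]
    ring
  have hU1 : ContDiff ℝ 1 (fun P => k P * k P * a P) := (hk.mul hk).mul hac
  have hU2 : ContDiff ℝ 1 (fun P => k P * k P * b P) := (hk.mul hk).mul hbc
  have hU1c : HasCompactSupport (fun P => k P * k P * a P) := (hkc.mul_right (f' := k)).mul_right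
  have hU2c : HasCompactSupport (fun P => k P * k P * b P) := (hkc.mul_right (f' := k)).mul_right
  have dU : ∀ (u : S → ℝ), ContDiff ℝ 1 u → ∀ P ζ, fderiv ℝ (fun P => k P * k P * u P) P ζ =
      2 * k P * fderiv ℝ k P ζ * u P + k P ^ 2 * fderiv ℝ u P ζ := by
    intro u hu P ζ
    have h1 := (hk.differentiable one_ne_zero P).hasFDerivAt
    have h2 := (hu.differentiable one_ne_zero P).hasFDerivAt
    have := ((h1.mul h1).mul h2).fderiv
    rw [show (fun P => k P * k P * u P) = k * k * u from rfl, this]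
    simp only [add_apply, smul_apply, smul_eq_mul,
      Pi.mul_apply]
    ring
  set T : S → ℝ := fun P => fderiv ℝ (fun P => k P * k P * a P) P (V P) +
    fderiv ℝ (fun P => k P * k P * b P) P (Complex.I • V P) with hT
  set R : S → ℝ := fun P =>
    ((fderiv ℝ k P (V P)) ^ 2 + (fderiv ℝ k P (Complex.I • V P)) ^ 2) * G P with hR
  have i1 : Integrable (fun P => fderiv ℝ (fun P => k P * k P * a P) P (V P)) :=
    (cont_fderiv_apply hU1 hVr.continuous).integrable_of_hasCompactSupport
      (supp_fderiv_apply hU1c V)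
  have i2 : Integrable (fun P => fderiv ℝ (fun P => k P * k P * b P) P (Complex.I • V P)) :=
    (cont_fderiv_apply hU2 hV'r.continuous).integrable_of_hasCompactSupport
      (supp_fderiv_apply hU2c fun P => Complex.I • V P)
  have hTi : Integrable T := i1.add i2
  have hT0 : ∫ P, T P = 0 := by
    rw [hT, integral_add i1 i2, integral_div_free hU1 hU1c hV hdiv,
      integral_div_free hU2 hU2c hV' hdiv', add_zero]
  have hRi : Integrable R := by
    have c1 := cont_fderiv_apply hk hVr.continuous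
    have c2 := cont_fderiv_apply hk hV'r.continuous
    refine (((c1.pow 2).add (c2.pow 2)).mul hG.continuous).integrable_of_hasCompactSupport ?_
    refine (hkc.fderiv (𝕜 := ℝ)).mono ?_
    intro P hP
    rw [Function.mem_support] at hP ⊢
    intro h
    apply hP
    simp [h]
  have hR0 : ∀ P, 0 ≤ R P := fun P => mul_nonneg (by positivity) (hG0 P)
  have hF0 : ∀ P, 0 ≤ k P ^ 2 * (a P ^ 2 + b P ^ 2) / G P := fun P =>
    div_nonneg (by positivity) (hG0 P)
  have hpt : ∀ P, k P ^ 2 * (a P ^ 2 + b P ^ 2) / G P ≤ 2 * T P + 4 * R P := by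
    intro P
    have hTP : T P = 2 * k P * (fderiv ℝ k P (V P) * a P + fderiv ℝ k P (Complex.I • V P) * b P)
        + k P ^ 2 * lev G P (V P) := by
      simp only [hT]
      rw [dU a hac, dU b hbc, ← hab]
      ring
    rw [hTP]
    by_cases hkP : k P = 0
    · have := hR0 P
      simp only [hkP]
      norm_num
      exact this
    · have hg := hpos P hkP
      have hl := hlev P hkP ⟨-a P / (2 * G P), b P / (2 * G P)⟩
      rw [Complex.normSq_mk] at hl
      change 0 ≤ lev G P (V P) + 4 * (-a P / (2 * G P) * a P - b P / (2 * G P) * b P) + _ at hl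
      have hl' : (a P ^ 2 + b P ^ 2) / G P ≤ lev G P (V P) := by
        have e : 4 * (-a P / (2 * G P) * a P - b P / (2 * G P) * b P) +
            4 * (-a P / (2 * G P) * (-a P / (2 * G P)) + b P / (2 * G P) * (b P / (2 * G P))) * G P
            = -((a P ^ 2 + b P ^ 2) / G P) := by
          field_simp
          ring
        linarith
      have h1 : k P ^ 2 * (a P ^ 2 + b P ^ 2) / G P ≤ k P ^ 2 * lev G P (V P) := by
        rw [mul_div_assoc]
        exact mul_le_mul_of_nonneg_left hl' (sq_nonneg _)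
      simp only [hR]
      generalize fderiv ℝ k P (V P) = α
      generalize fderiv ℝ k P (Complex.I • V P) = β
      have h2 : 0 ≤ k P ^ 2 * (a P ^ 2 + b P ^ 2) / G P + 4 * k P * (α * a P + β * b P) +
          4 * ((α ^ 2 + β ^ 2) * G P) := by
        have e : k P ^ 2 * (a P ^ 2 + b P ^ 2) / G P + 4 * k P * (α * a P + β * b P) +
            4 * ((α ^ 2 + β ^ 2) * G P) =
            ((k P * a P + 2 * G P * α) ^ 2 + (k P * b P + 2 * G P * β) ^ 2) / G P := by
          field_simp
          ring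
        rw [e]
        positivity
      linarith
  have hsum : Integrable (fun P => 2 * T P + 4 * R P) := (hTi.const_mul 2).add (hRi.const_mul 4)
  calc ∫⁻ P, ENNReal.ofReal (k P ^ 2 * (a P ^ 2 + b P ^ 2) / G P)
      ≤ ∫⁻ P, ENNReal.ofReal (2 * T P + 4 * R P) :=
        lintegral_mono fun P => ENNReal.ofReal_le_ofReal (hpt P)
    _ = ENNReal.ofReal (∫ P, (2 * T P + 4 * R P)) :=
        (ofReal_integral_eq_lintegral_ofReal hsum
          (Filter.Eventually.of_forall fun P => (hF0 P).trans (hpt P))).symm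
    _ = ENNReal.ofReal (4 * ∫ P, R P) := by
        rw [integral_add (hTi.const_mul 2) (hRi.const_mul 4), integral_const_mul,
          integral_const_mul, hT0]
        simp
    _ = 4 * ∫⁻ P, ENNReal.ofReal (R P) := by
        rw [ENNReal.ofReal_mul (by norm_num), ofReal_integral_eq_lintegral_ofReal hRi
          (Filter.Eventually.of_forall hR0)]
        simp

end Crest.Agent.R258

end
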