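import Crest.Agent.R258.Core4
import Crest.Agent.R258.Extract
import Crest.Agent.R258.Ibp

/-!
The lower bound on the good region and the contradiction for large `M`.
-/

set_option autoImplicit false

noncomputable section

namespace Crest.Agent.R258

open Crest.AlgGeometry.QuadricBundle MeasureTheory Matrix
open scoped ComplexConjugate ComplexOrder ENNReal

/-- the integrand controlled by integration by parts -/
def FF (h : MetricData 2) (χ : ℂ → ℝ) (ω : ℝ → ℝ) (M : ℕ) (P : S) : ℝ :=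
  kk χ ω M P ^ 2 * ((fderiv ℝ (sqn h (0, 0)) P (jac (QM M) P)) ^ 2
    + (fderiv ℝ (sqn h (0, 0)) P (Complex.I • jac (QM M) P)) ^ 2) / sqn h (0, 0) P

theorem good_pt {M : ℕ} {h : MetricData 2} (hn : IsNeg h) {χ : ℂ → ℝ} {ω : ℝ → ℝ} {R C : ℝ}
    (hC : 0 < C)
    (hext : ∀ P : C2, ‖P‖ ≤ R → ∀ B h, ENNReal.ofReal (‖h‖ ^ 2) ≤ ENNReal.ofReal C *
      ∫⁻ v in shell, ENNReal.ofReal (‖extr B h (jac (qq (0, 0)) (P, v)) v‖ ^ 2))
    (hχ2 : ∀ x, ‖x‖ ≤ 2 → χ x = 1)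
    (hω : ∀ P v : C2, ‖P‖ ≤ R → v ∈ shell → ω (nsq (qq (0, 0) (P, v))) = 1)
    (p : C2) (hR : ‖up M p‖ ≤ R) (h0 : ‖p 0‖ ≤ 2) (h1 : ‖p 1‖ ≤ 2) :
    ENNReal.ofReal (‖(M : ℂ) * p 0 ^ (M - 1)‖ ^ 2 * ‖((2 * M : ℕ) : ℂ) * p 1 ^ (2 * M - 1)‖ ^ 2
        * uu h (0, 0) p) ≤
      ENNReal.ofReal (8 * C) * ∫⁻ v, ENNReal.ofReal (FF h χ ω M (p, v)) := by
  set d0 : ℂ := (M : ℂ) * p 0 ^ (M - 1)
  set d1 : ℂ := ((2 * M : ℕ) : ℂ) * p 1 ^ (2 * M - 1)
  have hu := uu_pos h (0, 0) p (hn.posDef _ _)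
  let B0 : Fin 2 → Fin 2 → Fin 2 → ℂ := fun i j k =>
    fderiv ℝ (fun p => h (0, 0) p j k) p (Pi.single i 1)
      - Complex.I * fderiv ℝ (fun p => h (0, 0) p j k) p (Complex.I • (Pi.single i 1 : C2))
  let B' : Fin 2 → Fin 2 → Fin 2 → ℂ := fun i j k => ![d1, d0] i * B0 i j k
  let h' : Fin 2 → Fin 2 → ℂ := fun j k => (d0 * d1) * (2 * h (0, 0) p j k)
  have hjac : ∀ v, jac (QM M) (p, v) =
      (![d1 * (jac (qq (0, 0)) (up M p, v)).1 0, d0 * (jac (qq (0, 0)) (up M p, v)).1 1],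
        (d0 * d1) • (jac (qq (0, 0)) (up M p, v)).2) := fun v =>
    jac_base (qq (0, 0)) (fun x => x ^ M) (fun y => y ^ (2 * M)) d0 d1 p v
      (hasDerivAt_pow M (p 0)) (hasDerivAt_pow (2 * M) (p 1))
      ((contDiff_qq _).differentiable (by simp) _)
  have hex : ∀ v, ‖extr B' h' (jac (qq (0, 0)) (up M p, v)) v‖ ^ 2 =
      (fderiv ℝ (sqn h (0, 0)) (p, v) (jac (QM M) (p, v))) ^ 2
        + (fderiv ℝ (sqn h (0, 0)) (p, v) (Complex.I • jac (QM M) (p, v))) ^ 2 := fun v => by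
    have e1 := fderiv_sqn h (0, 0) (hn.smooth _) (fun p => (hn.posDef _ p).isHermitian) (p, v)
      (jac (QM M) (p, v))
    have e2 : extr B' h' (jac (qq (0, 0)) (up M p, v)) v =
        extr B0 (fun j k => 2 * h (0, 0) p j k) (jac (QM M) (p, v)) v := by
      rw [hjac]
      simp only [extr, Fin.sum_univ_two, B', h', Matrix.cons_val_zero, Matrix.cons_val_one,
        Pi.smul_apply, smul_eq_mul]
      ring
    rw [e2, ← e1, ← Complex.normSq_eq_norm_sq, Complex.normSq_apply]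
    simp
    ring
  have hsh : ∀ v ∈ shell, ENNReal.ofReal (‖extr B' h' (jac (qq (0, 0)) (up M p, v)) v‖ ^ 2) ≤
      ENNReal.ofReal (8 * uu h (0, 0) p) * ENNReal.ofReal (FF h χ ω M (p, v)) := fun v hv => by
    rw [← ENNReal.ofReal_mul (by positivity), hex]
    apply ENNReal.ofReal_le_ofReal
    have hv0 : v ≠ 0 := by
      rintro rfl
      have := hv.1
      simp at this
      linarith
    have hG := sqn_pos h (0, 0) p v (hn.posDef _ _) hv0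
    have hG' : sqn h (0, 0) (p, v) ≤ 8 * uu h (0, 0) p := by
      refine (sqn_le h (0, 0) p v (hn.posDef _ _)).trans ?_
      have : ‖v‖ ^ 2 ≤ 2 ^ 2 := by gcongr; exact hv.2.le
      nlinarith
    have hk : kk χ ω M (p, v) = 1 := by
      simp only [kk, QM, hχ2 _ h0, hχ2 _ h1, hω _ v hR hv, mul_one]
    rw [FF, hk, one_pow, one_mul, mul_div_assoc', le_div_iff₀ hG, mul_comm]
    gcongr
  have hmain := hext (up M p) hR B' h'
  have hI : ∫⁻ v in shell, ENNReal.ofReal (‖extr B' h' (jac (qq (0, 0)) (up M p, v)) v‖ ^ 2) ≤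
      ENNReal.ofReal (8 * uu h (0, 0) p) * ∫⁻ v, ENNReal.ofReal (FF h χ ω M (p, v)) := by
    rw [← lintegral_const_mul' _ _ ENNReal.ofReal_ne_top]
    refine (setLIntegral_mono' Extract.isOpen_shell.measurableSet hsh).trans ?_
    exact setLIntegral_le_lintegral _ _
  have hl : (‖d0‖ ^ 2 * ‖d1‖ ^ 2 * uu h (0, 0) p) * uu h (0, 0) p ≤ ‖h'‖ ^ 2 := by
    have := uu_le h (0, 0) p (d0 * d1)
    calc _ = (‖d0 * d1‖ * uu h (0, 0) p) ^ 2 := by rw [norm_mul d0 d1]; ring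
      _ ≤ _ := by gcongr
  have hfin : ENNReal.ofReal (‖d0‖ ^ 2 * ‖d1‖ ^ 2 * uu h (0, 0) p) * ENNReal.ofReal (uu h (0, 0) p) ≤
      (ENNReal.ofReal (8 * C) * ∫⁻ v, ENNReal.ofReal (FF h χ ω M (p, v))) *
        ENNReal.ofReal (uu h (0, 0) p) := by
    rw [← ENNReal.ofReal_mul (by positivity)]
    refine (ENNReal.ofReal_le_ofReal hl).trans (hmain.trans ?_)
    calc _ ≤ ENNReal.ofReal C * (ENNReal.ofReal (8 * uu h (0, 0) p) *
          ∫⁻ v, ENNReal.ofReal (FF h χ ω M (p, v))) := by gcongr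
      _ = _ := by
        rw [ENNReal.ofReal_mul (by norm_num), ENNReal.ofReal_mul (by norm_num)]
        ring
  exact (ENNReal.mul_le_mul_iff_left (by simpa using hu) ENNReal.ofReal_ne_top).1 hfin

theorem one_add_inv_pow_le (M : ℕ) (hM : 1 ≤ M) : (1 + (M : ℝ)⁻¹) ^ M ≤ 3 := by
  have hM0 : (0 : ℝ) < M := by exact_mod_cast hM
  calc (1 + (M : ℝ)⁻¹) ^ M ≤ (Real.exp (M : ℝ)⁻¹) ^ M := by
        gcongr
        rw [add_comm]
        exact Real.add_one_le_exp _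
    _ = Real.exp 1 := by rw [← Real.exp_nat_mul, mul_inv_cancel₀ hM0.ne']
    _ ≤ 3 := by linarith [Real.exp_one_lt_d9]

theorem lower_bound {M : ℕ} {h : MetricData 2} (hn : IsNeg h) (hM : 1 ≤ M)
    {rx ry R0 : ℝ} (hrx : 0 < rx) (hry : 0 < ry) (hx : rx ^ M = R0)
    (hy : ry ^ (2 * M) = R0) (hR1 : R0 ≤ 1) {χ : ℂ → ℝ} {ω : ℝ → ℝ} {R C : ℝ}
    (hC : 0 < C) (hRR : 9 * R0 ≤ R)
    (hext : ∀ P : C2, ‖P‖ ≤ R → ∀ B h, ENNReal.ofReal (‖h‖ ^ 2) ≤ ENNReal.ofReal C *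
      ∫⁻ v in shell, ENNReal.ofReal (‖extr B h (jac (qq (0, 0)) (P, v)) v‖ ^ 2))
    (hχ : ContDiff ℝ 1 χ) (hωc : ContDiff ℝ 1 ω) (hχ2 : ∀ x, ‖x‖ ≤ 2 → χ x = 1)
    (hω : ∀ P v : C2, ‖P‖ ≤ R → v ∈ shell → ω (nsq (qq (0, 0) (P, v))) = 1) :
    ENNReal.ofReal (tm (0, 0) (uu h (0, 0)) rx ry) * ENNReal.ofReal (M * R0 ^ 2) *
        ENNReal.ofReal (4 * M * R0 ^ 2) ≤
      ENNReal.ofReal (8 * C) * ∫⁻ P, ENNReal.ofReal (FF h χ ω M P) := by
  have hR0 : 0 < R0 := hx ▸ pow_pos hrx M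
  have hM0 : (0 : ℝ) < M := by exact_mod_cast hM
  have hrx1 := le_one_of_pow hM hrx hx hR1
  have hry1 := le_one_of_pow (n := 2 * M) (by omega) hry hy hR1
  have hδ : (0 : ℝ) < (M : ℝ)⁻¹ := by positivity
  have hδ1 : (M : ℝ)⁻¹ ≤ 1 := inv_le_one_of_one_le₀ (by exact_mod_cast hM)
  let a : ℝ → ℝ≥0∞ := fun r => ENNReal.ofReal
    (if rx ≤ r ∧ r ≤ rx * (1 + (M : ℝ)⁻¹) then (M : ℝ) ^ 2 * r ^ (2 * M - 2) else 0)
  let b : ℝ → ℝ≥0∞ := fun r => ENNReal.ofReal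
    (if ry ≤ r ∧ r ≤ ry * (1 + (M : ℝ)⁻¹) then ((2 * M : ℕ) : ℝ) ^ 2 * r ^ (2 * (2 * M) - 2) else 0)
  have ha : Measurable a :=
    (Measurable.ite measurableSet_Icc (by fun_prop) measurable_const).ennreal_ofReal
  have hb : Measurable b :=
    (Measurable.ite measurableSet_Icc (by fun_prop) measurable_const).ennreal_ofReal
  have h1 := le_lintegral_polar (0, 0) (uu h (0, 0)) (hn.contDiff_uu _).continuous
    (fun p => (uu_pos h _ p (hn.posDef _ _)).le) a b ha hb (tm (0, 0) (uu h (0, 0)) rx ry)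
    (fun r s hr hs hra hsb => by
      refine tm_mono (0, 0) _ (hn.contDiff_uu _) (fun p => hn.lev_uu _ p _)
        (fun p => hn.lev_uu _ p _) hrx hr hry hs ?_ ?_
      · simp only [if_true]
        by_contra hne
        simp [a, hne] at hra
      · simp only [if_true]
        by_contra hne
        simp [b, hne] at hsb)
  have h2 := radial_good M hM rx _ hrx hδ
  have h3 := radial_good (2 * M) (by omega) ry _ hry hδ
  have e2 : (M : ℝ) ^ 2 * rx ^ (2 * M) * (M : ℝ)⁻¹ = M * R0 ^ 2 := by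
    rw [mul_comm 2 M, pow_mul, hx]; field_simp
  have e3 : ((2 * M : ℕ) : ℝ) ^ 2 * ry ^ (2 * (2 * M)) * (M : ℝ)⁻¹ = 4 * M * R0 ^ 2 := by
    rw [mul_comm 2 (2 * M), pow_mul, hy]; push_cast; field_simp; ring
  rw [e2] at h2
  rw [e3] at h3
  refine le_trans (le_trans (by gcongr) h1) ?_
  have hmeas : Measurable fun P : S => ENNReal.ofReal (FF h χ ω M P) := by
    have c2 : Continuous (jac (QM M)) :=
      (contDiff_jac _ ((contDiff_QM M).of_le two_le_inf)).continuous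
    have c3 := hn.contDiff_sqn (0, 0)
    have c4 : Continuous (fderiv ℝ (sqn h (0, 0))) := c3.continuous_fderiv (by norm_num)
    have c5 := (contDiff_kk hχ hωc M).continuous
    refine (Measurable.div (Continuous.measurable ?_) c3.continuous.measurable).ennreal_ofReal
    exact (c5.pow 2).mul (((c4.clm_apply c2).pow 2).add
      ((c4.clm_apply (c2.const_smul Complex.I)).pow 2))
  rw [Measure.volume_eq_prod, lintegral_prod _ hmeas.aemeasurable,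
    ← lintegral_const_mul' _ _ ENNReal.ofReal_ne_top]
  refine lintegral_mono fun p => ?_
  by_cases hpa : rx ≤ ‖p 0‖ ∧ ‖p 0‖ ≤ rx * (1 + (M : ℝ)⁻¹)
  swap
  · simp [a, hpa]
  by_cases hpb : ry ≤ ‖p 1‖ ∧ ‖p 1‖ ≤ ry * (1 + (M : ℝ)⁻¹)
  swap
  · simp [b, hpb]
  have h3e := one_add_inv_pow_le M hM
  have hup : ‖up M p‖ ≤ R := by
    refine (pi_norm_le_iff_of_nonneg (by linarith)).2 fun i => ?_
    fin_cases i
    · show ‖p 0 ^ M‖ ≤ R
      rw [norm_pow]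
      calc ‖p 0‖ ^ M ≤ (rx * (1 + (M : ℝ)⁻¹)) ^ M := by gcongr; exact hpa.2
        _ = R0 * (1 + (M : ℝ)⁻¹) ^ M := by rw [mul_pow, hx]
        _ ≤ R0 * 3 := by gcongr
        _ ≤ R := by linarith
    · show ‖p 1 ^ (2 * M)‖ ≤ R
      rw [norm_pow]
      calc ‖p 1‖ ^ (2 * M) ≤ (ry * (1 + (M : ℝ)⁻¹)) ^ (2 * M) := by gcongr; exact hpb.2
        _ = R0 * ((1 + (M : ℝ)⁻¹) ^ M) ^ 2 := by rw [mul_pow, hy, mul_comm 2 M, pow_mul]
        _ ≤ R0 * 3 ^ 2 := by gcongr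
        _ ≤ R := by linarith
  have := good_pt hn hC hext hχ2 hω p hup (by nlinarith [hpa.2]) (by nlinarith [hpb.2])
  refine le_trans (le_of_eq ?_) this
  simp only [a, b, hpa, hpb, and_self, if_true, tau_self]
  rw [← ENNReal.ofReal_mul (by positivity), ← ENNReal.ofReal_mul (by positivity)]
  congr 1
  simp only [norm_mul, norm_pow, Complex.norm_natCast, mul_pow, ← pow_mul]
  have f1 : (M - 1) * 2 = 2 * M - 2 := by omega
  have f2 : (2 * M - 1) * 2 = 2 * (2 * M) - 2 := by omega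
  rw [f1, f2]

theorem hasCompactSupport_kk {χ : ℂ → ℝ} {ω : ℝ → ℝ} {w3 : ℝ} (hχ3 : ∀ x, χ x ≠ 0 → ‖x‖ ≤ 3)
    (hω3 : ∀ t, ω t ≠ 0 → t ≤ w3) (M : ℕ) : HasCompactSupport (kk χ ω M) := by
  obtain ⟨c, hc, hle⟩ := qq_lower (3 ^ (2 * M))
  refine HasCompactSupport.intro (isCompact_closedBall (0 : S) (max 3 (Real.sqrt (Real.sqrt w3 / c))))
    fun P hP => ?_
  by_contra hne
  apply hP
  have h0 : χ (P.1 0) ≠ 0 := left_ne_zero_of_mul (left_ne_zero_of_mul hne)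
  have h1 : χ (P.1 1) ≠ 0 := right_ne_zero_of_mul (left_ne_zero_of_mul hne)
  have h2 := hω3 _ (right_ne_zero_of_mul hne)
  replace h0 := hχ3 _ h0
  replace h1 := hχ3 _ h1
  rw [mem_closedBall_zero_iff, Prod.norm_def]
  refine max_le_max ?_ ?_
  · refine (pi_norm_le_iff_of_nonneg (by norm_num)).2 fun i => ?_
    fin_cases i
    · exact h0
    · exact h1
  · have hup : ‖up M P.1‖ ≤ 3 ^ (2 * M) := by
      refine (pi_norm_le_iff_of_nonneg (by positivity)).2 fun i => ?_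
      fin_cases i
      · show ‖P.1 0 ^ M‖ ≤ _
        rw [norm_pow]
        calc ‖P.1 0‖ ^ M ≤ 3 ^ M := by gcongr
          _ ≤ 3 ^ (2 * M) := pow_le_pow_right₀ (by norm_num) (by omega)
      · show ‖P.1 1 ^ (2 * M)‖ ≤ _
        rw [norm_pow]
        gcongr
    have h3 := hle (0, 0) (up M P.1) P.2 hup
    have h4 : ‖QM M P‖ ≤ Real.sqrt w3 := Real.le_sqrt_of_sq_le ((norm_sq_le_nsq _).trans h2)
    apply Real.le_sqrt_of_sq_le
    rw [le_div_iff₀ hc, mul_comm]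
    exact h3.trans h4

theorem core
    (hinj : ∀ B h, (∀ v ∈ shell, extr B h (jac (qq (0, 0)) (0, v)) v = 0) → B = 0 ∧ h = 0) :
    ∃ M : ℕ, 1 ≤ M ∧ ∀ h : MetricData 2, IsNeg h → ¬ Compat M h := by
  have cj : ∀ α, Continuous (jac (qq α)) := fun α =>
    (contDiff_jac _ ((contDiff_qq α).of_le two_le_inf)).continuous
  obtain ⟨R, C, hR, hC, hext⟩ := extr_bound (jac (qq (0, 0))) (cj _) hinj
  set R0 : ℝ := min (R / 9) 1 with hR0def
  have hR0 : 0 < R0 := lt_min (by positivity) one_pos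
  have hR1 : R0 ≤ 1 := min_le_right _ _
  have hRR : 9 * R0 ≤ R := by
    have : R0 ≤ R / 9 := min_le_left _ _
    linarith
  obtain ⟨c1, hc1, hlow1⟩ := qq_lower R
  obtain ⟨C2', hC2, hup2⟩ := bound_on_balls qq continuous_qq R 2
  obtain ⟨ω, hωc, hω1, hωeq, hω3⟩ := exists_omega (c1 ^ 2) (max (c1 ^ 2) (3 * C2' ^ 2))
    (by positivity) (le_max_left _ _)
  set w3 : ℝ := 2 * max (c1 ^ 2) (3 * C2' ^ 2)
  obtain ⟨χ, K, hK, hχ, hχ1, hχ2, hχ3, hχK⟩ := exists_chi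
  obtain ⟨c, hc, hlow⟩ := qq_lower R0⁻¹
  set ρ1 : ℝ := Real.sqrt (Real.sqrt w3 / c)
  have hρ1 : ∀ (α : Chart) (P v : C2), ‖P‖ ≤ R0⁻¹ → nsq (qq α (P, v)) ≤ w3 → ‖v‖ ≤ ρ1 := by
    intro α P v hP hv
    have h4 : ‖qq α (P, v)‖ ≤ Real.sqrt w3 := Real.le_sqrt_of_sq_le ((norm_sq_le_nsq _).trans hv)
    apply Real.le_sqrt_of_sq_le
    rw [le_div_iff₀ hc, mul_comm]
    exact (hlow α P v hP).trans h4
  obtain ⟨CV, hCV0, hCV⟩ := bound_on_balls (fun α => jac (qq α)) cj R0⁻¹ ρ1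
  obtain ⟨CN, hCN0, hCN⟩ := exists_CN R0 hR0
  have hω : ∀ P v : C2, ‖P‖ ≤ R → v ∈ shell → ω (nsq (qq (0, 0) (P, v))) = 1 := by
    intro P v hP hv
    apply hωeq
    · refine le_trans ?_ (norm_sq_le_nsq _)
      have h1 := hlow1 (0, 0) P v hP
      have h2 : 1 ≤ ‖v‖ ^ 2 := one_le_pow₀ hv.1.le
      gcongr
      nlinarith
    · refine le_trans ((nsq_le _).trans ?_) (le_max_right _ _)
      gcongr
      exact hup2 (0, 0) P v hP hv.2.le
  set C5 : ℝ := 162 * CV ^ 2 * ρ1 ^ 2 * (volume (Metric.closedBall (0 : C2) ρ1)).toReal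
  have hC5 : 0 ≤ C5 := by positivity
  set L : ℝ := 8 * C * (4 * (4 * K ^ 2 * (C5 * (4 * (4 * (R0⁻¹ * CN) ^ 2 * 3 * (2 * R0⁻¹ ^ 2))))))
  have hL : 0 ≤ L := by positivity
  obtain ⟨M, hM⟩ := exists_nat_gt (L / (4 * R0 ^ 4))
  have hM0 : (0 : ℝ) < M := lt_of_le_of_lt (by positivity) hM
  have hM1 : 1 ≤ M := by exact_mod_cast hM0
  refine ⟨M, hM1, fun h hn hcomp => ?_⟩
  obtain ⟨rx, hrx, hx⟩ : ∃ r : ℝ, 0 < r ∧ r ^ M = R0 :=
    ⟨R0 ^ ((M : ℝ)⁻¹), Real.rpow_pos_of_pos hR0 _, Real.rpow_inv_natCast_pow hR0.le (by omega)⟩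
  obtain ⟨ry, hry, hy⟩ : ∃ r : ℝ, 0 < r ∧ r ^ (2 * M) = R0 :=
    ⟨R0 ^ (((2 * M : ℕ) : ℝ)⁻¹), Real.rpow_pos_of_pos hR0 _,
      Real.rpow_inv_natCast_pow hR0.le (by omega)⟩
  have hlo := lower_bound hn hM1 hrx hry hx hy hR1 hC hRR hext hχ hωc hχ2 hω
  have hhi := upper_bound hn hcomp hM1 hrx hry hx hy hR1 hCN hρ1 hCV hχ hωc hχ1 hχ3 hχK hω1
    (fun t ht => (hω3 t ht).2)
  have hv : ∀ P : S, kk χ ω M P ≠ 0 → P.2 ≠ 0 := by
    intro P hP h0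
    have h2 := (hω3 _ (right_ne_zero_of_mul hP)).1
    have : QM M P = 0 := by
      have := qq_smul (0, 0) (up M P.1) 0 0
      simpa [QM, h0] using this
    rw [this] at h2
    simp [nsq] at h2
  have hibp := ibp_main (sqn h (0, 0)) (kk χ ω M) (jac (QM M)) (hn.contDiff_sqn _)
    (contDiff_kk hχ hωc M) (hasCompactSupport_kk hχ3 (fun t ht => (hω3 t ht).2) M)
    (contDiff_jac _ ((contDiff_QM M).of_le two_le_inf))
    (cdiv_jac _ ((contDiff_QM M).of_le two_le_inf))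
    (fun P => sqn_nonneg h _ P.1 P.2 (hn.posDef _ _))
    (fun P hP => sqn_pos h _ P.1 P.2 (hn.posDef _ _) (hv P hP))
    (fun P hP c => hn.levi _ P _ c (hv P hP))
  set m0 := tm (0, 0) (uu h (0, 0)) rx ry
  have hm0 : 0 < m0 := tm_pos _ _ (hn.contDiff_uu _).continuous
    (fun p => uu_pos h _ p (hn.posDef _ _)) hrx hry
  have hfin : ENNReal.ofReal (m0 * (M * R0 ^ 2) * (4 * M * R0 ^ 2)) ≤ ENNReal.ofReal (L * m0 * M) := by
    rw [ENNReal.ofReal_mul (by positivity), ENNReal.ofReal_mul (by positivity)]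
    refine hlo.trans ?_
    refine le_trans (mul_le_mul_right (hibp.trans (mul_le_mul_right hhi _)) _) (le_of_eq ?_)
    have e4 : (4 : ℝ≥0∞) = ENNReal.ofReal 4 := by simp
    rw [e4]
    repeat rw [← ENNReal.ofReal_mul (by positivity)]
    congr 1
    simp only [L]
    ring
  rw [ENNReal.ofReal_le_ofReal_iff (by positivity)] at hfin
  rw [div_lt_iff₀ (by positivity)] at hM
  have : 0 < m0 * M := by positivity
  nlinarith

end Crest.Agent.R258
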