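import Crest.Agent.R258.Jac

/-!
The explicit algebraic data: a nowhere vanishing triple `ℓ` of forms of bidegree `(4,1)`,
frames of its kernel bundle in the four charts, and three quadrics without common zero.
-/

set_option autoImplicit false

noncomputable section

namespace Crest.Agent.R258

open Crest.AlgGeometry.QuadricBundle MeasureTheory Matrix
open scoped ComplexConjugate ComplexOrder ENNReal

abbrev C3 : Type := Fin 3 → ℂ

def pv (a : Fin 2) (X : ℂ) : C3 := if a = 0 then ![1, X ^ 4, X] else ![X ^ 4, 1, X ^ 3]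
def qv (a : Fin 2) (X : ℂ) : C3 :=
  if a = 0 then ![X ^ 2, -1, X ^ 3 + X ^ 4] else ![X ^ 2, -X ^ 4, X + 1]
def sv (a : Fin 2) (X : ℂ) : C3 := if a = 0 then ![0, X ^ 2, -1] else ![1 - X, X ^ 3, -1]
def mu (b : Fin 2) (Y : ℂ) : ℂ := if b = 0 then 1 else Y
def nu (b : Fin 2) (Y : ℂ) : ℂ := if b = 0 then Y else 1

def ell (α : Chart) (P : C2) : C3 := mu α.2 (P 1) • pv α.1 (P 0) + nu α.2 (P 1) • qv α.1 (P 0)
def rv (α : Chart) (P : C2) : C3 := if α.2 = 0 then -qv α.1 (P 0) else pv α.1 (P 0)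

def cr (u w : C3) : C3 := ![u 1 * w 2 - u 2 * w 1, u 2 * w 0 - u 0 * w 2, u 0 * w 1 - u 1 * w 0]

def Um (α : Chart) (P : C2) : Matrix (Fin 3) (Fin 2) ℂ :=
  Matrix.of fun i j => ![cr (rv α P) (ell α P) i, cr (ell α P) (sv α.1 (P 0)) i] j
def Lm (α : Chart) (P : C2) : Matrix (Fin 2) (Fin 3) ℂ := Matrix.of ![sv α.1 (P 0), rv α P]

theorem chart_cases (α : Chart) : α = (0, 0) ∨ α = (0, 1) ∨ α = (1, 0) ∨ α = (1, 1) := by
  rcases α with ⟨a, b⟩
  fin_cases a <;> fin_cases b <;> simp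

theorem det_one (α : Chart) (P : C2) : sv α.1 (P 0) ⬝ᵥ cr (rv α P) (ell α P) = 1 := by
  rcases chart_cases α with rfl | rfl | rfl | rfl <;>
    simp [sv, rv, ell, cr, pv, qv, mu, nu, dotProduct, Fin.sum_univ_three] <;> ring

theorem Um_mulVec (α : Chart) (P v : C2) :
    Um α P *ᵥ v = v 0 • cr (rv α P) (ell α P) + v 1 • cr (ell α P) (sv α.1 (P 0)) := by
  ext i
  simp only [Um, mulVec, dotProduct, Fin.sum_univ_two, Matrix.of_apply, Matrix.cons_val_zero,
    Matrix.cons_val_one, Pi.add_apply, Pi.smul_apply, smul_eq_mul]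
  ring

theorem Lm_mulVec (α : Chart) (P : C2) (z : C3) :
    Lm α P *ᵥ z = ![sv α.1 (P 0) ⬝ᵥ z, rv α P ⬝ᵥ z] := by
  ext i
  fin_cases i <;> rfl

theorem LU_vec (α : Chart) (P v : C2) : Lm α P *ᵥ (Um α P *ᵥ v) = v := by
  have h := det_one α P
  rw [Um_mulVec, Lm_mulVec]
  generalize sv α.1 (P 0) = s at *
  generalize rv α P = r at *
  generalize ell α P = l at *
  simp only [dotProduct, Fin.sum_univ_three, cr, Matrix.cons_val_zero, Matrix.cons_val_one,
    Matrix.cons_val] at h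
  ext i
  fin_cases i <;> simp [dotProduct, Fin.sum_univ_three, cr]
  · linear_combination v 0 * h
  · linear_combination v 1 * h

theorem LU (α : Chart) (P : C2) : Lm α P * Um α P = 1 := by
  apply Matrix.toLin'.injective
  apply LinearMap.ext
  intro c
  rw [Matrix.toLin'_apply, Matrix.toLin'_apply, ← Matrix.mulVec_mulVec, LU_vec, Matrix.one_mulVec]

theorem ell_U (α : Chart) (P v : C2) : ell α P ⬝ᵥ (Um α P *ᵥ v) = 0 := by
  rw [Um_mulVec]
  generalize sv α.1 (P 0) = s at *
  generalize rv α P = r at *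
  generalize ell α P = l at *
  simp [dotProduct, Fin.sum_univ_three, cr]
  ring

theorem UL (α : Chart) (P : C2) (z : C3) (hz : ell α P ⬝ᵥ z = 0) :
    Um α P *ᵥ (Lm α P *ᵥ z) = z := by
  have h := det_one α P
  rw [Lm_mulVec, Um_mulVec]
  generalize sv α.1 (P 0) = s at *
  generalize rv α P = r at *
  generalize ell α P = l at *
  simp only [dotProduct, Fin.sum_univ_three, cr, Matrix.cons_val_zero, Matrix.cons_val_one,
    Matrix.cons_val] at h hz
  ext i
  fin_cases i <;> simp [dotProduct, Fin.sum_univ_three, cr]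
  · linear_combination z 0 * h - (s 1 * r 2 - s 2 * r 1) * hz
  · linear_combination z 1 * h - (s 2 * r 0 - s 0 * r 2) * hz
  · linear_combination z 2 * h - (s 0 * r 1 - s 1 * r 0) * hz

theorem tau_self (α : Chart) (P : C2) : tau α α P = P := by
  ext i; fin_cases i <;> simp [tau]

theorem tau_tau (α β γ : Chart) (P : C2) : tau β γ (tau α β P) = tau α γ P := by
  rcases α with ⟨a, b⟩; rcases β with ⟨a', b'⟩; rcases γ with ⟨a'', b''⟩
  ext i
  fin_cases i
  · fin_cases a <;> fin_cases a' <;> fin_cases a'' <;> simp [tau]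
  · fin_cases b <;> fin_cases b' <;> fin_cases b'' <;> simp [tau]

theorem tau_mem (α β : Chart) (P : C2) (h : P ∈ overlap α β) : tau α β P ∈ overlap β α := by
  obtain ⟨h0, h1⟩ := h
  constructor
  · intro hne
    have := h0 (Ne.symm hne)
    simp [tau, Ne.symm hne, this]
  · intro hne
    have := h1 (Ne.symm hne)
    simp [tau, Ne.symm hne, this]

theorem ell_tau (α β : Chart) (P : C2) (h : P ∈ overlap α β) :
    ell β (tau α β P) = lineTrans (-4) (-1) α β P • ell α P := by
  obtain ⟨h0, h1⟩ := h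
  rcases chart_cases α with rfl | rfl | rfl | rfl <;>
  rcases chart_cases β with rfl | rfl | rfl | rfl <;>
  simp at h0 h1 <;>
  ext i <;> fin_cases i <;> simp [ell, tau, lineTrans, pv, qv, mu, nu] <;> field_simp

/-- the bilinear syzygies -/
def lam (z : C3) (c0 c1 c2 c3 c4 : ℂ) : C3 :=
  ![c0 * z 2 - c1 * z 0 + c3 * z 1, (c4 - c3) * z 2 - c1 * z 1, c2 * z 2 - c3 * z 0]

/-- the three quadrics in terms of the pencil coordinates `(m, n)` -/
def qa (a : Fin 2) (X m n : ℂ) (z : C3) : C3 :=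
  if a = 0 then
    lam z (m * z 2 + X * (n * z 0 + X * (n * z 2 + X * (m * z 1 + n * z 2))))
      (n * z 0 + X * (n * z 2 + X * (m * z 1 + n * z 2))) (n * z 2 + X * (m * z 1 + n * z 2))
      (m * z 1 + n * z 2) 0
  else
    -lam z 0 (m * z 0 - n * z 1) (m * z 2 + X * (m * z 0 - n * z 1))
      (n * z 0 + X * (m * z 2 + X * (m * z 0 - n * z 1)))
      (n * z 2 + X * (n * z 0 + X * (m * z 2 + X * (m * z 0 - n * z 1))))

def qz (α : Chart) (P : C2) (z : C3) : C3 := qa α.1 (P 0) (mu α.2 (P 1)) (nu α.2 (P 1)) z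

theorem qa_inv (X X' m n : ℂ) (hX : X * X' = 1) (z : C3)
    (hE : (m • pv 0 X + n • qv 0 X) ⬝ᵥ z = 0) : qa 1 X' m n z = X ^ 2 • qa 0 X m n z := by
  simp [pv, qv, dotProduct, Fin.sum_univ_three] at hE
  ext i
  fin_cases i <;> simp [qa, lam] <;> grind

theorem bilin (z0 z1 z2 r0 r1 r2 r3 : ℂ) (E1 : r0 * z2 - r1 * z0 + r3 * z1 = 0)
    (E2 : -r3 * z2 - r1 * z1 = 0) (E3 : r2 * z2 - r3 * z0 = 0) (E4 : -r0 * z0 + r2 * z1 = 0)
    (E5 : (r3 - r2) * z2 - r0 * z1 = 0) (E6 : r1 * z2 - r2 * z0 = 0) :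
    (z0 = 0 ∧ z1 = 0 ∧ z2 = 0) ∨ (r0 = 0 ∧ r1 = 0 ∧ r2 = 0 ∧ r3 = 0) := by
  grind

theorem qa_scale (a : Fin 2) (X m n t : ℂ) (z : C3) :
    qa a X (t * m) (t * n) z = t • qa a X m n z := by
  ext i
  fin_cases a <;> fin_cases i <;> simp [qa, lam] <;> ring

theorem qa_smul (a : Fin 2) (X m n t : ℂ) (z : C3) :
    qa a X m n (t • z) = t ^ 2 • qa a X m n z := by
  ext i
  fin_cases a <;> fin_cases i <;> simp [qa, lam] <;> ring

theorem qa_quad (a : Fin 2) (X m n s t : ℂ) (u w : C3) :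
    qa a X m n (s • u + t • w) = s ^ 2 • qa a X m n u
      + (s * t) • (qa a X m n (u + w) - qa a X m n u - qa a X m n w) + t ^ 2 • qa a X m n w := by
  ext i
  fin_cases a <;> fin_cases i <;> simp [qa, lam] <;> ring

theorem qa_x (a a' : Fin 2) (X m n : ℂ) (hX : a ≠ a' → X ≠ 0) (z : C3)
    (hE : (m • pv a X + n • qv a X) ⬝ᵥ z = 0) :
    qa a X m n z = (if a = a' then 1 else X ^ (-2 : ℤ)) • qa a' (if a = a' then X else X⁻¹) m n z := by
  by_cases h : a = a'
  · subst h; simp
  replace hX : X ≠ 0 := hX h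
  simp only [h, if_false]
  fin_cases a <;> fin_cases a' <;> simp at h
  · have := qa_inv X X⁻¹ m n (mul_inv_cancel₀ hX) z hE
    simp only [Fin.zero_eta, Fin.mk_one] at *
    rw [this, smul_smul]
    have : X ^ (-2 : ℤ) * X ^ 2 = 1 := by field_simp
    rw [this, one_smul]
  · have hE' : (m • pv 0 X⁻¹ + n • qv 0 X⁻¹) ⬝ᵥ z = 0 := by
      have : m • pv 0 X⁻¹ + n • qv 0 X⁻¹ = (X⁻¹ ^ 4) • (m • pv 1 X + n • qv 1 X) := by
        ext i; fin_cases i <;> simp [pv, qv] <;> field_simp
      simp only [Fin.mk_one] at *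
      rw [this, smul_dotProduct, hE, smul_zero]
    have := qa_inv X⁻¹ X m n (inv_mul_cancel₀ hX) z hE'
    simp only [Fin.zero_eta, Fin.mk_one] at *
    rw [this]
    congr 1
    field_simp

theorem munu (b b' : Fin 2) (Y : ℂ) (hY : b ≠ b' → Y ≠ 0) :
    mu b Y = (if b = b' then 1 else Y ^ (1 : ℤ)) * mu b' (if b = b' then Y else Y⁻¹) ∧
    nu b Y = (if b = b' then 1 else Y ^ (1 : ℤ)) * nu b' (if b = b' then Y else Y⁻¹) := by
  fin_cases b <;> fin_cases b' <;> simp [mu, nu] at * <;> field_simp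

theorem qz_tau (α β : Chart) (P : C2) (h : P ∈ overlap α β) (z : C3) (hz : ell α P ⬝ᵥ z = 0) :
    qz α P z = lineTrans (-2) 1 α β P • qz β (tau α β P) z := by
  obtain ⟨h0, h1⟩ := h
  obtain ⟨hm, hn⟩ := munu α.2 β.2 (P 1) h1
  unfold qz
  rw [qa_x α.1 β.1 (P 0) _ _ h0 z hz]
  conv_lhs => rw [hm, hn, qa_scale]
  simp only [lineTrans, tau, smul_smul, Matrix.cons_val_zero, Matrix.cons_val_one]

theorem qa_eq_zero (a : Fin 2) (X m n : ℂ) (hmn : m = 1 ∨ n = 1) (z : C3)
    (hE : (m • pv a X + n • qv a X) ⬝ᵥ z = 0) (hq : qa a X m n z = 0) : z = 0 := by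
  have h0 := congrFun hq 0
  have h1 := congrFun hq 1
  have h2 := congrFun hq 2
  have fin : z 0 = 0 ∧ z 1 = 0 ∧ z 2 = 0 → z = 0 := by
    rintro ⟨a0, a1, a2⟩
    ext i; fin_cases i <;> simp [a0, a1, a2]
  apply fin
  fin_cases a
  · simp [qa, lam, pv, qv, dotProduct, Fin.sum_univ_three] at h0 h1 h2 hE
    rcases bilin (z 0) (z 1) (z 2)
      (m * z 2 + X * (n * z 0 + X * (n * z 2 + X * (m * z 1 + n * z 2))))
      (n * z 0 + X * (n * z 2 + X * (m * z 1 + n * z 2))) (n * z 2 + X * (m * z 1 + n * z 2))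
      (m * z 1 + n * z 2) (by linear_combination h0) (by linear_combination h1)
      (by linear_combination h2) (by linear_combination X * h0 - z 2 * hE)
      (by linear_combination X * h1) (by linear_combination X * h2) with h | ⟨r0, r1, r2, r3⟩
    · exact h
    · rcases hmn with rfl | rfl <;> grind
  · simp [qa, lam, pv, qv, dotProduct, Fin.sum_univ_three] at h0 h1 h2 hE
    rcases bilin (z 0) (z 1) (z 2) (m * z 0 - n * z 1) (m * z 2 + X * (m * z 0 - n * z 1))
      (n * z 0 + X * (m * z 2 + X * (m * z 0 - n * z 1)))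
      (n * z 2 + X * (n * z 0 + X * (m * z 2 + X * (m * z 0 - n * z 1))))
      (by grind) (by grind) (by grind) (by grind) (by grind) (by grind) with h | ⟨r0, r1, r2, r3⟩
    · exact h
    · rcases hmn with rfl | rfl <;> grind

theorem qz_eq_zero (α : Chart) (P : C2) (z : C3) (hz : ell α P ⬝ᵥ z = 0) (hq : qz α P z = 0) :
    z = 0 := by
  refine qa_eq_zero α.1 (P 0) _ _ ?_ z hz hq
  by_cases h : α.2 = 0 <;> simp [mu, nu, h]

/-- the three quadrics on the total space, in the frame of chart `α` -/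
def qq (α : Chart) (P : S) : C3 := qz α P.1 (Um α P.1 *ᵥ P.2)

theorem qq_smul (α : Chart) (P v : C2) (t : ℂ) : qq α (P, t • v) = t ^ 2 • qq α (P, v) := by
  simp only [qq, qz, Matrix.mulVec_smul, qa_smul]

theorem qq_ne_zero (α : Chart) (P v : C2) (hv : v ≠ 0) : qq α (P, v) ≠ 0 := by
  intro h
  have := qz_eq_zero α P _ (ell_U α P v) h
  apply hv
  rw [← LU_vec α P v, this, Matrix.mulVec_zero]

theorem qq_quad (α : Chart) (P v : C2) :
    qq α (P, v) = v 0 ^ 2 • qq α (P, ![1, 0])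
      + (v 0 * v 1) • (qq α (P, ![1, 1]) - qq α (P, ![1, 0]) - qq α (P, ![0, 1]))
      + v 1 ^ 2 • qq α (P, ![0, 1]) := by
  simp only [qq, qz, Um_mulVec, Matrix.cons_val_zero, Matrix.cons_val_one, one_smul, zero_smul,
    add_zero, zero_add]
  exact qa_quad _ _ _ _ _ _ _ _

theorem contDiff_Um (α : Chart) (i : Fin 3) (j : Fin 2) :
    ContDiff ℂ (⊤ : ℕ∞) (fun P : C2 => Um α P i j) := by
  rcases chart_cases α with rfl | rfl | rfl | rfl <;> fin_cases i <;> fin_cases j <;>
    simp [Um, sv, rv, ell, cr, pv, qv, mu, nu] <;> fun_prop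

theorem contDiff_Lm (α : Chart) (i : Fin 2) (j : Fin 3) :
    ContDiff ℂ (⊤ : ℕ∞) (fun P : C2 => Lm α P i j) := by
  rcases chart_cases α with rfl | rfl | rfl | rfl <;> fin_cases i <;> fin_cases j <;>
    simp [Lm, sv, rv, pv, qv] <;> fun_prop

theorem contDiff_qz (α : Chart) :
    ContDiff ℂ (⊤ : ℕ∞) (fun P : C2 × C3 => qz α P.1 P.2) := by
  refine contDiff_pi.2 fun i => ?_
  rcases chart_cases α with rfl | rfl | rfl | rfl <;> fin_cases i <;>
    simp [qz, qa, lam, mu, nu] <;> fun_prop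

theorem contDiff_qq (α : Chart) : ContDiff ℂ (⊤ : ℕ∞) (qq α) := by
  have h : ContDiff ℂ (⊤ : ℕ∞) (fun P : S => (P.1, Um α P.1 *ᵥ P.2)) := by
    refine contDiff_fst.prodMk (contDiff_pi.2 fun i => ?_)
    simp only [Matrix.mulVec, dotProduct, Fin.sum_univ_two]
    have := fun j => (contDiff_Um α i j).comp (contDiff_fst (E := C2) (F := C2))
    exact ((this 0).mul (by fun_prop)).add ((this 1).mul (by fun_prop))
  have h2 := (contDiff_qz α).comp h
  unfold qq
  simpa only [Function.comp_def] using h2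

/-- transition of the frame coordinates on the kernel bundle -/
def Nm (α β : Chart) (P : C2) : Matrix (Fin 2) (Fin 2) ℂ := Lm β (tau α β P) * Um α P

theorem U_Nm (α β : Chart) (P : C2) (h : P ∈ overlap α β) (v : C2) :
    Um β (tau α β P) *ᵥ (Nm α β P *ᵥ v) = Um α P *ᵥ v := by
  rw [Nm, ← Matrix.mulVec_mulVec, UL]
  rw [ell_tau α β P h, smul_dotProduct, ell_U, smul_zero]

theorem Nm_mul (α β γ : Chart) (P : C2) (h : P ∈ overlap α β) :
    Nm β γ (tau α β P) * Nm α β P = Nm α γ P := by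
  apply Matrix.toLin'.injective
  apply LinearMap.ext
  intro v
  rw [Matrix.toLin'_apply, Matrix.toLin'_apply, ← Matrix.mulVec_mulVec]
  conv_lhs => rw [Nm, ← Matrix.mulVec_mulVec, U_Nm α β P h, tau_tau]
  rw [Nm, ← Matrix.mulVec_mulVec]

theorem Nm_self (α : Chart) (P : C2) : Nm α α P = 1 := by
  rw [Nm, tau_self, LU]

theorem qq_tau (α β : Chart) (P : C2) (h : P ∈ overlap α β) (v : C2) :
    qq α (P, v) = lineTrans (-2) 1 α β P • qq β (tau α β P, Nm α β P *ᵥ v) := by
  simp only [qq]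
  rw [U_Nm α β P h, qz_tau α β P h _ (ell_U α P v)]

theorem differentiableOn_tau (α β : Chart) : DifferentiableOn ℂ (tau α β) (overlap α β) := by
  refine differentiableOn_pi.2 fun i => ?_
  fin_cases i
  · show DifferentiableOn ℂ (fun p : C2 => if α.1 = β.1 then p 0 else (p 0)⁻¹) _
    by_cases h : α.1 = β.1
    · simp only [h, if_true]; fun_prop
    · simp only [h, if_false]
      exact DifferentiableOn.inv (by fun_prop) fun p hp => hp.1 h
  · show DifferentiableOn ℂ (fun p : C2 => if α.2 = β.2 then p 1 else (p 1)⁻¹) _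
    by_cases h : α.2 = β.2
    · simp only [h, if_true]; fun_prop
    · simp only [h, if_false]
      exact DifferentiableOn.inv (by fun_prop) fun p hp => hp.2 h

theorem differentiableOn_Nm (α β : Chart) (i j : Fin 2) :
    DifferentiableOn ℂ (fun P => Nm α β P i j) (overlap α β) := by
  simp only [Nm, Matrix.mul_apply]
  refine DifferentiableOn.fun_sum fun k _ => DifferentiableOn.mul ?_ ?_
  · exact ((contDiff_Lm β i k).differentiable (by simp)).comp_differentiableOn
      (differentiableOn_tau α β)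
  · exact ((contDiff_Um α k j).differentiable (by simp)).differentiableOn

theorem differentiableOn_lineTrans (r t : ℤ) (α β : Chart) :
    DifferentiableOn ℂ (lineTrans r t α β) (overlap α β) := by
  unfold lineTrans
  refine DifferentiableOn.mul ?_ ?_
  · by_cases h : α.1 = β.1
    · simp only [h, if_true]; fun_prop
    · simp only [h, if_false]
      exact DifferentiableOn.zpow (by fun_prop) (Or.inl fun p hp => hp.1 h)
  · by_cases h : α.2 = β.2
    · simp only [h, if_true]; fun_prop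
    · simp only [h, if_false]
      exact DifferentiableOn.zpow (by fun_prop) (Or.inl fun p hp => hp.2 h)

theorem lineTrans_mul (r t r' t' : ℤ) (α β : Chart) (p : C2) (h : p ∈ overlap α β) :
    lineTrans r t α β p * lineTrans r' t' α β p = lineTrans (r + r') (t + t') α β p := by
  obtain ⟨h0, h1⟩ := h
  unfold lineTrans
  by_cases ha : α.1 = β.1 <;> by_cases hb : α.2 = β.2 <;> simp only [ha, hb, if_true, if_false]
  · simp
  · rw [zpow_add₀ (h1 hb)]; ring
  · rw [zpow_add₀ (h0 ha)]; ring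
  · rw [zpow_add₀ (h1 hb), zpow_add₀ (h0 ha)]; ring

theorem lineTrans_cocycle (r t : ℤ) (α β γ : Chart) (p : C2) (h : p ∈ overlap α β) :
    lineTrans r t α β p * lineTrans r t β γ (tau α β p) = lineTrans r t α γ p := by
  obtain ⟨h0, h1⟩ := h
  rcases chart_cases α with rfl | rfl | rfl | rfl <;>
  rcases chart_cases β with rfl | rfl | rfl | rfl <;>
  rcases chart_cases γ with rfl | rfl | rfl | rfl <;>
  simp at h0 h1 <;> simp [lineTrans, tau] <;> field_simp

theorem lineTrans_zero (α β : Chart) (p : C2) : lineTrans 0 0 α β p = 1 := by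
  simp [lineTrans]

theorem lineTrans_self (r t : ℤ) (α : Chart) (p : C2) : lineTrans r t α α p = 1 := by
  simp [lineTrans]

theorem lineTrans_tau (r t : ℤ) (α β : Chart) (p : C2) :
    lineTrans r t β α (tau α β p) = lineTrans (-r) (-t) α β p := by
  rcases chart_cases α with rfl | rfl | rfl | rfl <;>
  rcases chart_cases β with rfl | rfl | rfl | rfl <;> simp [lineTrans, tau]

/-- the finite map `(x, y) ↦ (x ^ M, y ^ (2 M))` in every chart -/
def up (M : ℕ) (p : C2) : C2 := ![p 0 ^ M, p 1 ^ (2 * M)]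

/-- the transition matrices of the counterexample -/
def gM (M : ℕ) : Transition 2 := fun α β p =>
  lineTrans (1 - (M : ℤ)) ((M : ℤ) + 1) α β p • (Nm α β (up M p)).transpose

theorem up_tau (M : ℕ) (α β : Chart) (p : C2) : up M (tau α β p) = tau α β (up M p) := by
  ext i
  fin_cases i
  · by_cases h : α.1 = β.1 <;> simp [up, tau, h]
  · by_cases h : α.2 = β.2 <;> simp [up, tau, h]

theorem up_mem (M : ℕ) (α β : Chart) (p : C2) (h : p ∈ overlap α β) : up M p ∈ overlap α β :=
  ⟨fun hne => pow_ne_zero _ (h.1 hne), fun hne => pow_ne_zero _ (h.2 hne)⟩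

theorem lineTrans_up (M : ℕ) (r t : ℤ) (α β : Chart) (p : C2) :
    lineTrans r t α β (up M p) = lineTrans (M * r) (2 * M * t) α β p := by
  unfold lineTrans
  congr 1
  · by_cases h : α.1 = β.1
    · simp [h]
    · simp only [h, if_false, up, Matrix.cons_val_zero]
      rw [← zpow_natCast, ← _root_.zpow_mul]
  · by_cases h : α.2 = β.2
    · simp [h]
    · simp only [h, if_false, up, Matrix.cons_val_one, Matrix.cons_val_zero]
      rw [← zpow_natCast, ← _root_.zpow_mul]
      push_cast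
      rfl

theorem contDiff_up (M : ℕ) : ContDiff ℂ (⊤ : ℕ∞) (up M) := by
  refine contDiff_pi.2 fun i => ?_
  fin_cases i
  · show ContDiff ℂ _ (fun p : C2 => p 0 ^ M)
    fun_prop
  · show ContDiff ℂ _ (fun p : C2 => p 1 ^ (2 * M))
    fun_prop

end Crest.Agent.R258
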