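import Mathlib
import Crest.Prelude.Def_QuadricBundle

/-!
Definitions shared by the files proving statement S0396 (row 258).
-/

set_option autoImplicit false

noncomputable section

namespace Crest.Agent.R258

open Crest.AlgGeometry.QuadricBundle MeasureTheory
open scoped ComplexConjugate ComplexOrder

/-- the coordinate plane of a chart, and also the fibre of a rank two bundle in a frame -/
abbrev C2 : Type := Fin 2 → ℂ

/-- total space of a rank two bundle over a chart: (base point, fibre coordinates) -/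
abbrev S : Type := C2 × C2

/-- four times the Levi form of `F` at `P` in the complex direction `ζ` -/
def lev {E : Type} [NormedAddCommGroup E] [NormedSpace ℂ E] (F : E → ℝ) (P ζ : E) : ℝ :=
  fderiv ℝ (fderiv ℝ F) P ζ ζ + fderiv ℝ (fderiv ℝ F) P (Complex.I • ζ) (Complex.I • ζ)

/-- the four coordinate directions of `S` -/
def ex : S := (Pi.single 0 1, 0)
def ey : S := (Pi.single 1 1, 0)
def e0 : S := (0, Pi.single 0 1)
def e1 : S := (0, Pi.single 1 1)

/-- complex divergence of a holomorphic vector field on `S` -/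
def cdiv (V : S → S) (P : S) : ℂ :=
  (fderiv ℂ V P ex).1 0 + (fderiv ℂ V P ey).1 1 + (fderiv ℂ V P e0).2 0 + (fderiv ℂ V P e1).2 1

/-- determinant of three vectors of `ℂ³` -/
def det3 (a b c : Fin 3 → ℂ) : ℂ :=
  a 0 * (b 1 * c 2 - b 2 * c 1) - a 1 * (b 0 * c 2 - b 2 * c 0) + a 2 * (b 0 * c 1 - b 1 * c 0)

/-- the Jacobian vector field of a holomorphic map `S → ℂ³` (it spans the kernel of the derivative) -/
def jac (Q : S → Fin 3 → ℂ) (P : S) : S :=
  (![det3 (fderiv ℂ Q P ey) (fderiv ℂ Q P e0) (fderiv ℂ Q P e1),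
     -det3 (fderiv ℂ Q P ex) (fderiv ℂ Q P e0) (fderiv ℂ Q P e1)],
   ![det3 (fderiv ℂ Q P ex) (fderiv ℂ Q P ey) (fderiv ℂ Q P e1),
     -det3 (fderiv ℂ Q P ex) (fderiv ℂ Q P ey) (fderiv ℂ Q P e0)])

/-- the squared norm of the metric data `h` in chart `α`, as a function on the total space -/
def sqn (h : MetricData 2) (α : Chart) (P : S) : ℝ := hNormSq h α P.1 P.2

/-- `h` is a smooth positive Hermitian form in each chart whose squared norm has a
plurisubharmonic logarithm off the zero section (semi-negative curvature). -/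
structure IsNeg (h : MetricData 2) : Prop where
  smooth : ∀ α (i j : Fin 2), ContDiff ℝ (⊤ : ℕ∞) (fun p => h α p i j)
  posDef : ∀ α p, (h α p).PosDef
  levi : ∀ (α : Chart) (P ζ : S) (c : ℂ), P.2 ≠ 0 →
    0 ≤ lev (sqn h α) P ζ
      + 4 * (c.re * fderiv ℝ (sqn h α) P ζ - c.im * fderiv ℝ (sqn h α) P (Complex.I • ζ))
      + 4 * Complex.normSq c * sqn h α P

/-- the metric on the dual bundle -/
def dualM (H : MetricData 2) : MetricData 2 := fun α p => ((H α p).transpose)⁻¹

/-- double circle integral of `u` read in chart `α` over the torus `|x| = r, |y| = s` of the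
chart `(0,0)` -/
def tm (α : Chart) (u : C2 → ℝ) (r s : ℝ) : ℝ :=
  ∫ θ in (-Real.pi)..Real.pi, ∫ φ in (-Real.pi)..Real.pi,
    u (tau (0, 0) α ![circleMap 0 r θ, circleMap 0 s φ])

/-- the open shell `1 < ‖v‖ < 2` in the fibre -/
def shell : Set C2 := {v | 1 < ‖v‖ ∧ ‖v‖ < 2}

/-- `B(ξ; v, v̄) + h(w, v̄)` for the vector `ζ = (ξ, w)` -/
def extr (B : Fin 2 → Fin 2 → Fin 2 → ℂ) (h : Fin 2 → Fin 2 → ℂ) (ζ : S) (v : C2) : ℂ :=
  ∑ i, ∑ j, ∑ k, ζ.1 i * B i j k * v j * conj (v k) + ∑ j, ∑ k, h j k * ζ.2 j * conj (v k)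

/-- `Q` is a global section of `Symⁿ E ⊗ O(r, t)` -/
def IsSec (g : Transition 2) (n : ℕ) (r t : ℤ)
    (Q : Chart → C2 → MvPolynomial (Fin 2) ℂ) : Prop :=
  (∀ α p, (Q α p).IsHomogeneous n) ∧
  (∀ α (m : Fin 2 →₀ ℕ), Differentiable ℂ (fun p => MvPolynomial.coeff m (Q α p))) ∧
  ∀ α β, ∀ p ∈ overlap α β,
    Q α p = lineTrans r t α β p • frameSubst (g α β p) (Q β (tau α β p))

end Crest.Agent.R258

end
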