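import Crest.Agent.R258.Defs

/-!
The Jacobian vector field of a holomorphic map `ℂ⁴ → ℂ³`.
-/

set_option autoImplicit false

noncomputable section

namespace Crest.Agent.R258

open Crest.AlgGeometry.QuadricBundle MeasureTheory
open scoped ComplexConjugate ComplexOrder ENNReal

theorem S_decomp (ζ : S) : ζ = ζ.1 0 • ex + ζ.1 1 • ey + ζ.2 0 • e0 + ζ.2 1 • e1 := by
  ext i <;> fin_cases i <;> simp [ex, ey, e0, e1]

theorem clm_apply_S {F : Type} [NormedAddCommGroup F] [NormedSpace ℂ F] (L : S →L[ℂ] F) (ζ : S) :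
    L ζ = ζ.1 0 • L ex + ζ.1 1 • L ey + ζ.2 0 • L e0 + ζ.2 1 • L e1 := by
  conv_lhs => rw [S_decomp ζ]
  simp only [map_add, map_smul]

theorem fderiv_jac (Q : S → Fin 3 → ℂ) (P : S) : fderiv ℂ Q P (jac Q P) = 0 := by
  rw [clm_apply_S]
  ext i
  fin_cases i <;> simp [jac, det3] <;> ring

/-- partial derivative of the `i`-th component -/
def pd (Q : S → Fin 3 → ℂ) (e : S) (i : Fin 3) (P : S) : ℂ := fderiv ℂ Q P e i

theorem contDiff_pd (Q : S → Fin 3 → ℂ) (hQ : ContDiff ℂ 2 Q) (e : S) (i : Fin 3) :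
    ContDiff ℂ 1 (pd Q e i) := by
  have h1 : ContDiff ℂ 1 (fderiv ℂ Q) := hQ.fderiv_right (by norm_num)
  have h2 : ContDiff ℂ 1 (fun P => fderiv ℂ Q P e) := h1.clm_apply contDiff_const
  exact (contDiff_apply ℂ ℂ i).comp h2

theorem contDiff_det3 (Q : S → Fin 3 → ℂ) (hQ : ContDiff ℂ 2 Q) (a b c : S) :
    ContDiff ℂ 1 (fun P => det3 (fderiv ℂ Q P a) (fderiv ℂ Q P b) (fderiv ℂ Q P c)) := by
  have h := contDiff_pd Q hQ
  show ContDiff ℂ 1 (fun P => pd Q a 0 P * (pd Q b 1 P * pd Q c 2 P - pd Q b 2 P * pd Q c 1 P)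
    - pd Q a 1 P * (pd Q b 0 P * pd Q c 2 P - pd Q b 2 P * pd Q c 0 P)
    + pd Q a 2 P * (pd Q b 0 P * pd Q c 1 P - pd Q b 1 P * pd Q c 0 P))
  exact (((h a 0).mul (((h b 1).mul (h c 2)).sub ((h b 2).mul (h c 1)))).sub
    ((h a 1).mul (((h b 0).mul (h c 2)).sub ((h b 2).mul (h c 0))))).add
    ((h a 2).mul (((h b 0).mul (h c 1)).sub ((h b 1).mul (h c 0))))

theorem contDiff_jac (Q : S → Fin 3 → ℂ) (hQ : ContDiff ℂ 2 Q) : ContDiff ℂ 1 (jac Q) := by
  have h := contDiff_det3 Q hQ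
  refine ContDiff.prodMk ?_ ?_
  · refine contDiff_pi.2 fun i => ?_
    fin_cases i
    · exact h _ _ _
    · exact (h _ _ _).neg
  · refine contDiff_pi.2 fun i => ?_
    fin_cases i
    · exact h _ _ _
    · exact (h _ _ _).neg

/-- second partial derivatives -/
def pdd (Q : S → Fin 3 → ℂ) (P a b : S) (i : Fin 3) : ℂ := fderiv ℂ (fderiv ℂ Q) P a b i

theorem pdd_symm (Q : S → Fin 3 → ℂ) (hQ : ContDiff ℂ 2 Q) (P a b : S) (i : Fin 3) :
    pdd Q P a b i = pdd Q P b a i := by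
  have h : IsSymmSndFDerivAt ℂ Q P := hQ.contDiffAt.isSymmSndFDerivAt (by simp)
  unfold pdd
  rw [h.eq a b]

theorem hasLineDerivAt_pd (Q : S → Fin 3 → ℂ) (hQ : ContDiff ℂ 2 Q) (P a e : S) (i : Fin 3) :
    HasDerivAt (fun t : ℂ => pd Q e i (P + t • a)) (pdd Q P a e i) 0 := by
  have h1 : ContDiff ℂ 1 (fderiv ℂ Q) := hQ.fderiv_right (by norm_num)
  have h2 : HasFDerivAt (fderiv ℂ Q) (fderiv ℂ (fderiv ℂ Q) P) (P + (0 : ℂ) • a) := by
    simpa using (h1.differentiable (by norm_num) P).hasFDerivAt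
  have h3 : HasDerivAt (fun t : ℂ => P + t • a) a 0 := by
    simpa using ((hasDerivAt_id (0 : ℂ)).smul_const a).const_add P
  have h4 := h2.comp_hasDerivAt (0 : ℂ) h3
  have h5 := h4.clm_apply (hasDerivAt_const (0 : ℂ) e)
  have h6 := (hasDerivAt_pi.1 h5) i
  simpa [pd, pdd] using h6

theorem fderiv_eq_of_line {F : Type} [NormedAddCommGroup F] [NormedSpace ℂ F] (f : S → F) (P a : S)
    (hf : DifferentiableAt ℂ f P) (d : F) (h : HasDerivAt (fun t : ℂ => f (P + t • a)) d 0) :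
    fderiv ℂ f P a = d := by
  have h2 : HasFDerivAt f (fderiv ℂ f P) (P + (0 : ℂ) • a) := by simpa using hf.hasFDerivAt
  have h3 : HasDerivAt (fun t : ℂ => P + t • a) a 0 := by
    simpa using ((hasDerivAt_id (0 : ℂ)).smul_const a).const_add P
  exact (h2.comp_hasDerivAt (0 : ℂ) h3).unique h

theorem hasDerivAt_det3 (Q : S → Fin 3 → ℂ) (hQ : ContDiff ℂ 2 Q) (P d a b c : S) :
    HasDerivAt (fun t : ℂ => det3 (fderiv ℂ Q (P + t • d) a) (fderiv ℂ Q (P + t • d) b)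
      (fderiv ℂ Q (P + t • d) c))
      (det3 (pdd Q P d a) (fderiv ℂ Q P b) (fderiv ℂ Q P c)
        + det3 (fderiv ℂ Q P a) (pdd Q P d b) (fderiv ℂ Q P c)
        + det3 (fderiv ℂ Q P a) (fderiv ℂ Q P b) (pdd Q P d c)) 0 := by
  have h := hasLineDerivAt_pd Q hQ P d
  have := (((h a 0).mul (((h b 1).mul (h c 2)).sub ((h b 2).mul (h c 1)))).sub
    ((h a 1).mul (((h b 0).mul (h c 2)).sub ((h b 2).mul (h c 0))))).add
    ((h a 2).mul (((h b 0).mul (h c 1)).sub ((h b 1).mul (h c 0))))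
  refine HasDerivAt.congr_deriv this ?_
  simp [det3, pd]
  ring

theorem cdiv_jac (Q : S → Fin 3 → ℂ) (hQ : ContDiff ℂ 2 Q) (P : S) : cdiv (jac Q) P = 0 := by
  have hd : DifferentiableAt ℂ (jac Q) P := (contDiff_jac Q hQ).differentiable (by norm_num) P
  have key : ∀ d : S, fderiv ℂ (jac Q) P d =
      (![det3 (pdd Q P d ey) (fderiv ℂ Q P e0) (fderiv ℂ Q P e1)
          + det3 (fderiv ℂ Q P ey) (pdd Q P d e0) (fderiv ℂ Q P e1)
          + det3 (fderiv ℂ Q P ey) (fderiv ℂ Q P e0) (pdd Q P d e1),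
        -(det3 (pdd Q P d ex) (fderiv ℂ Q P e0) (fderiv ℂ Q P e1)
          + det3 (fderiv ℂ Q P ex) (pdd Q P d e0) (fderiv ℂ Q P e1)
          + det3 (fderiv ℂ Q P ex) (fderiv ℂ Q P e0) (pdd Q P d e1))],
       ![det3 (pdd Q P d ex) (fderiv ℂ Q P ey) (fderiv ℂ Q P e1)
          + det3 (fderiv ℂ Q P ex) (pdd Q P d ey) (fderiv ℂ Q P e1)
          + det3 (fderiv ℂ Q P ex) (fderiv ℂ Q P ey) (pdd Q P d e1),
        -(det3 (pdd Q P d ex) (fderiv ℂ Q P ey) (fderiv ℂ Q P e0)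
          + det3 (fderiv ℂ Q P ex) (pdd Q P d ey) (fderiv ℂ Q P e0)
          + det3 (fderiv ℂ Q P ex) (fderiv ℂ Q P ey) (pdd Q P d e0))]) := by
    intro d
    apply fderiv_eq_of_line _ _ _ hd
    have h := hasDerivAt_det3 Q hQ P d
    refine HasDerivAt.prodMk ?_ ?_
    · refine hasDerivAt_pi.2 fun i => ?_
      fin_cases i
      · exact h _ _ _
      · exact (h _ _ _).neg
    · refine hasDerivAt_pi.2 fun i => ?_
      fin_cases i
      · exact h _ _ _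
      · exact (h _ _ _).neg
  have hs := pdd_symm Q hQ P
  simp only [cdiv, key, Matrix.cons_val_zero, Matrix.cons_val_one, det3]
  simp only [hs ey ex, hs e0 ex, hs e1 ex, hs e0 ey, hs e1 ey, hs e1 e0]
  ring

theorem hasDerivAt_comp_curve {F : Type} [NormedAddCommGroup F] [NormedSpace ℂ F] (f : S → F)
    (γ : ℂ → S) (γ' : S) (hγ : HasDerivAt γ γ' 0) (hf : DifferentiableAt ℂ f (γ 0)) :
    HasDerivAt (fun t => f (γ t)) (fderiv ℂ f (γ 0) γ') 0 :=
  hf.hasFDerivAt.comp_hasDerivAt (0 : ℂ) hγ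

theorem hasDerivAt_base (φ0 φ1 : ℂ → ℂ) (d0 d1 : ℂ) (p : C2) (h0 : HasDerivAt φ0 d0 (p 0))
    (h1 : HasDerivAt φ1 d1 (p 1)) (e : C2) :
    HasDerivAt (fun t : ℂ => (![φ0 ((p + t • e) 0), φ1 ((p + t • e) 1)] : C2))
      ![d0 * e 0, d1 * e 1] 0 := by
  refine hasDerivAt_pi.2 fun i => ?_
  have hl : ∀ j : Fin 2, HasDerivAt (fun t : ℂ => (p + t • e) j) (e j) 0 := fun j => by
    simpa using ((hasDerivAt_id (0 : ℂ)).mul_const (e j)).const_add (p j)
  fin_cases i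
  · have h0' : HasDerivAt φ0 d0 ((fun t : ℂ => (p + t • e) 0) 0) := by simpa using h0
    exact h0'.comp (0 : ℂ) (hl 0)
  · have h1' : HasDerivAt φ1 d1 ((fun t : ℂ => (p + t • e) 1) 0) := by simpa using h1
    exact h1'.comp (0 : ℂ) (hl 1)

/-- columns of the derivative under a change of base coordinates and of the frame -/
theorem cols_change (Q Q' : S → Fin 3 → ℂ) (T : C2 → Matrix (Fin 2) (Fin 2) ℂ)
    (φ0 φ1 : ℂ → ℂ) (d0 d1 : ℂ) (p v : C2)
    (h0 : HasDerivAt φ0 d0 (p 0)) (h1 : HasDerivAt φ1 d1 (p 1))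
    (hT : ∀ i j, DifferentiableAt ℂ (fun p' => T p' i j) p)
    (hQ : DifferentiableAt ℂ Q (p, (T p).mulVec v))
    (hQ' : DifferentiableAt ℂ Q' (![φ0 (p 0), φ1 (p 1)], v))
    (heq : ∀ᶠ p' in nhds p, ∀ v', Q (p', (T p').mulVec v') = Q' (![φ0 (p' 0), φ1 (p' 1)], v'))
    (e w : C2) :
    ∃ a : C2, (e = 0 → a = 0) ∧ fderiv ℂ Q (p, (T p).mulVec v) (e, a + (T p).mulVec w) =
      fderiv ℂ Q' (![φ0 (p 0), φ1 (p 1)], v) (![d0 * e 0, d1 * e 1], w) := by
  have hp : HasDerivAt (fun t : ℂ => p + t • e) e 0 := by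
    simpa using ((hasDerivAt_id (0 : ℂ)).smul_const e).const_add p
  have hv : HasDerivAt (fun t : ℂ => v + t • w) w 0 := by
    simpa using ((hasDerivAt_id (0 : ℂ)).smul_const w).const_add v
  have hTe : ∀ i j, HasDerivAt (fun t : ℂ => T (p + t • e) i j)
      (fderiv ℂ (fun p' => T p' i j) p e) 0 := fun i j => by
    have : HasFDerivAt (fun p' => T p' i j) (fderiv ℂ (fun p' => T p' i j) p) (p + (0 : ℂ) • e) := by
      simpa using (hT i j).hasFDerivAt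
    exact this.comp_hasDerivAt (0 : ℂ) hp
  refine ⟨fun i => ∑ j, fderiv ℂ (fun p' => T p' i j) p e * v j, ?_, ?_⟩
  · rintro rfl
    ext i
    simp
  have hTv : HasDerivAt (fun t : ℂ => (T (p + t • e)).mulVec (v + t • w))
      ((fun i => ∑ j, fderiv ℂ (fun p' => T p' i j) p e * v j) + (T p).mulVec w) 0 := by
    refine hasDerivAt_pi.2 fun i => ?_
    have hvj : ∀ j, HasDerivAt (fun t : ℂ => (v + t • w) j) (w j) 0 := fun j =>
      hasDerivAt_pi.1 hv j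
    have := ((hTe i 0).mul (hvj 0)).add ((hTe i 1).mul (hvj 1))
    refine HasDerivAt.congr_deriv (this.congr_of_eventuallyEq ?_) ?_
    · refine Filter.Eventually.of_forall fun t => ?_
      simp [Matrix.mulVec, dotProduct, Fin.sum_univ_two]
    · simp only [Pi.add_apply, Matrix.mulVec, dotProduct, Fin.sum_univ_two, zero_smul, add_zero,
        Pi.zero_apply]
      ring
  have hL := hasDerivAt_comp_curve Q (fun t => (p + t • e, (T (p + t • e)).mulVec (v + t • w))) _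
    (hp.prodMk hTv) (by simpa using hQ)
  have hR := hasDerivAt_comp_curve Q'
    (fun t => (![φ0 ((p + t • e) 0), φ1 ((p + t • e) 1)], v + t • w)) _
    ((hasDerivAt_base φ0 φ1 d0 d1 p h0 h1 e).prodMk hv) (by simpa using hQ')
  have hc : Filter.Tendsto (fun t : ℂ => p + t • e) (nhds 0) (nhds p) := by
    simpa using hp.continuousAt.tendsto
  have hE := (hc.eventually heq).mono fun t ht => ht (v + t • w)
  have := (hL.congr_of_eventuallyEq (Filter.EventuallyEq.symm hE)).unique hR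
  simpa using this

theorem jac_change (Q Q' : S → Fin 3 → ℂ) (T : C2 → Matrix (Fin 2) (Fin 2) ℂ)
    (φ0 φ1 : ℂ → ℂ) (d0 d1 : ℂ) (p v : C2)
    (h0 : HasDerivAt φ0 d0 (p 0)) (h1 : HasDerivAt φ1 d1 (p 1))
    (hT : ∀ i j, DifferentiableAt ℂ (fun p' => T p' i j) p)
    (hQ : DifferentiableAt ℂ Q (p, (T p).mulVec v))
    (hQ' : DifferentiableAt ℂ Q' (![φ0 (p 0), φ1 (p 1)], v))
    (heq : ∀ᶠ p' in nhds p, ∀ v', Q (p', (T p').mulVec v') = Q' (![φ0 (p' 0), φ1 (p' 1)], v')) :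
    (jac Q (p, (T p).mulVec v)).1 0 * (T p).det = d1 * (jac Q' (![φ0 (p 0), φ1 (p 1)], v)).1 0 ∧
    (jac Q (p, (T p).mulVec v)).1 1 * (T p).det = d0 * (jac Q' (![φ0 (p 0), φ1 (p 1)], v)).1 1 := by
  have H := cols_change Q Q' T φ0 φ1 d0 d1 p v h0 h1 hT hQ hQ' heq
  obtain ⟨a, -, ha⟩ := H (Pi.single 0 1) 0
  obtain ⟨b, -, hb⟩ := H (Pi.single 1 1) 0
  obtain ⟨c, hc0, hc⟩ := H 0 (Pi.single 0 1)
  obtain ⟨d, hd0, hd⟩ := H 0 (Pi.single 1 1)
  rw [hc0 rfl] at hc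
  rw [hd0 rfl] at hd
  rw [clm_apply_S, clm_apply_S (fderiv ℂ Q' _)] at ha hb hc hd
  set D := fderiv ℂ Q (p, (T p).mulVec v)
  set D' := fderiv ℂ Q' (![φ0 (p 0), φ1 (p 1)], v)
  have ha' := fun i => congrFun ha i
  have hb' := fun i => congrFun hb i
  have hc' := fun i => congrFun hc i
  have hd' := fun i => congrFun hd i
  simp at ha' hb' hc' hd'
  have e1' : d1 * det3 (D' ey) (D' e0) (D' e1) =
      det3 (fun i => d1 * D' ey i) (D' e0) (D' e1) := by simp [det3]; ring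
  have e0' : d0 * -det3 (D' ex) (D' e0) (D' e1) =
      -det3 (fun i => d0 * D' ex i) (D' e0) (D' e1) := by simp [det3]; ring
  constructor
  · show det3 (D ey) (D e0) (D e1) * (T p).det = d1 * det3 (D' ey) (D' e0) (D' e1)
    rw [e1', Matrix.det_fin_two]
    simp only [det3, ← hb', ← hc', ← hd']
    ring
  · show -det3 (D ex) (D e0) (D e1) * (T p).det = d0 * -det3 (D' ex) (D' e0) (D' e1)
    rw [e0', Matrix.det_fin_two]
    simp only [det3, ← ha', ← hc', ← hd']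
    ring

theorem jac_base (Q' : S → Fin 3 → ℂ) (φ0 φ1 : ℂ → ℂ) (d0 d1 : ℂ) (p v : C2)
    (h0 : HasDerivAt φ0 d0 (p 0)) (h1 : HasDerivAt φ1 d1 (p 1))
    (hQ' : DifferentiableAt ℂ Q' (![φ0 (p 0), φ1 (p 1)], v)) :
    jac (fun P => Q' (![φ0 (P.1 0), φ1 (P.1 1)], P.2)) (p, v) =
      (![d1 * (jac Q' (![φ0 (p 0), φ1 (p 1)], v)).1 0, d0 * (jac Q' (![φ0 (p 0), φ1 (p 1)], v)).1 1],
        (d0 * d1) • (jac Q' (![φ0 (p 0), φ1 (p 1)], v)).2) := by
  have hΦ : DifferentiableAt ℂ (fun P : S => ((![φ0 (P.1 0), φ1 (P.1 1)] : C2), P.2)) (p, v) := by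
    refine DifferentiableAt.prodMk ?_ differentiableAt_snd
    refine differentiableAt_pi.2 fun i => ?_
    fin_cases i
    · exact h0.differentiableAt.comp (p, v) (f := fun P : S => P.1 0) (by fun_prop)
    · exact h1.differentiableAt.comp (p, v) (f := fun P : S => P.1 1) (by fun_prop)
  have hQ : DifferentiableAt ℂ (fun P : S => Q' (![φ0 (P.1 0), φ1 (P.1 1)], P.2)) (p, v) :=
    hQ'.comp (p, v) hΦ
  have key : ∀ e w : C2, fderiv ℂ (fun P : S => Q' (![φ0 (P.1 0), φ1 (P.1 1)], P.2)) (p, v) (e, w) =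
      fderiv ℂ Q' (![φ0 (p 0), φ1 (p 1)], v) (![d0 * e 0, d1 * e 1], w) := by
    intro e w
    apply fderiv_eq_of_line _ _ _ hQ
    have hv : HasDerivAt (fun t : ℂ => v + t • w) w 0 := by
      simpa using ((hasDerivAt_id (0 : ℂ)).smul_const w).const_add v
    have hR := hasDerivAt_comp_curve Q'
      (fun t => (![φ0 ((p + t • e) 0), φ1 ((p + t • e) 1)], v + t • w)) _
      ((hasDerivAt_base φ0 φ1 d0 d1 p h0 h1 e).prodMk hv) (by simpa using hQ')
    simpa using hR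
  set D' := fderiv ℂ Q' (![φ0 (p 0), φ1 (p 1)], v)
  have kx : fderiv ℂ (fun P : S => Q' (![φ0 (P.1 0), φ1 (P.1 1)], P.2)) (p, v) ex = d0 • D' ex := by
    rw [ex, key, clm_apply_S]; simp [ex]
  have ky : fderiv ℂ (fun P : S => Q' (![φ0 (P.1 0), φ1 (P.1 1)], P.2)) (p, v) ey = d1 • D' ey := by
    rw [ey, key, clm_apply_S]; simp [ey]
  have k0 : fderiv ℂ (fun P : S => Q' (![φ0 (P.1 0), φ1 (P.1 1)], P.2)) (p, v) e0 = D' e0 := by
    rw [e0, key, clm_apply_S]; simp [e0]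
  have k1 : fderiv ℂ (fun P : S => Q' (![φ0 (P.1 0), φ1 (P.1 1)], P.2)) (p, v) e1 = D' e1 := by
    rw [e1, key, clm_apply_S]; simp [e1]
  ext i <;> fin_cases i <;> simp [jac, kx, ky, k0, k1, det3, D'] <;> ring

end Crest.Agent.R258
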